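import Vale.Agent.P007.S11.Final

/-! Arithmetic inputs: spread of elements of an order, ideal counts, the volume of a packet. -/

set_option autoImplicit false

open NumberField Matrix
open scoped ENNReal

namespace Vale.Agent.P007M

open Vale.Agent.P007 Vale.Agent.P007.N Vale.Agent.P007.Fib Vale.Agent.P007.S11

variable {n : ℕ}

/-! ### the spread of an element -/

/-- `n` independent vectors of the order have a determinant at least `√disc` -/
theorem sqrt_disc_le_det (D : Datum n) {V : Matrix (Fin n) (Fin n) ℝ} (hV : ∀ i, V i ∈ RE D)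
    (h0 : V.det ≠ 0) : √(D.disc : ℝ) ≤ |V.det| := by
  obtain ⟨A, hA, hl⟩ := exists_mat_order D
  obtain ⟨P, hP⟩ := exists_int_mul (M := V) (N := A) fun i => by
    rw [hl]
    exact hV i
  rw [hP, det_mul, cast_det] at h0 ⊢
  have h1 : (1 : ℝ) ≤ |(P.det : ℝ)| := by
    exact_mod_cast Int.one_le_abs (by exact_mod_cast left_ne_zero_of_mul h0 : P.det ≠ 0)
  rw [abs_mul, abs_det_order D hA hl]
  exact le_mul_of_one_le_left (Real.sqrt_nonneg _) h1

theorem disc_le_prod (D : Datum n) {x : Fin n → ℝ} (hx : x ∈ RE D) (hi : Function.Injective x) :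
    √(D.disc : ℝ) ≤ ∏ j, ∏ k ∈ Finset.Ioi j, |x k - x j| := by
  have h := sqrt_disc_le_det D (V := (vandermonde x)ᵀ) (fun i => (RE D).pow_mem hx i)
    (by rw [det_transpose]; exact det_vandermonde_ne_zero_iff.2 hi)
  rwa [det_transpose, det_vandermonde, Finset.abs_prod,
    Finset.prod_congr rfl fun _ _ => Finset.abs_prod _ _] at h

theorem sum_card_Ioi (n : ℕ) : (∑ j : Fin n, (Finset.Ioi j).card) * 2 = n * (n - 1) := by
  simp only [Fin.card_Ioi]
  rw [Fin.sum_univ_eq_sum_range (fun j => n - 1 - j), Finset.sum_range_reflect (fun j => j),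
    Finset.sum_range_id_mul_two]

/-- an element with distinct conjugates has a large spread -/
theorem disc_le_pow (D : Datum n) {x : Fin n → ℝ} (hx : x ∈ RE D) (hi : Function.Injective x)
    {b : ℝ} (hb : ∀ j k, |x j - x k| ≤ b) : (D.disc : ℝ) ≤ b ^ (n * (n - 1)) := by
  have h1 : √(D.disc : ℝ) ≤ b ^ (∑ j : Fin n, (Finset.Ioi j).card) := by
    refine (disc_le_prod D hx hi).trans ?_
    rw [← Finset.prod_pow_eq_pow_sum]
    refine Finset.prod_le_prod (fun _ _ => Finset.prod_nonneg fun _ _ => abs_nonneg _) fun j _ => ?_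
    rw [← Finset.prod_const]
    exact Finset.prod_le_prod (fun _ _ => abs_nonneg _) fun k _ => hb k j
  rw [← sum_card_Ioi, pow_mul, ← Real.sq_sqrt (Nat.cast_nonneg D.disc)]
  exact pow_le_pow_left₀ (Real.sqrt_nonneg _) h1 2

theorem spread (D : Datum n) (hn : 2 ≤ n) {x : Fin n → ℝ} (hx : x ∈ RE D)
    (hi : Function.Injective x) :
    ∃ j k, (D.disc : ℝ) ^ (1 / ((n : ℝ) * (n - 1))) ≤ |x j - x k| := by
  have : Nonempty (Fin n) := ⟨⟨0, by omega⟩⟩
  obtain ⟨q, hq⟩ := Finite.exists_max fun q : Fin n × Fin n => |x q.1 - x q.2|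
  refine ⟨q.1, q.2, ?_⟩
  have h := disc_le_pow D hx hi fun j k => hq (j, k)
  have e : (n : ℝ) * (n - 1) = (n * (n - 1) : ℕ) := by
    rw [Nat.cast_mul, Nat.cast_sub (by omega), Nat.cast_one]
  rw [e, one_div]
  refine (Real.rpow_le_rpow (Nat.cast_nonneg _) h (by positivity)).trans_eq ?_
  exact Real.pow_rpow_inv_natCast (abs_nonneg _) (Nat.mul_ne_zero (by omega) (by omega))

/-- a generator of the field has distinct conjugates -/
theorem inj_of_top (D : Datum n) {a : D.K} (h : IntermediateField.adjoin ℚ {a} = ⊤) :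
    Function.Injective (sE D a) := fun j k e => by
  refine D.σ.injective (RingHom.ext fun y => ?_)
  have hy : y ∈ IntermediateField.adjoin ℚ {a} := h ▸ IntermediateField.mem_top
  induction hy using IntermediateField.adjoin_induction with
  | mem x hx => exact hx ▸ e
  | algebraMap x => simp
  | add x y _ _ h1 h2 => rw [map_add, map_add, h1, h2]
  | inv x _ h1 => rw [map_inv₀, map_inv₀, h1]
  | mul x y _ _ h1 h2 => rw [map_mul, map_mul, h1, h2]

theorem inj_of_prim (D : Datum n) (hp : ∀ E : IntermediateField ℚ D.K, E = ⊥ ∨ E = ⊤)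
    {x : Fin n → ℝ} (hx : x ∈ RE D) : Function.Injective x ∨ ∃ z : ℤ, x = fun _ => (z : ℝ) := by
  obtain ⟨r, -, rfl⟩ := (mem_RE D).1 hx
  refine (hp (IntermediateField.adjoin ℚ {(r : D.K)})).symm.imp (inj_of_top D) fun h => ?_
  have h1 : (r : D.K) ∈ (⊥ : IntermediateField ℚ D.K) :=
    h ▸ IntermediateField.mem_adjoin_simple_self ℚ _
  obtain ⟨q, hq⟩ := IntermediateField.mem_bot.1 h1
  have h2 : IsIntegral ℤ q := (isIntegral_algebraMap_iff (algebraMap ℚ D.K).injective).1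
    (hq ▸ r.isIntegral_coe)
  obtain ⟨z, rfl⟩ := IsIntegrallyClosed.isIntegral_iff.1 h2
  refine ⟨z, funext fun j => ?_⟩
  rw [← hq, sE_apply]
  simp

/-- **In a primitive field the elements of the order outside `ℤ` have a large spread.** -/
theorem lam_one (D : Datum n) (hn : 2 ≤ n) (hp : ∀ E : IntermediateField ℚ D.K, E = ⊥ ∨ E = ⊤)
    {x : Fin n → ℝ} (hx : x ∈ RE D) : (∃ z : ℤ, x = fun _ => (z : ℝ)) ∨
      ∃ j k, (D.disc : ℝ) ^ (1 / ((n : ℝ) * (n - 1))) ≤ |x j - x k| :=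
  (inj_of_prim D hp hx).symm.imp_right (spread D hn hx)

/-! ### ideal counts -/

theorem rO_le_tau (D : Datum n) {m : ℕ} (hm : m ≠ 0) (h : m.Coprime D.ind) :
    rO D m ≤ m.divisors.card ^ n := by
  induction m using Nat.recOnPosPrimePosCoprime with
  | prime_pow p k hp hk =>
    rw [Nat.divisors_prime_pow hp, Finset.card_map, Finset.card_range]
    exact ro_pow n D p k hp ((Nat.Prime.coprime_iff_not_dvd hp).1
      (h.coprime_dvd_left (dvd_pow_self p hk.ne')))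
  | zero => exact absurd rfl hm
  | one => simp [Loc.rO_one]
  | coprime a b ha hb hab iha ihb =>
    rw [hab.card_divisors_mul, mul_pow]
    exact (Loc.rO_sub D a b hab).trans (Nat.mul_le_mul (iha (by omega) h.coprime_mul_right)
      (ihb (by omega) h.coprime_mul_left))

theorem sum_rO_le (n : ℕ) {ε : ℝ} (hε : 0 < ε) : ∃ C : ℝ, 0 < C ∧ ∀ (D : Datum n) (N : ℕ), N ≠ 0 →
    ∑ m ∈ N.divisors.filter (fun m => m.Coprime D.ind), (rO D m : ℝ) ≤ C * (N : ℝ) ^ ε := by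
  obtain ⟨C, hC, hτ⟩ := divisor_bound (ε / (n + 1)) (by positivity)
  refine ⟨C ^ (n + 1), by positivity, fun D N hN => ?_⟩
  calc ∑ m ∈ N.divisors.filter (fun m => m.Coprime D.ind), (rO D m : ℝ)
      ≤ ∑ _m ∈ N.divisors, (N.divisors.card : ℝ) ^ n := by
        refine (Finset.sum_le_sum fun m hm => ?_).trans (Finset.sum_le_sum_of_subset_of_nonneg
          (Finset.filter_subset _ _) fun _ _ _ => by positivity)
        obtain ⟨h1, h2⟩ := Finset.mem_filter.1 hm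
        have h3 := Nat.dvd_of_mem_divisors h1
        exact_mod_cast (rO_le_tau D (ne_zero_of_dvd_ne_zero hN h3) h2).trans (Nat.pow_le_pow_left
          (Finset.card_le_card (Nat.divisors_subset_of_dvd hN h3)) n)
    _ = (N.divisors.card : ℝ) ^ (n + 1) := by rw [Finset.sum_const, nsmul_eq_mul, pow_succ']
    _ ≤ (C * (N : ℝ) ^ (ε / (n + 1))) ^ (n + 1) := pow_le_pow_left₀ (by positivity) (hτ N hN) _
    _ = C ^ (n + 1) * (N : ℝ) ^ ε := by
        rw [mul_pow, ← Real.rpow_natCast ((N : ℝ) ^ (ε / (n + 1))), ← Real.rpow_mul (by positivity)]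
        congr 2
        push_cast
        field_simp

/-- **Rankin's trick for the primes of the index** -/
theorem rankin_ind (n : ℕ) (hn : 1 ≤ n) {ε : ℝ} (hε : 0 < ε) : ∃ X₀ : ℝ, ∀ (D : Datum n) (x : ℝ),
    X₀ ≤ x → √(D.disc : ℝ) ≤ x → ∀ S : Finset ℕ,
      (∀ b ∈ S, 1 ≤ b ∧ (b : ℝ) ≤ 2 * x ∧ ∀ p : ℕ, p.Prime → p ∣ b → p ∣ D.ind) →
      ∑ b ∈ S, (rO D b : ℝ) / (b : ℝ) ^ (1 - 1 / (10 * n) : ℝ) ≤ x ^ ε := by
  obtain ⟨B, hB⟩ := rO_HT n hn
  obtain ⟨X₀, h⟩ := rankin_small124 n hn B ε hε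
  refine ⟨max X₀ 2, fun D x hx hD S hS => ?_⟩
  obtain ⟨h1, h2, h3, h4, h5, h6⟩ := hB D
  have hx2 : 2 ≤ x := (le_max_right _ _).trans hx
  refine h (insert 2 D.ind.primeFactors) (fun m => if m = 1 then 1 else 0) _ _
    ⟨h1, h2, h3, h4, h5, h6, fun p k hp hT => ?_⟩ x ((le_max_left _ _).trans hx) ?_ S
    fun b hb => ⟨(hS b hb).1, (hS b hb).2.1, fun p hp hd => .inr (Finset.mem_insert_of_mem
      (Nat.mem_primeFactors.2 ⟨hp, (hS b hb).2.2 p hp hd, D.ind_ne_zero⟩))⟩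
  · rw [ac, Finset.sum_ite_eq', if_pos (Nat.one_mem_divisors.2 (pow_ne_zero _ hp.ne_zero)), mul_one]
    exact_mod_cast ro_pow n D p k hp fun c => hT (Finset.mem_insert_of_mem
      (Nat.mem_primeFactors.2 ⟨hp, c, D.ind_ne_zero⟩))
  · have h7 : Real.log (2 * √(D.disc : ℝ)) ≤ Real.log (x ^ 2) :=
      Real.log_le_log (mul_pos two_pos (disc_pos D)) (by nlinarith [disc_pos D])
    rw [Real.log_pow] at h7
    have h8 := card_T_le D
    push_cast at h7
    linarith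

/-! ### the volume -/

theorem inv_log_le_HO (D : Datum n) (hn : 0 < n) {X : ℝ} (hX : 1 ≤ X) :
    (Real.log X)⁻¹ ≤ HO D X := by
  obtain ⟨B, hB⟩ := rO_HT n hn
  refine le_mul_of_one_le_right (inv_nonneg.2 (Real.log_nonneg hX)) ?_
  exact Finset.prod_induction _ (1 ≤ ·) (fun _ _ => one_le_mul_of_one_le_of_one_le) le_rfl
    fun p hp => (hB D).U1 p (mem_P2.1 hp).2

theorem vol_ge_log (n : ℕ) (hn : 3 ≤ n) {ε : ℝ} (hε : 0 < ε) : ∃ (c : ℝ) (D₀ : ℕ), 0 < c ∧
    ∀ D : Datum n, D₀ ≤ D.disc → 1 ≤ Real.log (3 ^ n * √(D.disc : ℝ)) ∧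
      c * √(D.disc : ℝ) * (D.disc : ℝ) ^ (-ε) / Real.log (3 ^ n * √(D.disc : ℝ)) ^ 2 ≤
        (vol D).toReal := by
  obtain ⟨Cq, -, h7⟩ := qd quad_char (char137 pv137)
  obtain ⟨cq, hcq, h7⟩ := h7 ε hε
  obtain ⟨Ce, Xe, h8⟩ := del_exc res zeta_up
  obtain ⟨Ca, ℓa, h9⟩ := del_add n
  obtain ⟨cv, Dv, hcv, h12⟩ := vol_exp n hn
  obtain ⟨cw, hcw, hw⟩ := Wp_lower
  obtain ⟨Dm, hDm⟩ := exists_nat_ge (max Xe (Real.exp (|ℓa| + 1)) ^ 2)
  refine ⟨cv * Real.exp (-(|Ce| + Ca)) * min 1 (cq * cw), max Dv Dm, by positivity, fun D hD => ?_⟩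
  have hM : max Xe (Real.exp (|ℓa| + 1)) ≤ √(D.disc : ℝ) :=
    Real.le_sqrt_of_sq_le (hDm.trans (by exact_mod_cast (le_max_right _ _).trans hD))
  have hv := h12 D ((le_max_left _ _).trans hD)
  have hHO := fun h => inv_log_le_HO D (X := 3 ^ n * √(D.disc : ℝ)) (by omega) h
  have hs0 := disc_pos D
  have hsq : √(D.disc : ℝ) ^ 2 = (D.disc : ℝ) := Real.sq_sqrt (Nat.cast_nonneg _)
  have hsX : √(D.disc : ℝ) ≤ 3 ^ n * √(D.disc : ℝ) :=
    le_mul_of_one_le_left hs0.le (one_le_pow₀ (by norm_num))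
  generalize 3 ^ n * √(D.disc : ℝ) = X at hv hHO hsX ⊢
  have hl : |ℓa| + 1 ≤ Real.log X := (Real.le_log_iff_exp_le (hs0.trans_le hsX)).2
    ((le_max_right _ _).trans (hM.trans hsX))
  have hl1 : 1 ≤ Real.log X := by linarith only [hl, abs_nonneg ℓa]
  have hX2 : 2 ≤ X := by linarith only [hl1, Real.log_le_sub_one_of_pos (hs0.trans_le hsX)]
  have hdX : (D.disc : ℝ) ≤ X ^ 2 := hsq ▸ pow_le_pow_left₀ hs0.le hsX 2
  have hdK : |(discr D.K : ℝ)| ≤ (D.disc : ℝ) := by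
    have h4 := disc_mx_le D
    rw [disc_mx] at h4
    rw [← Int.cast_abs, ← Nat.cast_natAbs]
    exact_mod_cast h4
  have hd1 : ∀ (E : Type) [Field E] [NumberField E], (1 : ℝ) ≤ |(discr E : ℝ)| := fun E _ _ => by
    exact_mod_cast Int.one_le_abs (discr_ne_zero E)
  have hD1 : (1 : ℝ) ≤ D.disc := (hd1 _).trans hdK
  have hp0 : 0 < (D.disc : ℝ) ^ (-ε) := by positivity
  have hp1 : (D.disc : ℝ) ^ (-ε) ≤ 1 := Real.rpow_le_one_of_one_le_of_nonpos hD1 (by linarith)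
  obtain ⟨δ, hδ⟩ : ∃ δ, δ = min 1 (cq * cw) * (D.disc : ℝ) ^ (-ε) / Real.log X := ⟨_, rfl⟩
  have hδ0 : 0 < δ := by rw [hδ]; positivity
  have hδ1 : δ ≤ 1 := hδ ▸ (div_le_one (by linarith only [hl1])).2
    ((mul_le_one₀ (min_le_left _ _) hp0.le hp1).trans hl1)
  have h1 := hv (|Ce| - Real.log δ + Ca) (h9 D.K D.deg _ (by linarith only [hl, hl1, le_abs_self ℓa])
    (by exact_mod_cast Real.log_pow X 2 ▸ Real.log_le_log (one_pos.trans_le (hd1 _)) (hdK.trans hdX))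
    _ (by linarith only [abs_nonneg Ce, Real.log_nonpos hδ0.le hδ1]) fun E hE η hη hη1 => by
      obtain ⟨χ, Q, L, hQ, hL⟩ := h7 E hE
      have e1 : |(discr E : ℝ)| ≤ D.disc := by
        nlinarith only [hd1 E, (disc_sq D.K E hE (by rw [D.deg]; omega)).trans hdK]
      have e2 := h8 E hE Cq χ Q L hQ X ((le_max_left _ _).trans (hM.trans hsX)) (e1.trans hdX) η hη
        hη1
      have e3 := hw χ (fun m => by rcases hQ.qc.val m with h | h | h <;> simp [h]) X hX2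
      have e4 : cq * (D.disc : ℝ) ^ (-ε) ≤ L := le_trans (mul_le_mul_of_nonneg_left
        (Real.rpow_le_rpow_of_nonpos (one_pos.trans_le (hd1 E)) e1 (by linarith)) hcq.le) hL
      have e5 : δ ≤ L * Wp χ X * Real.log X := by
        calc δ ≤ cq * cw * (D.disc : ℝ) ^ (-ε) / Real.log X := by
              rw [hδ]
              gcongr
              exact min_le_right _ _
          _ = cq * (D.disc : ℝ) ^ (-ε) * (cw / Real.log X ^ 2) * Real.log X := by field_simp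
          _ ≤ _ := by
              have := hQ.pos.le
              gcongr
      linarith only [e2, Real.log_le_log hδ0 e5, le_abs_self Ce])
  refine ⟨hl1, le_trans ?_ h1⟩
  rw [show -(|Ce| - Real.log δ + Ca) = -(|Ce| + Ca) + Real.log δ by ring, Real.exp_add,
    Real.exp_log hδ0]
  calc _ = cv * (Real.exp (-(|Ce| + Ca)) * δ) * √(D.disc : ℝ) * (Real.log X)⁻¹ := by
        rw [hδ]
        field_simp
    _ ≤ _ := by
        gcongr
        exact hHO (by linarith only [hX2])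

/-- **The volume of the packet is at least `disc ^ (1 / 2 - ε)`.** -/
theorem vol_ge (n : ℕ) (hn : 3 ≤ n) {ε : ℝ} (hε : 0 < ε) : ∃ (c : ℝ) (D₀ : ℕ), 0 < c ∧
    ∀ D : Datum n, D₀ ≤ D.disc → c * (D.disc : ℝ) ^ (1 / 2 - ε) ≤ (vol D).toReal := by
  obtain ⟨c, D₀, hc, h⟩ := vol_ge_log n hn (half_pos hε)
  refine ⟨c / ((3 ^ n) ^ (ε / 2) / (ε / 2)) ^ 2, D₀, by positivity, fun D hD => ?_⟩
  obtain ⟨h1, h2⟩ := h D hD
  have hs := disc_pos D
  have hd : (0 : ℝ) < D.disc := Real.sqrt_pos.1 hs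
  have h3 : Real.log (3 ^ n * √(D.disc : ℝ)) ≤
      (3 ^ n) ^ (ε / 2) / (ε / 2) * (D.disc : ℝ) ^ (ε / 4) := by
    refine (Real.log_le_rpow_div (by positivity) (half_pos hε)).trans_eq ?_
    rw [Real.mul_rpow (by positivity) hs.le, Real.sqrt_eq_rpow, ← Real.rpow_mul hd.le,
      show 1 / 2 * (ε / 2) = ε / 4 by ring]
    ring
  refine le_trans ?_ h2
  calc _ = c * √(D.disc : ℝ) * (D.disc : ℝ) ^ (-(ε / 2)) /
        ((3 ^ n) ^ (ε / 2) / (ε / 2) * (D.disc : ℝ) ^ (ε / 4)) ^ 2 := by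
        rw [mul_pow, ← Real.rpow_natCast ((D.disc : ℝ) ^ (ε / 4)), ← Real.rpow_mul hd.le,
          Real.sqrt_eq_rpow, mul_assoc, ← Real.rpow_add hd, ← div_mul_div_comm, ← Real.rpow_sub hd]
        congr 2
        push_cast
        ring
    _ ≤ _ := by gcongr

theorem vol_inv_le (n : ℕ) (hn : 3 ≤ n) {ε : ℝ} (hε : 0 < ε) : ∃ (C : ℝ) (D₀ : ℕ), 0 < C ∧
    ∀ D : Datum n, D₀ ≤ D.disc →
      (vol D)⁻¹ ≤ ENNReal.ofReal (C * (D.disc : ℝ) ^ (ε - 1 / 2)) := by
  obtain ⟨c, D₀, hc, h⟩ := vol_ge n hn hε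
  refine ⟨c⁻¹, D₀, by positivity, fun D hD => ?_⟩
  have hd : (0 : ℝ) < D.disc := Real.sqrt_pos.1 (disc_pos D)
  rw [← neg_sub, Real.rpow_neg hd.le, ← mul_inv, ENNReal.ofReal_inv_of_pos (by positivity)]
  exact ENNReal.inv_le_inv.2 (ENNReal.ofReal_le_of_le_toReal (h D hD))

end Vale.Agent.P007M
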