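import Vale.Agent.P007M.Cov

/-!
# P007M: boxes around the identity and their covering numbers
-/

set_option linter.all false

open MeasureTheory Filter Topology Set Function Real
open scoped ENNReal Pointwise

namespace Vale.Agent.P007M

open Vale.Agent.P007 Vale.Agent.P007.Koopman

noncomputable section

variable {n : ℕ} {t t' s : Fin n → Fin n → ℝ} {ρ ρ' r : ℝ} {a b : Matrix (Fin n) (Fin n) ℝ}
  {g h : G n}

/-- valid arrays of thicknesses -/
def Valid (t : Fin n → Fin n → ℝ) : Prop := ∀ a b c, t a b ≤ t a c + t c b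

theorem Valid.sup (h : Valid t) (h' : Valid t') : Valid (t ⊔ t') := fun a b c => sup_le
  ((h a b c).trans (add_le_add le_sup_left le_sup_left))
  ((h' a b c).trans (add_le_add le_sup_right le_sup_right))

theorem Valid.diag (h : Valid t) (a : Fin n) : 0 ≤ t a a := by linarith [h a a a]

/-- the weighted norm -/
def nt (t : Fin n → Fin n → ℝ) (a : Matrix (Fin n) (Fin n) ℝ) : ℝ :=
  ‖fun j k => a j k * exp (t j k)‖

theorem nt_nonneg : 0 ≤ nt t a := norm_nonneg _

lemma abs_w (x y : ℝ) : ‖x * exp y‖ = |x| / exp (-y) := by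
  rw [norm_eq_abs, abs_mul, abs_exp, exp_neg, div_inv_eq_mul]

theorem nt_le (h : 0 ≤ r) : nt t a ≤ r ↔ ∀ j k, |a j k| ≤ r * exp (-t j k) := by
  simp only [nt, pi_norm_le_iff_of_nonneg h, abs_w, div_le_iff₀ (exp_pos _)]

theorem nt_lt (h : 0 < r) : nt t a < r ↔ ∀ j k, |a j k| < r * exp (-t j k) := by
  simp only [nt, pi_norm_lt_iff h, abs_w, div_lt_iff₀ (exp_pos _)]

theorem le_nt (j k : Fin n) : |a j k| ≤ nt t a * exp (-t j k) := (nt_le nt_nonneg).1 le_rfl j k

theorem nt_mono (h : t ≤ t') : nt t a ≤ nt t' a := (nt_le nt_nonneg).2 fun j k =>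
  (le_nt (t := t') j k).trans (mul_le_mul_of_nonneg_left (exp_le_exp.2 (neg_le_neg (h j k))) nt_nonneg)

theorem nt_add : nt t (a + b) ≤ nt t a + nt t b := (nt_le (add_nonneg nt_nonneg nt_nonneg)).2
  fun j k => (abs_add_le _ _).trans (by rw [add_mul]; exact add_le_add (le_nt j k) (le_nt j k))

theorem nt_neg : nt t (-a) = nt t a := by
  rw [nt, nt, ← norm_neg]; congr 1; ext j k; simp

theorem nt_sub : nt t (a - b) ≤ nt t a + nt t b := by
  rw [sub_eq_add_neg, ← nt_neg (a := b)]; exact nt_add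

theorem nt_mul (v : Valid t) : nt t (a * b) ≤ n * nt t a * nt t b := by
  have := @nt_nonneg n t a
  have := @nt_nonneg n t b
  refine (nt_le (by positivity)).2 fun j k => (Finset.abs_sum_le_sum_abs _ _).trans
    ((Finset.sum_le_card_nsmul (Finset.univ : Finset (Fin n)) _ (nt t a * nt t b * exp (-t j k))
      fun l _ => ?_).trans_eq
      (by rw [Finset.card_univ, Fintype.card_fin, nsmul_eq_mul]; ring))
  rw [abs_mul]
  refine (mul_le_mul (le_nt (t := t) j l) (le_nt (t := t) l k) (abs_nonneg _) (by positivity)).trans ?_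
  rw [mul_mul_mul_comm, ← exp_add]
  exact mul_le_mul_of_nonneg_left (exp_le_exp.2 (by linarith [v j k l])) (by positivity)

theorem nt_mul_one (v : Valid t) :
    nt t (a * b - 1) ≤ nt t (a - 1) + nt t (b - 1) + n * nt t (a - 1) * nt t (b - 1) := by
  rw [show a * b - 1 = (a - 1) + (b - 1) + (a - 1) * (b - 1) by noncomm_ring]
  exact nt_add.trans (add_le_add nt_add (nt_mul v))

/-- division -/
theorem nt_div {c : Matrix (Fin n) (Fin n) ℝ} (v : Valid t) (e : c * a = b) :
    nt t (c - 1) * (1 - n * nt t (a - 1)) ≤ nt t (a - 1) + nt t (b - 1) := by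
  have k := (nt_sub (a := b - 1 - (a - 1)) (b := (c - 1) * (a - 1))).trans
    (add_le_add nt_sub (nt_mul v))
  rw [show (b - 1) - (a - 1) - (c - 1) * (a - 1) = c - 1 by rw [← e]; noncomm_ring] at k
  linarith

@[simp] theorem nt_zero : nt t 0 = 0 := nt_nonneg.antisymm' ((nt_le le_rfl).2 (by simp))

theorem cont_nt : Continuous (nt t) := by unfold nt; fun_prop

/-- **boxes** -/
def bx (ρ : ℝ) (t : Fin n → Fin n → ℝ) : Set (G n) :=
  {h | ∀ j k, |(h.1 - 1) j k| < ρ * exp (-t j k)}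

theorem mem_bx (k : 0 < ρ) : h ∈ bx ρ t ↔ nt t (h.1 - 1) < ρ := (nt_lt k).symm

theorem open_bx : IsOpen (bx ρ t) := by
  simp only [bx, setOf_forall]
  exact isOpen_iInter_of_finite fun j => isOpen_iInter_of_finite fun k => isOpen_lt
    ((continuous_subtype_val.sub continuous_const).matrix_elem j k).abs continuous_const

theorem meas_bx : MeasurableSet (bx ρ t) := open_bx.measurableSet

theorem one_mem_bx (k : 0 < ρ) : (1 : G n) ∈ bx ρ t := (mem_bx k).2 (by simpa using k)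

theorem bx_nhds (k : 0 < ρ) : bx ρ t ∈ 𝓝 (1 : G n) := open_bx.mem_nhds (one_mem_bx k)

theorem bx_mono (k : 0 ≤ ρ) (e : ρ ≤ ρ') (h : t ≤ t') : bx ρ t' ⊆ bx ρ' t := fun _ hg j l =>
  (hg j l).trans_le (mul_le_mul e (exp_le_exp.2 (neg_le_neg (h j l))) (exp_pos _).le (k.trans e))

theorem bx_sup (k : 0 ≤ ρ) : bx ρ (t ⊔ t') = bx ρ t ∩ bx ρ t' :=
  (subset_inter (bx_mono k le_rfl le_sup_left) (bx_mono k le_rfl le_sup_right)).antisymm
    fun g hg j l => by
      rcases le_total (t j l) (t' j l) with e | e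
      · simpa [e] using hg.2 j l
      · simpa [e] using hg.1 j l

theorem mul_bx (v : Valid t) (k : 0 < ρ) (k' : 0 < ρ') (hg : g ∈ bx ρ t) (hh : h ∈ bx ρ' t) :
    g * h ∈ bx (ρ + ρ' + n * ρ * ρ') t := by
  rw [mem_bx (by positivity)] at *
  refine (nt_mul_one v).trans_lt (add_lt_add_of_lt_of_le (add_lt_add hg hh) ?_)
  have := @nt_nonneg n t (h.1 - 1)
  gcongr

theorem inv_bx (v : Valid t) (k : 0 < ρ) (k' : 2 * n * ρ ≤ 1) (hg : g ∈ bx ρ t) :
    g⁻¹ ∈ bx (2 * ρ) t := by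
  rw [mem_bx (by positivity)] at *
  have e := nt_div v (coe_inv_mul g)
  rw [sub_self, nt_zero] at e
  have := mul_le_mul_of_nonneg_left hg.le (Nat.cast_nonneg (α := ℝ) n)
  nlinarith [@nt_nonneg n t ((g⁻¹).1 - 1)]

/-- products with explicit constants -/
theorem mul_bx' {p q : ℝ} (v : Valid t) (k : 0 < ρ) (hp : 0 < p) (hq : 0 < q)
    (e : p * q * (n * ρ) ≤ r) (hg : g ∈ bx (p * ρ) t) (hh : h ∈ bx (q * ρ) t) :
    g * h ∈ bx ((p + q + r) * ρ) t :=
  bx_mono (by positivity) (by nlinarith) le_rfl (mul_bx v (by positivity) (by positivity) hg hh)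

theorem cpt_bx (ρ : ℝ) (t : Fin n → Fin n → ℝ) : ∃ K, IsCompact K ∧ bx ρ t ⊆ K := by
  refine ⟨_, Matrix.SpecialLinearGroup.isClosedEmbedding_val.isCompact_preimage
    (isCompact_univ_pi fun j => isCompact_univ_pi fun k => isCompact_closedBall
      ((1 : Matrix (Fin n) (Fin n) ℝ) j k) (ρ * exp (-t j k))), fun g hg j _ k _ => ?_⟩
  exact (hg j k).le

/-- conjugation by diagonal matrices -/
theorem conj_bx {u : Fin n → ℝ} {c : ℝ} (e : g.1 = Matrix.diagonal fun j => exp (u j - c)) :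
    g⁻¹ * h * g ∈ bx ρ (t + fun j k => u j - u k) ↔ h ∈ bx ρ t := by
  have e1 : g.1 * ((g⁻¹ * h * g).1 - 1) = (h.1 - 1) * g.1 := by
    rw [mul_sub, sub_mul, ← coe_mul_G, ← coe_mul_G, mul_one, one_mul, mul_assoc, mul_inv_cancel_left]
  refine forall₂_congr fun j k => ?_
  have e2 := congrArg (fun m => |m j k|) e1
  simp only [e, Matrix.diagonal_mul, Matrix.mul_diagonal, abs_mul, abs_exp] at e2
  rw [← mul_lt_mul_iff_right₀ (exp_pos (u j - c)), e2, ← lt_div_iff₀ (exp_pos _), mul_left_comm,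
    ← exp_add, mul_div_assoc, ← exp_sub]
  simp only [Pi.add_apply]
  congr! 3
  ring

/-- the boxes of matrices -/
def mb (ρ : ℝ) (t : Fin n → Fin n → ℝ) : Set (Fin n → Fin n → ℝ) :=
  univ.pi fun j => univ.pi fun k => Metric.ball ((1 : Matrix (Fin n) (Fin n) ℝ) j k) (ρ * exp (-t j k))

lemma mem_mb (k : 0 < ρ) : a ∈ mb ρ t ↔ nt t (a - 1) < ρ := by
  rw [nt_lt k]
  exact mem_univ_pi.trans (forall_congr' fun j => mem_univ_pi)

lemma meas_mb : MeasurableSet (mb ρ t) :=
  .univ_pi fun _ => .univ_pi fun _ => measurableSet_ball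

lemma vol_mb (k : 0 < ρ) :
    volume (mb ρ t) = ENNReal.ofReal ((2 * ρ) ^ (n * n) * exp (-∑ j, ∑ k, t j k)) := by
  simp only [mb, volume_pi_pi, volume_ball]
  rw [Finset.prod_congr rfl fun j _ => (ENNReal.ofReal_prod_of_nonneg fun _ _ => by positivity).symm,
    ← ENNReal.ofReal_prod_of_nonneg fun _ _ => by positivity]
  simp only [← mul_assoc, Finset.prod_mul_distrib, ← exp_sum, Finset.prod_const, Finset.card_univ,
    Fintype.card_fin, ← pow_mul, Finset.sum_neg_distrib, mul_pow]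

/-- **the covering number of boxes** -/
theorem cov_bx (v : Valid t) (v' : Valid t') (e : t ≤ t') (k : 0 < ρ') (k' : ρ' ≤ ρ)
    (k1 : n * ρ' ≤ 1) : Cov (bx ρ t) (bx ρ' t')
      (ENNReal.ofReal ((6 * ρ / ρ') ^ (n * n) * exp (∑ j, ∑ k, (t' j k - t j k)))) := by
  have k0 := k.trans_le k'
  have c : 0 < ρ' / 4 := by positivity
  have m : ∀ (g : G n) z, Exist.lmul (g⁻¹).1 z ∈ mb (ρ' / 4) t' ↔
      nt t' ((g⁻¹).1 * Matrix.of z - 1) < ρ' / 4 := fun g z => mem_mb c
  have := cov_of_vol (E := bx ρ t) (B := bx ρ' t') volume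
    (W := {p | Exist.lmul (p.1⁻¹).1 p.2 ∈ mb (ρ' / 4) t'}) (U := mb (3 / 2 * ρ) t)
    (v := volume (mb (ρ' / 4) t')) (Continuous.measurable ?_ meas_mb) ?_ ?_ meas_bx meas_bx meas_mb
    (fun h _ => ((Exist.lmul_measurePreserving _ (h⁻¹).2).measure_preimage
      meas_mb.nullMeasurableSet).ge) (fun h hh z hz => ?_) fun a b z ha hb => ?_
  · refine this.mono le_rfl le_rfl (le_of_eq ?_)
    rw [vol_mb c, vol_mb (by positivity), ← ENNReal.ofReal_div_of_pos (by positivity),
      mul_div_mul_comm, ← div_pow, ← exp_sub]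
    simp only [Finset.sum_sub_distrib]
    congr 3 <;> [field_simp; skip] <;> ring
  · have : Continuous fun p : G n × (Fin n → Fin n → ℝ) => (p.1⁻¹).1 :=
      continuous_subtype_val.comp (f := fun p : G n × _ => (p.1⁻¹ : G n))
        ((continuous_inv (G := G n)).comp continuous_fst)
    exact continuous_pi fun i => continuous_pi fun j => continuous_finsetSum _ fun l _ =>
      (this.matrix_elem i l).mul (by fun_prop)
  · rw [vol_mb c]; exact (ENNReal.ofReal_pos.2 (by positivity)).ne'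
  · rw [vol_mb c]; exact ENNReal.ofReal_ne_top
  · have h1 := (nt_mono e).trans_lt ((m _ _).1 hz)
    have h2 := (mem_bx k0).1 hh
    have h3 := nt_mul_one (a := h.1) (b := (h⁻¹).1 * Matrix.of z) v
    rw [← mul_assoc, coe_mul_inv, one_mul] at h3
    refine (mem_mb (a := Matrix.of z) (by positivity)).2 (h3.trans_lt ?_)
    have h4 := mul_le_mul_of_nonneg_left h1.le (Nat.cast_nonneg (α := ℝ) n)
    nlinarith [@nt_nonneg n t (h.1 - 1)]
  · have h1 := (m _ _).1 ha
    have h2 := (m _ _).1 hb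
    have h3 := nt_div (c := (a⁻¹ * b).1) (a := (b⁻¹).1 * Matrix.of z) (b := (a⁻¹).1 * Matrix.of z) v'
      (by rw [← mul_assoc, ← coe_mul_G, mul_inv_cancel_right])
    have h4 := mul_le_mul_of_nonneg_left h2.le (Nat.cast_nonneg (α := ℝ) n)
    rw [mem_bx k]
    nlinarith [@nt_nonneg n t' ((a⁻¹ * b).1 - 1)]

end

end Vale.Agent.P007M
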