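import Vale.Agent.P007M.RedB

/-! The number of points of a dual lattice in a box, with prescribed block sums. -/

open Module Matrix MeasureTheory Topology

namespace Vale.Agent.P007M

open Vale.Agent.P007 Vale.Agent.P007.Red

/-- points of the dual of a lattice without short vectors in the box of radius two -/
theorem cnt0 (n : ℕ) (A : Matrix (Fin n) (Fin n) ℝ) (hA : A.det ≠ 0) (hT : Thick 1 A)
    (T : Finset (Fin n → ℝ))
    (h : ∀ ν ∈ T, (∀ v ∈ latM A, ∃ z : ℤ, v ⬝ᵥ ν = z) ∧ ∀ j, |ν j| ≤ 2) :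
    (T.card : ℝ) ≤ (5 * n) ^ n * 3 ^ (n ^ 2) * |A.det| := by
  classical
  obtain _ | k := n
  · have h1 : T.card ≤ 1 := Finset.card_le_one.mpr fun a _ b _ => Subsingleton.elim a b
    have h2 : (T.card : ℝ) ≤ 1 := by exact_mod_cast h1
    simpa using h2
  obtain ⟨γ, hγ, hp⟩ := red_prod k 1 one_pos A hA hT
  set B := γ.map (Int.cast : ℤ → ℝ) * A with hB
  have hBd : B.det ≠ 0 := by
    rw [← abs_ne_zero, hB, det_mul, abs_mul, unit_cast_det _ hγ, one_mul, abs_ne_zero]
    exact hA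
  have hlow : ∀ i, 1 ≤ ‖B i‖ := by
    intro i
    have h7 := hT.unimod γ hγ (Pi.single i 1) (by
      intro h
      have := congrFun h i
      simp at this)
    have h8 : (fun l => (((Pi.single i 1 : Fin (k + 1) → ℤ) l : ℤ) : ℝ)) =
        Pi.single i 1 := by
      funext l
      by_cases hi : l = i
      · subst hi; simp
      · simp [hi]
    rw [h8, single_one_vecMul] at h7
    exact h7
  have hmem : ∀ i, B i ∈ latM A := fun i => ⟨γ i, rfl⟩
  have hint : ∀ ν ∈ T, ∀ i, ((⌊B i ⬝ᵥ ν⌋ : ℤ) : ℝ) = B i ⬝ᵥ ν := by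
    intro ν hν i
    obtain ⟨z, hz⟩ := (h ν hν).1 _ (hmem i)
    rw [hz, Int.floor_intCast]
  set N : Fin (k + 1) → ℕ := fun i => ⌊2 * (k + 1 : ℕ) * ‖B i‖⌋₊ with hN
  have hmaps : ∀ ν ∈ T, (fun i => ⌊B i ⬝ᵥ ν⌋) ∈
      Fintype.piFinset fun i => Finset.Icc (-(N i : ℤ)) (N i) := by
    intro ν hν
    rw [Fintype.mem_piFinset]
    intro i
    have h1 : |B i ⬝ᵥ ν| ≤ 2 * (k + 1 : ℕ) * ‖B i‖ := by
      rw [dotProduct]
      refine (Finset.abs_sum_le_sum_abs _ _).trans ?_
      have h2 : ∀ j ∈ Finset.univ, |B i j * ν j| ≤ 2 * ‖B i‖ := by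
        intro j _
        rw [abs_mul, mul_comm]
        exact mul_le_mul ((h ν hν).2 j) (norm_le_pi_norm (B i) j) (abs_nonneg _) (by norm_num)
      refine (Finset.sum_le_card_nsmul _ _ _ h2).trans (le_of_eq ?_)
      rw [Finset.card_univ, Fintype.card_fin, nsmul_eq_mul]
      ring
    rw [← hint ν hν i, ← Int.cast_abs] at h1
    have h3 : (|⌊B i ⬝ᵥ ν⌋|.toNat : ℝ) ≤ 2 * (k + 1 : ℕ) * ‖B i‖ := by
      have h4 : ((|⌊B i ⬝ᵥ ν⌋|.toNat : ℤ) : ℝ) = ((|⌊B i ⬝ᵥ ν⌋| : ℤ) : ℝ) := by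
        rw [Int.toNat_of_nonneg (abs_nonneg _)]
      rw [← h4] at h1
      exact_mod_cast h1
    have h5 : |⌊B i ⬝ᵥ ν⌋|.toNat ≤ N i := Nat.le_floor h3
    rw [Finset.mem_Icc, ← abs_le]
    omega
  have hinj : Set.InjOn (fun (ν : Fin (k + 1) → ℝ) i => ⌊B i ⬝ᵥ ν⌋) T := by
    intro ν hν ν' hν' he
    have h1 : B *ᵥ (ν - ν') = 0 := by
      funext i
      have h2 := congrFun he i
      simp only at h2
      rw [mulVec_sub, Pi.sub_apply, Pi.zero_apply]
      change B i ⬝ᵥ ν - B i ⬝ᵥ ν' = 0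
      rw [← hint ν hν i, ← hint ν' hν' i, h2, sub_self]
    exact sub_eq_zero.mp (eq_zero_of_mulVec_eq_zero hBd h1)
  have hcard := Finset.card_le_card_of_injOn _ hmaps hinj
  rw [Fintype.card_piFinset] at hcard
  have hc : ∀ i, ((Finset.Icc (-(N i : ℤ)) (N i)).card : ℝ) ≤ 5 * (k + 1 : ℕ) * ‖B i‖ := by
    intro i
    have h1 : (Finset.Icc (-(N i : ℤ)) (N i)).card = 2 * N i + 1 := by
      rw [Int.card_Icc]
      omega
    have h2 : (N i : ℝ) ≤ 2 * (k + 1 : ℕ) * ‖B i‖ := Nat.floor_le (by positivity)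
    have h3 : (1 : ℝ) ≤ (k + 1 : ℕ) * ‖B i‖ :=
      one_le_mul_of_one_le_of_one_le (by exact_mod_cast Nat.succ_pos k) (hlow i)
    rw [h1]
    push_cast at h2 h3 ⊢
    linarith
  have h3 : (3 : ℝ) ^ (k ^ 2) ≤ 3 ^ ((k + 1) ^ 2) :=
    pow_le_pow_right₀ (by norm_num) (Nat.pow_le_pow_left (Nat.le_succ k) 2)
  calc (T.card : ℝ) ≤ ∏ i, ((Finset.Icc (-(N i : ℤ)) (N i)).card : ℝ) := by exact_mod_cast hcard
    _ ≤ ∏ i, 5 * (k + 1 : ℕ) * ‖B i‖ :=
        Finset.prod_le_prod (fun i _ => by positivity) fun i _ => hc i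
    _ = (5 * (k + 1 : ℕ)) ^ (k + 1) * ∏ i, ‖B i‖ := by
        rw [Finset.prod_mul_distrib, Finset.prod_const, Finset.card_univ, Fintype.card_fin]
    _ ≤ (5 * (k + 1 : ℕ)) ^ (k + 1) * (3 ^ ((k + 1) ^ 2) * |A.det|) := by
        gcongr
        exact hp.trans (by gcongr)
    _ = _ := by ring

/-- the integral matrix of `x ↦ (x_j - x_{r j})` (and `x_j` at the fixed points of `r`) -/
def Qr {n : ℕ} (r : Fin n → Fin n) (s : ℤ) : Matrix (Fin n) (Fin n) ℤ :=
  1 + s • Matrix.of fun i j => if r j ≠ j ∧ r j = i then 1 else 0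

theorem Qr_unit {n : ℕ} {r : Fin n → Fin n} (hr : ∀ j, r (r j) = r j) :
    IsUnit (Qr r (-1)).det := by
  set N : Matrix (Fin n) (Fin n) ℤ := Matrix.of fun i j => if r j ≠ j ∧ r j = i then 1 else 0
    with hN
  have h1 : N * N = 0 := by
    ext i l
    rw [mul_apply, Matrix.zero_apply]
    refine Finset.sum_eq_zero fun j _ => ?_
    simp only [hN, of_apply]
    split_ifs with h1 h2
    · exact absurd (by rw [← h2.2, hr]) h1.1
    all_goals simp
  have h2 : Qr r (-1) * Qr r 1 = 1 := by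
    simp only [Qr, ← hN, neg_smul, one_smul, add_mul, mul_add, one_mul, mul_one, neg_mul, h1]
    abel
  have h3 := congrArg det h2
  rw [det_mul, det_one] at h3
  exact IsUnit.of_mul_eq_one _ h3

/-- **Count.** Points of the dual lattice in a box, with prescribed sums over the fibres of a
retraction `r`. -/
theorem cnt (n : ℕ) (A : Matrix (Fin n) (Fin n) ℝ) (hA : A.det ≠ 0) (r : Fin n → Fin n)
    (hr : ∀ j, r (r j) = r j) (b : Fin n → ℝ) (hb : ∀ j, 0 < b j)
    (hT : ∀ x ∈ latM A, x ≠ 0 → ∃ j, (r j = j ∧ 1 ≤ |x j|) ∨ 1 ≤ |x j - x (r j)| * b j)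
    (m : Fin n → ℝ) (T : Finset (Fin n → ℝ))
    (h : ∀ ν ∈ T, (∀ v ∈ latM A, ∃ z : ℤ, v ⬝ᵥ ν = z) ∧ (∀ j, |ν j| ≤ b j) ∧
      ∀ i, ∑ j with r j = i, ν j = m i) :
    (T.card : ℝ) ≤ (5 * n) ^ n * 3 ^ (n ^ 2) * |A.det| * ∏ j with r j ≠ j, b j := by
  classical
  rcases T.eq_empty_or_nonempty with rfl | ⟨ν₀, hν₀⟩
  · have : 0 ≤ ∏ j with r j ≠ j, b j := Finset.prod_nonneg fun j _ => (hb j).le
    rw [Finset.card_empty, Nat.cast_zero]
    positivity
  set c : Fin n → ℝ := fun j => if r j ≠ j then b j else 1 with hc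
  set Q := (Qr r (-1)).map (Int.cast : ℤ → ℝ) with hQ
  set P := Q * diagonal c with hP
  have hQe : ∀ i j, Q i j = (if i = j then 1 else 0) - if r j ≠ j ∧ r j = i then 1 else 0 := by
    intro i j
    simp only [hQ, Qr, map_apply, Matrix.add_apply, Matrix.one_apply, Matrix.smul_apply, of_apply,
      smul_eq_mul]
    split_ifs <;> simp
  have hcp : ∏ j, c j = ∏ j with r j ≠ j, b j := by rw [Finset.prod_filter]
  have hc0 : 0 < ∏ j with r j ≠ j, b j := Finset.prod_pos fun j _ => hb j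
  have hdet : |(A * P).det| = |A.det| * ∏ j with r j ≠ j, b j := by
    rw [hP, det_mul, det_mul, det_diagonal, abs_mul, abs_mul, unit_cast_det _ (Qr_unit hr),
      one_mul, hcp, abs_of_pos hc0]
  have hd0 : (A * P).det ≠ 0 := by
    rw [← abs_ne_zero, hdet]
    exact mul_ne_zero (abs_ne_zero.mpr hA) hc0.ne'
  have hxP : ∀ (x : Fin n → ℝ) j, (x ᵥ* P) j =
      if r j ≠ j then (x j - x (r j)) * b j else x j := by
    intro x j
    rw [hP, ← vecMul_vecMul, vecMul_diagonal]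
    have h1 : (x ᵥ* Q) j = x j - if r j ≠ j then x (r j) else 0 := by
      simp only [vecMul, dotProduct, hQe, mul_sub, Finset.sum_sub_distrib, mul_ite, mul_one,
        mul_zero, Finset.sum_ite_eq', Finset.mem_univ, if_true]
      by_cases hj : r j = j
      · simp [hj]
      · simp [hj]
    rw [h1]
    by_cases hj : r j = j
    · simp [hc, hj]
    · simp [hc, hj]
  have hthick : Thick 1 (A * P) := by
    intro z hz
    rw [← vecMul_vecMul]
    set x := (fun i => (z i : ℝ)) ᵥ* A with hx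
    have hx0 : x ≠ 0 := by
      intro h0
      apply hz
      have h1 := eq_zero_of_vecMul_eq_zero hA h0
      funext i
      have h2 := congrFun h1 i
      simpa using h2
    obtain ⟨j, hj⟩ := hT x ⟨z, rfl⟩ hx0
    refine le_trans ?_ (norm_le_pi_norm _ j)
    rw [hxP, Real.norm_eq_abs]
    rcases hj with ⟨h1, h2⟩ | h1
    · simpa [h1] using h2
    · by_cases hj : r j = j
      · rw [hj, sub_self, abs_zero, zero_mul] at h1
        exact absurd h1 (by norm_num)
      · rw [if_pos hj, abs_mul, abs_of_pos (hb j)]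
        exact h1
  set φ : (Fin n → ℝ) → Fin n → ℝ := fun ν j => if r j ≠ j then (ν j - ν₀ j) / b j else 0
    with hφ
  have hback : ∀ ν ∈ T, P *ᵥ φ ν = ν - ν₀ := by
    intro ν hν
    funext i
    have h1 : diagonal c *ᵥ φ ν = fun j => if r j ≠ j then ν j - ν₀ j else 0 := by
      funext j
      rw [mulVec_diagonal]
      by_cases hj : r j = j
      · simp [hc, hφ, hj]
      · simp only [hc, hφ, ne_eq, hj, not_false_eq_true, if_true]
        exact mul_div_cancel₀ _ (hb j).ne'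
    have h2 : ∑ j with r j = i, (ν j - ν₀ j) = 0 := by
      rw [Finset.sum_sub_distrib, (h ν hν).2.2 i, (h ν₀ hν₀).2.2 i, sub_self]
    rw [hP, ← mulVec_mulVec, h1, Pi.sub_apply]
    simp only [mulVec, dotProduct, hQe, sub_mul, Finset.sum_sub_distrib, ite_mul, one_mul,
      zero_mul, Finset.sum_ite_eq, Finset.mem_univ, if_true]
    by_cases hi : r i = i
    · rw [Finset.sum_filter, ← Finset.add_sum_erase _ _ (Finset.mem_univ i), if_pos hi] at h2
      rw [← Finset.add_sum_erase _ _ (Finset.mem_univ i)]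
      have h3 : ∑ j ∈ Finset.univ.erase i, (if r j ≠ j ∧ r j = i then
          (if r j ≠ j then ν j - ν₀ j else 0) else 0) =
          ∑ j ∈ Finset.univ.erase i, if r j = i then ν j - ν₀ j else 0 := by
        refine Finset.sum_congr rfl fun j hj => ?_
        have hji := Finset.ne_of_mem_erase hj
        by_cases h4 : r j = i
        · have h5 : r j ≠ j := fun h6 => hji (h6.symm.trans h4)
          simp [h4, hji.symm]
        · simp [h4]
      rw [h3]
      simp only [hi, ne_eq, not_true_eq_false, false_and, if_false]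
      linarith
    · rw [if_pos hi, Finset.sum_eq_zero, sub_zero]
      intro j _
      rw [if_neg]
      rintro ⟨-, h4⟩
      exact hi (by rw [← h4, hr])
  have hinj : Set.InjOn φ T := by
    intro ν hν ν' hν' he
    have h1 := hback ν hν
    rw [he, hback ν' hν'] at h1
    exact (sub_left_inj.mp h1).symm
  have hmain := cnt0 n (A * P) hd0 hthick (T.image φ) (by
    intro ψ hψ
    obtain ⟨ν, hν, rfl⟩ := Finset.mem_image.mp hψ
    refine ⟨?_, fun j => ?_⟩
    · rintro _ ⟨z, rfl⟩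
      obtain ⟨a, ha⟩ := (h ν hν).1 _ ⟨z, rfl⟩
      obtain ⟨a₀, ha₀⟩ := (h ν₀ hν₀).1 _ ⟨z, rfl⟩
      refine ⟨a - a₀, ?_⟩
      simp only at ha ha₀ ⊢
      rw [← vecMul_vecMul, ← dotProduct_mulVec, hback ν hν, dotProduct_sub, ha, ha₀]
      push_cast
      ring
    · simp only [hφ]
      split_ifs
      · rw [abs_div, abs_of_pos (hb j), div_le_iff₀ (hb j)]
        have h1 := abs_sub (ν j) (ν₀ j)
        linarith [(h ν hν).2.1 j, (h ν₀ hν₀).2.1 j]
      · simp)
  rw [Finset.card_image_of_injOn hinj, hdet] at hmain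
  exact hmain.trans (le_of_eq (by ring))

end Vale.Agent.P007M
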