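import Vale.Agent.P007M.EntG

/-! The statement of the bound for the number of the ideals. -/

set_option linter.all false

namespace Vale.Agent.P007M

open Vale.Agent.P007 Vale.Agent.P007.Fib Vale.Agent.P007.N

/-- the number of the modules `M` whose dual contains a nonzero `ν` in a box, with given sums over
the fibres of `r` -/
def CntM (n : ℕ) : Prop := ∀ ε B : ℝ, 0 < ε → 0 < B → ∃ D₀ : ℕ, ∀ D : Datum n, D₀ ≤ D.disc →
  ∀ (r : Fin n → Fin n) (b m : Fin n → ℝ) (Y : ℝ), (∀ j, r (r j) = r j) →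
    (∀ j, 0 < b j ∧ b j ≤ (D.disc : ℝ) ^ B) → 1 ≤ Y →
    (∀ x ∈ RE D, x ≠ 0 → ∃ j, (r j = j ∧ 1 ≤ |x j|) ∨ 1 ≤ |x j - x (r j)| * b j) →
    ∃ T : Finset (MM D), (T.card : ℝ) ≤ (D.disc : ℝ) ^ (1 / 2 + ε) *
      (Y * ∏ j with r j ≠ j, b j + Y ^ (-(1 / (10 * n)) : ℝ)) ∧
      ∀ (M : MM D) (ν : Fin n → ℝ), (idx D M : ℝ) ≤ B * √(D.disc : ℝ) → Du M.1 ν → ν ≠ 0 →
        (∀ j, |ν j| ≤ b j) → (∀ i, ∑ j with r j = i, ν j = m i) → M ∈ T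

end Vale.Agent.P007M
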