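import Vale.Agent.P007M.Cnt
import Vale.Agent.P007M.EntI
import Vale.Agent.P007M.Ari

/-! The number of invertible overmodules whose dual lattice has a point in a box with prescribed
block sums. -/

open MeasureTheory Matrix NumberField Module
open scoped ENNReal nonZeroDivisors

namespace Vale.Agent.P007M

open Vale.Agent.P007 Vale.Agent.P007.R Vale.Agent.P007.Fib Vale.Agent.P007.N

variable {n : ℕ}

theorem exists_mat_idx (D : Datum n) (M : MM D) : ∃ A : Matrix (Fin n) (Fin n) ℝ, A.det ≠ 0 ∧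
    latM A = (M.1 : Set (Fin n → ℝ)) ∧ |A.det| * idx D M = √(D.disc : ℝ) := by
  obtain ⟨A, hA, hl⟩ := exists_mat D M.2.1
  obtain ⟨B, hB, hlB⟩ := exists_mat_order D
  refine ⟨A, hA, hl, ?_⟩
  have h1 := relIndex_det (RM_le_MM D M) hB hA hlB hl
  rw [abs_det_order D hB hlB] at h1
  have h2 : (idx D M : ℝ) = √(D.disc : ℝ) / |A.det| := h1
  rw [h2]
  exact mul_div_cancel₀ _ (abs_ne_zero.mpr hA)

/-- the index of `M` divides `disc · |∏ ν_j|` for `ν ≠ 0` in the dual lattice of `M` -/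
theorem idx_dvd (D : Datum n) (M : MM D) {ν : Fin n → ℝ} (hν : Du M.1 ν) (h0 : ν ≠ 0) :
    ∃ N : ℕ, N ≠ 0 ∧ (N : ℝ) = D.disc * |∏ j, ν j| ∧ idx D M ∣ N := by
  classical
  obtain ⟨A, hA, hl, hdA⟩ := exists_mat_idx D M
  obtain ⟨B, hB, hlB⟩ := exists_mat_order D
  have hdB := abs_det_order D hB hlB
  have row : ∀ (P : Matrix (Fin n) (Fin n) ℝ) i, P i ∈ latM P := fun P i =>
    ⟨Pi.single i 1, by
      have h8 : (fun l => (((Pi.single i 1 : Fin n → ℤ) l : ℤ) : ℝ)) = Pi.single i 1 := by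
        funext l
        by_cases hi : l = i
        · subst hi; simp
        · simp [hi]
      simp only [h8, single_one_vecMul]
      rfl⟩
  have hint : ∀ i k, ∃ z : ℤ, (B i * A k) ⬝ᵥ ν = z := fun i k => by
    have h1 : B i ∈ RE D := by have := row B i; rw [hlB] at this; exact this
    have h2 : A k ∈ M.1 := by have := row A k; rw [hl] at this; exact this
    exact hν _ (M.2.1.1 _ h1 _ h2)
  choose Z hZ using hint
  have hG : (Matrix.of Z).map (Int.cast : ℤ → ℝ) = B * diagonal ν * Aᵀ := by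
    ext i k
    rw [map_apply, of_apply, ← hZ, mul_apply, dotProduct]
    refine Finset.sum_congr rfl fun j _ => ?_
    rw [mul_diagonal, transpose_apply, Pi.mul_apply]
    ring
  have hdet : (((Matrix.of Z).det : ℤ) : ℝ) = B.det * (∏ j, ν j) * A.det := by
    rw [Int.cast_det]
    change ((Matrix.of Z).map (Int.cast : ℤ → ℝ)).det = _
    rw [hG, det_mul, det_mul, det_diagonal, det_transpose]
  have hne : (Matrix.of Z).det ≠ 0 := by
    intro h
    obtain ⟨z, hz0, hz⟩ := exists_vecMul_eq_zero_iff.mpr h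
    have h1 : (fun i => (z i : ℝ)) ᵥ* (Matrix.of Z).map (Int.cast : ℤ → ℝ) = 0 := by
      funext k
      have h2 := congrArg (Int.cast : ℤ → ℝ) (congrFun hz k)
      simpa [vecMul, dotProduct] using h2
    rw [hG, ← vecMul_vecMul, ← vecMul_vecMul] at h1
    have h3 := eq_zero_of_vecMul_eq_zero (by rwa [det_transpose]) h1
    have h4 : (fun i => (z i : ℝ)) ᵥ* B ∈ RE D := by
      have : (fun i => (z i : ℝ)) ᵥ* B ∈ latM B := ⟨z, rfl⟩
      rw [hlB] at this
      exact this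
    have h5 : (fun i => (z i : ℝ)) ᵥ* B ≠ 0 := by
      intro h6
      apply hz0
      funext i
      have h7 := congrFun (eq_zero_of_vecMul_eq_zero hB h6) i
      simpa using h7
    apply h0
    funext j
    have h8 := congrFun h3 j
    rw [vecMul_diagonal, Pi.zero_apply] at h8
    exact (mul_eq_zero.mp h8).resolve_left (SA.RE_coord D _ h4 h5 j)
  refine ⟨idx D M * (Matrix.of Z).det.natAbs,
    mul_ne_zero (idx_ne_zero D M) (Int.natAbs_ne_zero.mpr hne), ?_, dvd_mul_right _ _⟩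
  rw [Nat.cast_mul, Nat.cast_natAbs, Int.cast_abs, hdet, abs_mul, abs_mul, hdB]
  have h9 : √(D.disc : ℝ) * √(D.disc : ℝ) = D.disc := Real.mul_self_sqrt (Nat.cast_nonneg _)
  calc (idx D M : ℝ) * (√(D.disc : ℝ) * |∏ j, ν j| * |A.det|)
      = √(D.disc : ℝ) * (|A.det| * idx D M) * |∏ j, ν j| := by ring
    _ = _ := by rw [hdA, h9]

theorem exists_part (q : ℕ) : ∀ N : ℕ, N ≠ 0 → ∃ a m : ℕ, N = a * m ∧
    (∀ p : ℕ, p.Prime → p ∣ a → p ∣ q) ∧ m.Coprime q := by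
  intro N
  induction N using Nat.strong_induction_on with
  | _ N ih =>
    intro hN
    by_cases h : N.Coprime q
    · exact ⟨1, N, (one_mul _).symm, fun p hp h1 => absurd (Nat.dvd_one.mp h1) hp.one_lt.ne', h⟩
    · obtain ⟨p, hp, ⟨N', rfl⟩, hq⟩ := Nat.Prime.not_coprime_iff_dvd.mp h
      have hN' : N' ≠ 0 := right_ne_zero_of_mul hN
      obtain ⟨a, m, rfl, ha, hm⟩ := ih N' (by
        have := hp.one_lt
        have := Nat.pos_of_ne_zero hN'
        nlinarith) hN'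
      refine ⟨p * a, m, by ring, fun p' hp' h1 => ?_, hm⟩
      rcases (Nat.Prime.dvd_mul hp').mp h1 with h2 | h2
      · rwa [(Nat.prime_dvd_prime_iff_eq hp' hp).mp h2]
      · exact ha p' hp' h2

/-- the splitting of an invertible ideal into its parts at and away from the index -/
theorem exists_split (D : Datum n) (J : JJ D) : ∃ J₁ J₂ : JJ D, J₁.1 * J₂.1 = J.1 ∧
    Nat.card (D.O ⧸ J.1) = Nat.card (D.O ⧸ J₁.1) * Nat.card (D.O ⧸ J₂.1) ∧
    (∀ p : ℕ, p.Prime → p ∣ Nat.card (D.O ⧸ J₁.1) → p ∣ D.ind) ∧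
    (Nat.card (D.O ⧸ J₂.1)).Coprime D.ind := by
  obtain ⟨a, m, h, ha, hm⟩ := exists_part D.ind _ (card_ne_zero D J)
  have h0 := card_ne_zero D J
  rw [h] at h0
  have hc : a.Coprime m := Nat.coprime_of_dvd fun p hp h1 h2 =>
    Nat.not_coprime_of_dvd_of_dvd hp.one_lt h2 (ha p hp h1) hm
  have hs := Loc.split D hc h
  obtain ⟨h1, h2⟩ := Loc.card_sup D (left_ne_zero_of_mul h0) (right_ne_zero_of_mul h0) hc h
  have hu := J.2
  rw [← hs, FractionalIdeal.coeIdeal_mul] at hu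
  refine ⟨⟨_, isUnit_of_mul_isUnit_left hu⟩, ⟨_, isUnit_of_mul_isUnit_right hu⟩, hs, ?_, ?_, ?_⟩
  · simp only [h1, h2, h]
  · simpa only [h1] using ha
  · simpa only [h2] using hm

theorem sum_fib_le {ι : Type} (c : ι → ℕ) (hc : ∀ m, Finite {i // c i = m}) (U : Finset ι)
    (S : Finset ℕ) (hS : ∀ i ∈ U, c i ∈ S) (f : ℕ → ℝ) (hf : ∀ m ∈ S, 0 ≤ f m) :
    ∑ i ∈ U, f (c i) ≤ ∑ m ∈ S, Nat.card {i // c i = m} * f m := by
  classical
  rw [← Finset.sum_fiberwise_of_maps_to hS]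
  refine Finset.sum_le_sum fun m hm => ?_
  rw [Finset.sum_congr rfl fun J hJ => by rw [(Finset.mem_filter.mp hJ).2], Finset.sum_const,
    nsmul_eq_mul]
  refine mul_le_mul_of_nonneg_right ?_ (hf m hm)
  have := hc m
  rw [Nat.cast_le, ← Nat.card_eq_finsetCard]
  exact Nat.card_le_card_of_injective
    (fun J : (U.filter fun J => c J = m) =>
      (⟨J.1, (Finset.mem_filter.mp J.2).2⟩ : {i // c i = m}))
    fun a b h => Subtype.ext (congrArg (fun x : {i // c i = m} => x.1) h)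

/-- the index of an invertible ideal -/
noncomputable def cd (D : Datum n) (J : JJ D) : ℕ := Nat.card (D.O ⧸ J.1)

theorem sum_JJ_le (D : Datum n) (U : Finset (JJ D)) (S : Finset ℕ)
    (hS : ∀ J ∈ U, cd D J ∈ S) (f : ℕ → ℝ) (hf : ∀ m ∈ S, 0 ≤ f m) :
    ∑ J ∈ U, f (cd D J) ≤ ∑ m ∈ S, rO D m * f m := by
  simp only [rO_eq]
  exact sum_fib_le (cd D) (finite_JJ D) U S hS f hf

theorem card_le_sum {α β : Type} [DecidableEq β] (T : Finset α) (f : α → β) (g : β → ℝ)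
    (h : ∀ y ∈ T.image f, ((T.filter fun a => f a = y).card : ℝ) ≤ g y) :
    (T.card : ℝ) ≤ ∑ y ∈ T.image f, g y := by
  rw [Finset.card_eq_sum_card_image f T, Nat.cast_sum]
  exact Finset.sum_le_sum h

theorem exists_finset_of_card_le {α : Type} (P : α → Prop) {c : ℝ}
    (h : ∀ T : Finset α, (∀ a ∈ T, P a) → (T.card : ℝ) ≤ c) :
    ∃ T : Finset α, (T.card : ℝ) ≤ c ∧ ∀ a, P a → a ∈ T := by
  have hf : {a | P a}.Finite := by
    by_contra hi
    obtain ⟨T, hT, hc⟩ := Set.Infinite.exists_subset_card_eq hi (⌊c⌋₊ + 1)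
    have h1 := h T fun a ha => hT ha
    rw [hc, Nat.cast_succ] at h1
    exact absurd (Nat.lt_floor_add_one c) (not_lt.mpr h1)
  exact ⟨hf.toFinset, h _ fun a ha => hf.mem_toFinset.mp ha, fun a ha => hf.mem_toFinset.mpr ha⟩

/-- **Count of overmodules.** -/
theorem cntM (hn : 1 ≤ n) : CntM n := by
  classical
  intro ε B hε hB
  have hn0 : (0 : ℝ) < n := by exact_mod_cast hn
  obtain ⟨C₁, hC₁, hdiv⟩ := sum_rO_le n (ε := ε / 4 / (1 + n * B)) (by positivity)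
  obtain ⟨X₀, hrk⟩ := rankin_ind n hn (ε := ε / 4) (by positivity)
  obtain ⟨c, hc⟩ : ∃ c : ℝ, c = (5 * n) ^ n * 3 ^ (n ^ 2) + B := ⟨_, rfl⟩
  have hc1 : (5 * n) ^ n * 3 ^ (n ^ 2) ≤ c := by linarith
  have hc2 : B ≤ c := by rw [hc]; exact le_add_of_nonneg_left (by positivity)
  have hc0 : 0 < c := hB.trans_le hc2
  obtain ⟨D₁, hD₁⟩ := Filter.eventually_atTop.mp (((tendsto_rpow_atTop (y := ε / 2)
    (by positivity)).comp tendsto_natCast_atTop_atTop).eventually_ge_atTop (c * C₁))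
  refine ⟨max D₁ (max ⌈X₀⌉₊ ⌈B ^ 2⌉₊), fun D hD r b m Y hr hb hY hO => ?_⟩
  have hd1 : (1 : ℝ) ≤ D.disc := by exact_mod_cast SA.disc_pos D
  have hd0 : (0 : ℝ) < D.disc := one_pos.trans_le hd1
  have hY0 : 0 < Y := one_pos.trans_le hY
  have hcC : c * C₁ ≤ (D.disc : ℝ) ^ (ε / 2) := hD₁ _ ((le_max_left _ _).trans hD)
  have hX : X₀ ≤ D.disc := Nat.ceil_le.mp ((le_max_left _ _).trans ((le_max_right _ _).trans hD))
  have hBd : B * √(D.disc : ℝ) ≤ D.disc := by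
    have h1 : B ≤ √(D.disc : ℝ) := Real.le_sqrt_of_sq_le
      (Nat.ceil_le.mp ((le_max_right _ _).trans ((le_max_right _ _).trans hD)))
    exact (mul_le_mul_of_nonneg_right h1 (Real.sqrt_nonneg _)).trans_eq
      (Real.mul_self_sqrt hd0.le)
  have hdiv' : ∀ N : ℕ, N ≠ 0 → (N : ℝ) ≤ (D.disc : ℝ) ^ (1 + n * B) →
      ∑ m ∈ N.divisors.filter (fun m => m.Coprime D.ind), (rO D m : ℝ) ≤
        C₁ * (D.disc : ℝ) ^ (ε / 4) := fun N hN hle => by
    refine (hdiv D N hN).trans (mul_le_mul_of_nonneg_left ?_ hC₁.le)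
    refine (Real.rpow_le_rpow (Nat.cast_nonneg _) hle (by positivity)).trans (le_of_eq ?_)
    rw [← Real.rpow_mul hd0.le, mul_div_cancel₀ _ (by positivity)]
  obtain ⟨δ, hδ⟩ : ∃ δ : ℝ, δ = 1 / (10 * n) := ⟨_, rfl⟩
  have hδ0 : 0 ≤ δ := by rw [hδ]; positivity
  obtain ⟨P, hP⟩ : ∃ P : ℝ, P = ∏ j with r j ≠ j, b j := ⟨_, rfl⟩
  have hP0 : 0 ≤ P := by rw [hP]; exact Finset.prod_nonneg fun j _ => (hb j).1.le
  rw [← hδ, ← hP]
  obtain ⟨K, hK⟩ : ∃ K : ℝ, K = c * √(D.disc : ℝ) * (C₁ * (D.disc : ℝ) ^ (ε / 4)) := ⟨_, rfl⟩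
  have hK0 : 0 ≤ K := by rw [hK]; positivity
  suffices H : ∀ T : Finset (MM D), (∀ M ∈ T, ∃ ν : Fin n → ℝ,
      (idx D M : ℝ) ≤ B * √(D.disc : ℝ) ∧ Du M.1 ν ∧ ν ≠ 0 ∧
      (∀ j, |ν j| ≤ b j) ∧ ∀ i, ∑ j with r j = i, ν j = m i) →
      (T.card : ℝ) ≤ K * (Y * P + Y ^ (-δ)) * (D.disc : ℝ) ^ (ε / 4) by
    obtain ⟨T, h1, h2⟩ := exists_finset_of_card_le _ H
    refine ⟨T, h1.trans ?_, fun M ν a₁ a₂ a₃ a₄ a₅ => h2 M ⟨ν, a₁, a₂, a₃, a₄, a₅⟩⟩
    rw [hK, Real.sqrt_eq_rpow, show 1 / 2 + ε = ε / 2 + (1 / 2 + ε / 4 + ε / 4) by ring,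
      Real.rpow_add hd0, Real.rpow_add hd0, Real.rpow_add hd0]
    calc _ = c * C₁ * ((D.disc : ℝ) ^ (1 / 2 : ℝ) * (D.disc : ℝ) ^ (ε / 4) *
          (D.disc : ℝ) ^ (ε / 4)) * (Y * P + Y ^ (-δ)) := by ring
      _ ≤ _ := by gcongr
  intro T hT
  choose! ν hid hDu hν0 hνb hνm using hT
  choose J hJ using toMM_surjective D
  choose J₁ J₂ hmul hcard hJ₁ hJ₂ using exists_split D
  have hidx : ∀ M, idx D M = cd D (J₁ (J M)) * cd D (J₂ (J M)) := fun M => by
    have h1 := idx_toMM D (J M)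
    rw [hJ] at h1
    exact h1.trans (hcard _)
  have hcd : ∀ Q, (1 : ℝ) ≤ cd D Q := fun Q => by
    exact_mod_cast Nat.pos_of_ne_zero (card_ne_zero D Q)
  have step3 : ∀ (T' : Finset (MM D)) (j₁ : JJ D) (S : Finset ℕ), (∀ M ∈ T', J₁ (J M) = j₁) →
      (∀ M ∈ T', cd D (J₂ (J M)) ∈ S) → (T'.card : ℝ) ≤ ∑ m ∈ S, (rO D m : ℝ) := by
    intro T' j₁ S hT' hS
    have hinj : Set.InjOn (fun M => J₂ (J M)) T' := by
      intro M hM M' hM' he
      have h1 : (J M).1 = (J M').1 := by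
        rw [← hmul (J M), ← hmul (J M'), hT' M hM, hT' M' hM']
        exact congrArg (fun Q : JJ D => j₁.1 * Q.1) he
      rw [← hJ M, ← hJ M', Subtype.ext h1]
    have h2 := sum_JJ_le D (T'.image fun M => J₂ (J M)) S (by
      intro Q hQ
      obtain ⟨M, hM, rfl⟩ := Finset.mem_image.mp hQ
      exact hS M hM) (fun _ => 1) fun _ _ => zero_le_one
    simpa only [Finset.sum_const, nsmul_eq_mul, mul_one, Finset.card_image_of_injOn hinj] using h2
  have step2 : ∀ (T' : Finset (MM D)) (j₁ : JJ D) (y : Fin n → ℝ), T' ⊆ T → T'.Nonempty →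
      (∀ M ∈ T', J₁ (J M) = j₁ ∧ ν M = y) → (T'.card : ℝ) ≤ C₁ * (D.disc : ℝ) ^ (ε / 4) := by
    rintro T' j₁ y hsub ⟨M₀, hM₀⟩ hT'
    obtain ⟨N, hN0, hNe, -⟩ := idx_dvd D M₀ (hDu M₀ (hsub hM₀)) (hν0 M₀ (hsub hM₀))
    refine (step3 T' j₁ _ (fun M hM => (hT' M hM).1) fun M hM => ?_).trans (hdiv' N hN0 ?_)
    · obtain ⟨N', -, hNe', hd⟩ := idx_dvd D M (hDu M (hsub hM)) (hν0 M (hsub hM))
      have h3 : N' = N := by
        rw [(hT' M hM).2] at hNe'
        rw [(hT' M₀ hM₀).2] at hNe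
        exact_mod_cast hNe'.trans hNe.symm
      rw [h3, hidx] at hd
      exact Finset.mem_filter.mpr ⟨Nat.mem_divisors.mpr ⟨Dvd.dvd.trans (dvd_mul_left _ _) hd,
        hN0⟩, hJ₂ _⟩
    · rw [hNe, Real.rpow_add hd0, Real.rpow_one, Finset.abs_prod, mul_comm (n : ℝ),
        Real.rpow_mul hd0.le, Real.rpow_natCast]
      refine mul_le_mul_of_nonneg_left ((Finset.prod_le_prod (fun j _ => abs_nonneg _)
        fun j _ => (hνb M₀ (hsub hM₀) j).trans (hb j).2).trans_eq ?_) hd0.le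
      rw [Finset.prod_const, Finset.card_univ, Fintype.card_fin]
  have step1 : ∀ j₁ ∈ T.image fun M => J₁ (J M),
      ((T.filter fun M => J₁ (J M) = j₁).card : ℝ) ≤ K * (Y * P + Y ^ (-δ)) *
        (1 / (cd D j₁ : ℝ) ^ (1 - δ)) := by
    intro j₁ _
    have ha0 : (0 : ℝ) < cd D j₁ := one_pos.trans_le (hcd j₁)
    have hq : 0 < (cd D j₁ : ℝ) ^ (1 - δ) := Real.rpow_pos_of_pos ha0 _
    rcases le_or_gt (cd D j₁ : ℝ) Y with hle | hlt
    · have h1 := card_le_sum (T.filter fun M => J₁ (J M) = j₁) ν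
        (fun _ => C₁ * (D.disc : ℝ) ^ (ε / 4)) (by
          intro y hy
          obtain ⟨M, hM, hMy⟩ := Finset.mem_image.mp hy
          refine step2 _ j₁ y ((Finset.filter_subset _ _).trans (Finset.filter_subset _ _))
            ⟨M, Finset.mem_filter.mpr ⟨hM, hMy⟩⟩ fun M' hM' => ?_
          obtain ⟨h2, h3⟩ := Finset.mem_filter.mp hM'
          exact ⟨(Finset.mem_filter.mp h2).2, h3⟩)
      rw [Finset.sum_const, nsmul_eq_mul] at h1
      obtain ⟨A, hA, hl⟩ := exists_mat_order D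
      have h4 := cnt n A hA r hr b (fun j => (hb j).1) (fun x hx => hO x (by
          rw [hl] at hx; exact hx)) m ((T.filter fun M => J₁ (J M) = j₁).image ν) (by
        intro y hy
        obtain ⟨M, hM, rfl⟩ := Finset.mem_image.mp hy
        have h2 := (Finset.mem_filter.mp hM).1
        refine ⟨fun v hv => hDu M h2 v (RM_le_MM D M ?_), hνb M h2, hνm M h2⟩
        rw [hl] at hv
        exact hv)
      rw [abs_det_order D hA hl, ← hP] at h4
      have h7 : 1 ≤ Y * (1 / (cd D j₁ : ℝ) ^ (1 - δ)) := by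
        rw [mul_one_div, one_le_div hq]
        exact ((Real.rpow_le_rpow_of_exponent_le (hcd j₁) (by linarith)).trans_eq
          (Real.rpow_one _)).trans hle
      calc _ ≤ _ := h1
        _ ≤ c * √(D.disc : ℝ) * P * (C₁ * (D.disc : ℝ) ^ (ε / 4)) := by
            refine mul_le_mul_of_nonneg_right (h4.trans ?_) (by positivity)
            gcongr
        _ = K * P * 1 := by rw [hK]; ring
        _ ≤ K * P * (Y * (1 / (cd D j₁ : ℝ) ^ (1 - δ))) := by gcongr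
        _ = K * (Y * P) * (1 / (cd D j₁ : ℝ) ^ (1 - δ)) := by ring
        _ ≤ _ := by gcongr; exact le_add_of_nonneg_right (by positivity)
    · have h1 := step3 (T.filter fun M => J₁ (J M) = j₁) j₁
        ((Finset.Icc 1 ⌊B * √(D.disc : ℝ) / cd D j₁⌋₊).filter fun m => m.Coprime D.ind)
        (fun M hM => (Finset.mem_filter.mp hM).2) (by
          intro M hM
          obtain ⟨h2, h3⟩ := Finset.mem_filter.mp hM
          refine Finset.mem_filter.mpr ⟨Finset.mem_Icc.mpr ⟨by exact_mod_cast hcd _,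
            Nat.le_floor ?_⟩, hJ₂ _⟩
          have h4 := hid M h2
          rw [hidx, h3, Nat.cast_mul] at h4
          rw [le_div_iff₀ ha0, mul_comm]
          exact h4)
      have h5 : ∀ m ∈ (Finset.Icc 1 ⌊B * √(D.disc : ℝ) / cd D j₁⌋₊).filter
          fun m => m.Coprime D.ind, (rO D m : ℝ) ≤ C₁ * (D.disc : ℝ) ^ (ε / 4) := by
        intro m hm
        obtain ⟨h2, h3⟩ := Finset.mem_filter.mp hm
        obtain ⟨h4, h6⟩ := Finset.mem_Icc.mp h2
        have hm0 : m ≠ 0 := by omega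
        refine le_trans (Finset.single_le_sum (f := fun m => (rO D m : ℝ))
          (fun _ _ => Nat.cast_nonneg _) (Finset.mem_filter.mpr
            ⟨Nat.mem_divisors_self m hm0, h3⟩)) (hdiv' m hm0 ?_)
        calc (m : ℝ) ≤ B * √(D.disc : ℝ) / cd D j₁ := (Nat.le_floor_iff (by positivity)).mp h6
          _ ≤ B * √(D.disc : ℝ) := div_le_self (by positivity) (hcd j₁)
          _ ≤ (D.disc : ℝ) ^ (1 : ℝ) := by rwa [Real.rpow_one]
          _ ≤ _ := Real.rpow_le_rpow_of_exponent_le hd1 (le_add_of_nonneg_right (by positivity))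
      have h6 := Finset.sum_le_card_nsmul _ _ _ h5
      rw [nsmul_eq_mul] at h6
      have h7 : (((Finset.Icc 1 ⌊B * √(D.disc : ℝ) / cd D j₁⌋₊).filter
          fun m => m.Coprime D.ind).card : ℝ) ≤ B * √(D.disc : ℝ) / cd D j₁ := by
        refine le_trans ?_ (Nat.floor_le (by positivity))
        exact_mod_cast (Finset.card_filter_le _ _).trans_eq (by simp)
      have h8 : 1 / (cd D j₁ : ℝ) ≤ Y ^ (-δ) * (1 / (cd D j₁ : ℝ) ^ (1 - δ)) := by
        have h9 : (cd D j₁ : ℝ) ^ (-δ) ≤ Y ^ (-δ) :=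
          Real.rpow_le_rpow_of_nonpos hY0 hlt.le (by linarith)
        refine le_trans (le_of_eq ?_) (mul_le_mul_of_nonneg_right h9 (by positivity))
        rw [one_div, one_div, ← Real.rpow_neg ha0.le, ← Real.rpow_add ha0, ← Real.rpow_neg_one]
        congr 1
        ring
      calc _ ≤ _ := h1.trans h6
        _ ≤ c * √(D.disc : ℝ) / cd D j₁ * (C₁ * (D.disc : ℝ) ^ (ε / 4)) := by
            refine mul_le_mul_of_nonneg_right (h7.trans ?_) (by positivity)
            gcongr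
        _ = K * (1 / (cd D j₁ : ℝ)) := by rw [hK]; ring
        _ ≤ K * (Y ^ (-δ) * (1 / (cd D j₁ : ℝ) ^ (1 - δ))) := by gcongr
        _ = K * Y ^ (-δ) * (1 / (cd D j₁ : ℝ) ^ (1 - δ)) := by ring
        _ ≤ _ := by gcongr; exact le_add_of_nonneg_left (by positivity)
  refine (card_le_sum T _ _ step1).trans ?_
  rw [← Finset.mul_sum]
  refine mul_le_mul_of_nonneg_left ?_ (by positivity)
  refine (sum_JJ_le D _ ((T.image fun M => J₁ (J M)).image (cd D))
    (fun Q hQ => Finset.mem_image_of_mem _ hQ) (fun a => 1 / (a : ℝ) ^ (1 - δ))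
    fun a _ => by positivity).trans ?_
  simp only [mul_one_div, hδ]
  refine hrk D _ hX (SA.sqrt_disc_le D) _ fun a ha => ?_
  obtain ⟨Q, hQ, rfl⟩ := Finset.mem_image.mp ha
  obtain ⟨M, hM, rfl⟩ := Finset.mem_image.mp hQ
  have h5 := hid M hM
  rw [hidx, Nat.cast_mul] at h5
  refine ⟨by exact_mod_cast hcd _, ?_, hJ₁ _⟩
  nlinarith [hcd (J₁ (J M)), hcd (J₂ (J M))]

end Vale.Agent.P007M
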