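import Vale.Agent.P007M.Comb0

/-!
# P007M: additive combinatorics of the slabs (helper11)
-/

set_option linter.all false

open MeasureTheory Finset

namespace Vale.Agent.P007M

namespace Cb

section

variable {X : Type*} [MeasurableSpace X] {μ : Measure X} [IsProbabilityMeasure μ] {ι : Type*}
  {A B C D E : Set X} {F : X → ℝ} {c c' t : ℝ}

theorem int_ind (hB : MeasurableSet B) :
    Integrable (fun x => ind (x ∈ B)) μ ∧ ∫ x, ind (x ∈ B) ∂μ = μ.real B := by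
  have : (fun x => ind (x ∈ B)) = B.indicator 1 := funext fun x => by
    by_cases h : x ∈ B <;> simp [ind, h]
  rw [this]
  exact ⟨(integrable_const 1).indicator hB, integral_indicator_one hB⟩

/-- nonnegative functions with small integral -/
def Bd (μ : Measure X) (F : X → ℝ) (c : ℝ) : Prop :=
  (∀ x, 0 ≤ F x) ∧ Integrable F μ ∧ ∫ x, F x ∂μ ≤ c

theorem bd_ind (hB : MeasurableSet B) (h : μ.real B ≤ c) : Bd μ (fun x => ind (x ∈ B)) c :=
  ⟨fun _ => ind_nonneg _, (int_ind hB).1, (int_ind hB).2.trans_le h⟩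

theorem bd_sum {s : Finset ι} {F : ι → X → ℝ} (h : ∀ i ∈ s, Bd μ (F i) c) (hc : 0 ≤ c)
    (hs : #s ≤ t) : Bd μ (fun x => ∑ i ∈ s, F i x) (t * c) := by
  refine ⟨fun x => sum_nonneg fun i hi => (h i hi).1 x,
    integrable_finset_sum _ fun i hi => (h i hi).2.1, ?_⟩
  rw [integral_finset_sum _ fun i hi => (h i hi).2.1]
  exact (sum_le_card_nsmul _ _ _ fun i hi => (h i hi).2.2).trans
    ((nsmul_eq_mul _ _).trans_le (mul_le_mul_of_nonneg_right hs hc))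

theorem markov (h : Bd μ F c) (ht : 0 < t) (hc : c ≤ t * c') : μ.real {x | t ≤ F x} ≤ c' :=
  le_of_mul_le_mul_left ((mul_meas_ge_le_integral_of_nonneg (.of_forall h.1) h.2.1 t).trans
    (h.2.2.trans hc)) ht

theorem le2 (h : ∀ x, x ∈ A → x ∈ B ∨ x ∈ C) : μ.real A ≤ μ.real B + μ.real C :=
  (measureReal_mono (s₂ := B ∪ C) h).trans (measureReal_union_le _ _)

theorem le4 {G : Set X} (h : ∀ x, x ∈ A → x ∈ B ∨ x ∈ C ∨ x ∈ D ∨ x ∈ G) :
    μ.real A ≤ μ.real B + μ.real C + μ.real D + μ.real G := by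
  have a := le2 (μ := μ) (A := A) (B := B) (C := C ∪ (D ∪ G)) h
  linarith [measureReal_union_le (μ := μ) C (D ∪ G), measureReal_union_le (μ := μ) D G]

theorem rev (hA : MeasurableSet A) (hB : MeasurableSet B) (h : μ.real B ≤ μ.real A + c) :
    μ.real (B \ A) ≤ μ.real (A \ B) + c := by
  have a := measureReal_inter_add_diff (μ := μ) (s := A) hB
  have b := measureReal_inter_add_diff (μ := μ) (s := B) hA
  rw [Set.inter_comm] at b
  linarith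

theorem union [Fintype ι] {P : ι → Prop} {Z : ι → Set X} (hc : 0 ≤ c)
    (h : ∀ i, P i → μ.real (Z i) ≤ c) :
    μ.real {x | ∃ i, P i ∧ x ∈ Z i} ≤ Fintype.card ι * c := by
  rw [Set.setOf_exists]
  refine (measureReal_iUnion_fintype_le _).trans ((sum_le_card_nsmul _ _ c fun i _ => ?_).trans_eq
    (nsmul_eq_mul _ _))
  by_cases k : P i
  · simpa [k] using h i k
  · simpa [k] using hc

theorem avg {s : Finset ι} {B : ι → Set X} (hB : ∀ i, MeasurableSet (B i)) (hc : 0 ≤ c)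
    (h : ∀ x ∉ A, ∑ i ∈ s, ind (x ∈ B i) ≤ c) : ∑ i ∈ s, μ.real (B i) ≤ c + #s * μ.real A := by
  have m := int_ind (μ := μ) (measurableSet_toMeasurable μ A)
  rw [← sum_congr rfl fun i _ => (int_ind (hB i)).2,
    ← integral_finset_sum _ fun i _ => (int_ind (hB i)).1]
  refine (integral_mono (g := fun x => c + #s * ind (x ∈ toMeasurable μ A))
    (integrable_finset_sum _ fun i _ => (int_ind (hB i)).1)
    ((integrable_const c).add (m.1.const_mul _)) fun x => ?_).trans_eq ?_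
  · beta_reduce
    by_cases k : x ∈ toMeasurable μ A
    · rw [ind_pos k]
      have := sum_le_card_nsmul s _ 1 fun i _ => ind_le_one (x ∈ B i)
      rw [nsmul_eq_mul] at this
      linarith
    · rw [ind_neg k, mul_zero, add_zero]
      exact h x fun j => k (subset_toMeasurable μ A j)
  · rw [integral_add (integrable_const c) (m.1.const_mul _), integral_const_mul, m.2]
    simp [Measure.real]

end

/-- the averaged statement -/
theorem core (n : ℕ) {d ε : ℝ} (hd : 0 < d) (hε : 0 < ε) : ∃ κ > (0 : ℝ), ∀ N : ℕ, 1 ≤ N →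
    ∀ B : Finset (Fin n), 3 ≤ #B → ∀ (X : Type) [MeasurableSpace X] (μ : Measure X)
    [IsProbabilityMeasure μ] (P : Fin n → Fin n → ℤ → Set X), (∀ j k s, MeasurableSet (P j k s)) →
    (∀ j ∈ B, ∀ k ∈ B, j ≠ k → ∀ y, μ.real {x | ¬(x ∈ P j k y ↔ x ∈ P j k (y + 1))} ≤ κ) →
    (∀ i ∈ B, ∀ j ∈ B, ∀ k ∈ B, i ≠ j → i ≠ k → j ≠ k → ∀ a ∈ I (3 * (n * N)),
      ∀ b ∈ I (3 * (n * N)), μ.real {x | x ∈ P j i a ∧ x ∈ P i k b ∧ x ∉ P j k (a + b)} ≤ κ) →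
    (∀ i ∈ B, ∀ j ∈ B, ∀ k ∈ B, i ≠ j → i ≠ k → j ≠ k → ∀ a ∈ I (3 * (n * N)),
      ∀ b ∈ I (3 * (n * N)), ∀ y ∈ I (3 * (n * N)), μ.real {x | x ∈ P i j a ∧ x ∈ P j i b ∧
        ¬(x ∈ P j k y ↔ x ∈ P j k (y + a + b))} ≤ κ) →
    (∀ S ⊆ B, S.Nonempty → S ≠ B →
      μ.real {x | ∀ j ∈ S, ∀ k ∈ B \ S, ∑ s ∈ I N, ind (x ∈ P j k s) < d * N} ≤ κ) →
    ∀ j ∈ B, ∀ k ∈ B, j ≠ k → ∑ y ∈ I (n * N), μ.real (P j k y)ᶜ ≤ ε * #(I (n * N)) := by
  obtain ⟨θ, θ0, H⟩ := det n hd (half_pos hε)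
  let ι := Finset (Fin n) × Fin n × Fin n × Fin n
  obtain ⟨β, β1, β0⟩ := ((small (Fintype.card ι * 4) (half_pos hε)).and self_mem_nhdsWithin).exists
  replace β0 : 0 < β := β0
  obtain ⟨κ, ⟨κ1, κ2⟩, κ0⟩ := (((small 1 β0).and (small ((7 * n) ^ 3) (mul_pos θ0 β0))).and
    self_mem_nhdsWithin).exists
  replace κ0 : 0 < κ := κ0
  refine ⟨κ, κ0, fun N hN B hB X _ μ _ P hP g1 g2 g3 g4 j hj k hk h => ?_⟩
  have n0 : (3 : ℝ) ≤ n := by
    exact_mod_cast hB.trans ((card_le_univ B).trans_eq (Fintype.card_fin n))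
  have N0 : (1 : ℝ) ≤ N := by exact_mod_cast hN
  have c : (#(I (3 * (n * N))) : ℝ) ≤ 7 * n * N := by rw [card_I]; push_cast; nlinarith
  have n1 : (1 : ℝ) ≤ 7 * n := by linarith
  have b : ∀ r ≤ 3, (7 * n * N) ^ r * κ ≤ θ * N ^ r * β := fun r hr => by
    have := mul_le_mul_of_nonneg_left ((mul_le_mul_of_nonneg_right (pow_le_pow_right₀ n1 hr)
      κ0.le).trans κ2) (by positivity : (0 : ℝ) ≤ N ^ r)
    rw [mul_pow]
    linarith
  have m := fun j k s => (hP j k s).mem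
  let Z : ι → Set X := fun q => {x | θ * N ≤ ∑ y ∈ I (3 * (n * N)),
      ind (¬(x ∈ P q.2.2.1 q.2.2.2 y ↔ x ∈ P q.2.2.1 q.2.2.2 (y + 1)))} ∪
    ({x | θ * N ^ 2 ≤ ∑ b ∈ I (3 * (n * N)), ∑ a ∈ I (3 * (n * N)), ind (x ∈ P q.2.2.1 q.2.1 a ∧
      x ∈ P q.2.1 q.2.2.2 b ∧ x ∉ P q.2.2.1 q.2.2.2 (a + b))} ∪
    ({x | θ * N ^ 3 ≤ ∑ b ∈ I (3 * (n * N)), ∑ a ∈ I (3 * (n * N)), ∑ y ∈ I (3 * (n * N)),
      ind (x ∈ P q.2.1 q.2.2.1 a ∧ x ∈ P q.2.2.1 q.2.1 b ∧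
        ¬(x ∈ P q.2.2.1 q.2.2.2 y ↔ x ∈ P q.2.2.1 q.2.2.2 (y + a + b)))} ∪
    {x | ∀ j ∈ q.1, ∀ k ∈ B \ q.1, ∑ s ∈ I N, ind (x ∈ P j k s) < d * N}))
  have hZ := union (μ := μ) (Z := Z) (c := 4 * β) (P := fun q => (q.1 ⊆ B ∧ q.1.Nonempty ∧ q.1 ≠ B) ∧
      q.2.1 ∈ B ∧ q.2.2.1 ∈ B ∧ q.2.2.2 ∈ B ∧ q.2.1 ≠ q.2.2.1 ∧ q.2.1 ≠ q.2.2.2 ∧ q.2.2.1 ≠ q.2.2.2)
      (by positivity) fun ⟨S, i, j, k⟩ ⟨⟨s1, s2, s3⟩, hi, hj, hk, h1, h2, h3⟩ => by
    have a1 := markov (t := θ * N) (c' := β) (bd_sum (fun y _ => bd_ind ((m _ _ _).iff (m _ _ _)).not.setOf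
      (g1 j hj k hk h3 y)) κ0.le c)
      (by positivity) (by simpa only [pow_one] using b 1 (by norm_num))
    have a2 := markov (t := θ * N ^ 2) (c' := β) (bd_sum (fun b hb => bd_sum (fun a ha => bd_ind
      ((m _ _ _).and ((m _ _ _).and (m _ _ _).not)).setOf
      (g2 i hi j hj k hk h1 h2 h3 a ha b hb)) κ0.le c) (by positivity) c) (by positivity)
      (le_of_eq_of_le (by ring) (b 2 (by norm_num)))
    have a3 := markov (t := θ * N ^ 3) (c' := β) (bd_sum (fun b hb => bd_sum (fun a ha => bd_sum (fun y hy => bd_ind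
      ((m _ _ _).and ((m _ _ _).and ((m _ _ _).iff (m _ _ _)).not)).setOf
      (g3 i hi j hj k hk h1 h2 h3 a ha b hb y hy)) κ0.le c) (by positivity) c)
      (by positivity) c) (by positivity) (le_of_eq_of_le (by ring) (b 3 le_rfl))
    exact (le4 fun x => id).trans (by linarith! [g4 S s1 s2 s3])
  have t3 : ∀ j ∈ B, ∀ k ∈ B, j ≠ k → ∃ i ∈ B, i ≠ j ∧ i ≠ k := fun j _ k _ h => by
    simpa using exists_mem_notMem_of_card_lt_card (s := {j, k}) (t := B)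
      (by rw [card_pair h]; omega)
  obtain ⟨i, hi, i1, i2⟩ := t3 j hj k hk h
  have s0 : ({j} : Finset (Fin n)) ⊆ B ∧ ({j} : Finset (Fin n)).Nonempty ∧ {j} ≠ B :=
    ⟨singleton_subset_iff.2 hj, singleton_nonempty _, fun e => by simp [← e] at hB⟩
  refine (avg (fun y => (hP j k y).compl) (c := ε / 2 * N) (by positivity) fun x hx => ?_).trans
    (add_le_add_right (mul_le_mul_of_nonneg_left hZ (Nat.cast_nonneg _)) _ |>.trans ?_)
  · simp only [Set.mem_setOf_eq, not_exists, not_and, Z, Set.mem_union, not_or, not_le] at hx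
    refine H N hN B hB (fun j k s => x ∈ P j k s) (fun j hj k hk h => ?_)
      (fun i hi j hj k hk h1 h2 h3 => (hx (_, i, j, k) ⟨s0, hi, hj, hk, h1, h2, h3⟩).2.1.le)
      (fun i hi j hj k hk h1 h2 h3 => (hx (_, i, j, k) ⟨s0, hi, hj, hk, h1, h2, h3⟩).2.2.1.le)
      (fun S s1 s2 s3 => ?_) j hj k hk h
    · obtain ⟨i, hi, i1, i2⟩ := t3 j hj k hk h
      exact (hx (_, i, j, k) ⟨s0, hi, hj, hk, i1, i2, h⟩).1.le
    · simpa [and_assoc] using (hx (S, i, j, k) ⟨⟨s1, s2, s3⟩, hi, hj, hk, i1, i2, h⟩).2.2.2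
  · have e : (N : ℝ) ≤ #(I (n * N)) := by rw [card_I]; push_cast; nlinarith
    have := mul_le_mul_of_nonneg_left β1 (Nat.cast_nonneg (α := ℝ) #(I (n * N)))
    nlinarith

theorem nrm {n : ℕ} (j : Fin n) (a : ℝ) : ‖(Pi.single j a : Fin n → ℝ)‖ = |a| := Pi.norm_single _

theorem abs_I {R : ℕ} {y : ℤ} (h : y ∈ I R) : |(y : ℝ)| ≤ R := by
  exact_mod_cast abs_le.2 (mem_I.1 h)

section one

variable {n N : ℕ} {X : Type} [MeasurableSpace X] {μ : Measure X} [IsProbabilityMeasure μ]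
  {T : (Fin n → ℝ) → X → X} {F : Fin n → Fin n → Set X} {Λ : Set ℝ} {B : Finset (Fin n)} {η : ℝ}
  {i j k : Fin n}

/-- the hypotheses for one family of events -/
structure Hy (μ : Measure X) (T : (Fin n → ℝ) → X → X) (F : Fin n → Fin n → Set X) (Λ : Set ℝ)
    (N : ℕ) (B : Finset (Fin n)) (η : ℝ) : Prop where
  n0 : (3 : ℝ) ≤ n
  N0 : (1 : ℝ) ≤ N
  hT : ∀ u, MeasurePreserving (T u) μ μ
  hT' : ∀ u v x, T (u + v) x = T u (T v x)
  hF : ∀ j k, MeasurableSet (F j k)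
  h0 : 0 ∈ Λ
  h1 : 1 ∈ Λ ∨ -1 ∈ Λ
  inv : ∀ j ∈ B, ∀ k ∈ B, j ≠ k → ∀ u, ‖u‖ ≤ 30 * n * N → u j - u k ∈ Λ →
    μ.real (T u ⁻¹' F j k \ F j k) ≤ η
  heis : ∀ i ∈ B, ∀ j ∈ B, ∀ k ∈ B, i ≠ j → i ≠ k → j ≠ k → μ.real ((F j i ∩ F i k) \ F j k) ≤ η

/-- the slabs -/
def PP (T : (Fin n → ℝ) → X → X) (F : Fin n → Fin n → Set X) (j k : Fin n) (s : ℤ) : Set X :=
  T (Pi.single j s) ⁻¹' F j k

namespace Hy

variable (H : Hy μ T F Λ N B η)
include H

theorem mY (j k : Fin n) (u : Fin n → ℝ) : MeasurableSet (T u ⁻¹' F j k) :=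
  (H.hT u).measurable (H.hF j k)

theorem mP (j k : Fin n) (s : ℤ) : MeasurableSet (PP T F j k s) := H.mY _ _ _

theorem pre (u : Fin n → ℝ) {A : Set X} (hA : MeasurableSet A) : μ.real (T u ⁻¹' A) = μ.real A :=
  (H.hT u).measureReal_preimage hA.nullMeasurableSet

theorem sd (hj : j ∈ B) (hk : k ∈ B) (h : j ≠ k) (u v : Fin n → ℝ) (a : ‖u - v‖ ≤ 30 * n * N)
    (b : (u - v) j - (u - v) k ∈ Λ) : μ.real {x | ¬(T u x ∈ F j k ↔ T v x ∈ F j k)} ≤ 2 * η := by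
  have e := H.pre v (((H.mY j k (u - v)).mem.iff (H.hF j k).mem).not.setOf)
  simp only [Set.preimage_setOf_eq, Set.mem_preimage, ← H.hT', sub_add_cancel] at e
  have e1 := H.inv j hj k hk h _ a b
  have e2 := rev (c := 0) (H.mY j k (u - v)) (H.hF j k) (by rw [H.pre _ (H.hF j k), add_zero])
  rw [e]
  refine (le2 (B := T (u - v) ⁻¹' F j k \ F j k) (C := F j k \ T (u - v) ⁻¹' F j k)
    fun x => ?_).trans (by linarith)
  simp only [Set.mem_setOf_eq, Set.mem_diff, Set.mem_preimage]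
  tauto

theorem near (hj : j ∈ B) (hk : k ∈ B) (h : j ≠ k) (u : Fin n → ℝ) (s : ℤ) (a : ‖u‖ ≤ 18 * n * N)
    (b : |(s : ℝ)| ≤ 12 * n * N) (e : u j - u k - s ∈ Λ) :
    μ.real {x | ¬(T u x ∈ F j k ↔ x ∈ PP T F j k s)} ≤ 2 * η :=
  H.sd hj hk h u _ ((norm_sub_le _ _).trans (by rw [nrm]; linarith))
    (by simpa [h.symm, sub_right_comm] using e)

theorem ha (hj : j ∈ B) (hk : k ∈ B) (h : j ≠ k) (y : ℤ) :
    μ.real {x | ¬(x ∈ PP T F j k y ↔ x ∈ PP T F j k (y + 1))} ≤ 2 * η := by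
  have e : ∀ a b : ℝ, (Pi.single j a - Pi.single j b : Fin n → ℝ) = Pi.single j (a - b) :=
    fun a b => (Pi.single_sub _ _ _).symm
  rcases H.h1 with h1 | h1
  · refine le_of_eq_of_le (congrArg _ (Set.ext fun x => not_congr iff_comm)) (H.sd hj hk h
      (Pi.single j ((y + 1 : ℤ) : ℝ)) (Pi.single j (y : ℝ))
      (by rw [e, nrm]; simp; nlinarith [H.n0, H.N0]) (by simpa [h.symm] using h1))
  · exact H.sd hj hk h (Pi.single j (y : ℝ)) (Pi.single j ((y + 1 : ℤ) : ℝ))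
      (by rw [e, nrm]; simp; nlinarith [H.n0, H.N0]) (by simpa [h.symm] using h1)

theorem hb (hi : i ∈ B) (hj : j ∈ B) (hk : k ∈ B) (h1 : i ≠ j) (h2 : i ≠ k) (h3 : j ≠ k) (a b : ℤ)
    (ha : |(a : ℝ)| ≤ 6 * n * N) (hb : |(b : ℝ)| ≤ 6 * n * N) :
    μ.real {x | x ∈ PP T F j i a ∧ x ∈ PP T F i k b ∧ x ∉ PP T F j k (a + b)} ≤ 7 * η := by
  have ab := abs_add_le (a : ℝ) b
  have nN : (0 : ℝ) ≤ n * N := by positivity
  let u : Fin n → ℝ := Pi.single j (a + b : ℝ) + Pi.single i (b : ℝ)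
  have hu : ‖u‖ ≤ 18 * n * N := (norm_add_le _ _).trans (by rw [nrm, nrm]; linarith)
  have a1 := H.near hj hi h1.symm u a hu (by linarith) (by simpa [u, h1, h1.symm] using H.h0)
  have a2 := H.near hi hk h2 u b hu (by linarith) (by simpa [u, h1, h2.symm, h3.symm] using H.h0)
  have a3 := H.near hj hk h3 u (a + b) hu (by push_cast; linarith)
    (by simpa [u, h1.symm, h2.symm, h3.symm] using H.h0)
  have a4 := (H.pre u (((H.hF j i).inter (H.hF i k)).diff (H.hF j k))).trans_le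
    (H.heis i hi j hj k hk h1 h2 h3)
  refine le_trans (le4 fun x => ?_) ((add_le_add (add_le_add (add_le_add a1 a2) a3) a4).trans
    (by linarith))
  simp only [Set.mem_setOf_eq, Set.mem_diff, Set.mem_preimage, Set.mem_inter_iff]
  tauto

theorem hc (hi : i ∈ B) (hj : j ∈ B) (hk : k ∈ B) (h1 : i ≠ j) (h2 : i ≠ k) (h3 : j ≠ k) (a b y : ℤ)
    (a0 : |(a : ℝ)| ≤ 3 * n * N) (b0 : |(b : ℝ)| ≤ 3 * n * N) (y0 : |(y : ℝ)| ≤ 3 * n * N) :
    μ.real {x | x ∈ PP T F i j a ∧ x ∈ PP T F j i b ∧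
      ¬(x ∈ PP T F j k y ↔ x ∈ PP T F j k (y + a + b))} ≤ 34 * η := by
  have nN : (0 : ℝ) ≤ n * N := by positivity
  have e1 := abs_add_le (a : ℝ) b
  have e2 := abs_add_le (a : ℝ) y
  have e3 := abs_add_le (y + a : ℝ) b
  have e4 := abs_add_le (y : ℝ) a
  let G := PP T F i j a ∩ PP T F j i b
  have mG : MeasurableSet G := (H.mP _ _ _).inter (H.mP _ _ _)
  have f1 := H.hb hj hi hk h1.symm h3 h2 a y (by linarith) (by linarith)
  have f2 := H.hb hi hj hk h1 h2 h3 b (a + y) (by linarith) (by push_cast; linarith)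
  rw [show b + (a + y) = y + a + b by ring] at f2
  have f3 : μ.real ((G ∩ PP T F j k y) \ (G ∩ PP T F j k (y + a + b))) ≤ 14 * η := by
    refine le_trans (le2 fun x => ?_) ((add_le_add f1 f2).trans (by linarith))
    simp only [G, Set.mem_setOf_eq, Set.mem_diff, Set.mem_inter_iff]
    tauto
  have nr := fun j l hj hl h (c : ℝ) s => H.near (j := j) (k := l) hj hl h
    (Pi.single j c + Pi.single k (a + b : ℝ)) s
  have g1 := nr i j hi hj h1 a a ((norm_add_le _ _).trans (by rw [nrm, nrm]; linarith))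
    (by linarith) (by simpa [h1.symm, h2, h3] using H.h0)
  have g2 := nr j i hj hi h1.symm b b ((norm_add_le _ _).trans (by rw [nrm, nrm]; linarith))
    (by linarith) (by simpa [h1, h2, h3] using H.h0)
  have g3 := nr j k hj hk h3 (y + a + b : ℤ) y ((norm_add_le _ _).trans
    (by rw [nrm, nrm]; push_cast; linarith)) (by linarith)
    (by simpa [h3, h3.symm, add_assoc] using H.h0)
  have f4 : μ.real (G ∩ PP T F j k (y + a + b)) ≤ μ.real (G ∩ PP T F j k y) + 6 * η := by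
    rw [← H.pre (Pi.single k (a + b : ℝ)) (mG.inter (H.mP _ _ _))]
    refine le_trans (le4 fun x => ?_) ((add_le_add (add_le_add (add_le_add le_rfl g1) g2)
      g3).trans_eq (by ring))
    simp only [G, PP, H.hT', Set.mem_setOf_eq, Set.mem_preimage, Set.mem_inter_iff]
    tauto
  have f5 := rev (mG.inter (H.mP _ _ _)) (mG.inter (H.mP _ _ _)) f4
  refine le_trans (le2 fun x => ?_) ((add_le_add f3 f5).trans (by linarith))
  simp only [G, Set.mem_setOf_eq, Set.mem_diff, Set.mem_inter_iff]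
  tauto

theorem hd {d : ℝ} {S : Finset (Fin n)} {u : Fin n → Fin n → ℤ → Fin n → ℝ} (hd : 0 < d)
    (η0 : 0 ≤ η) (s1 : S ⊆ B)
    (u1 : ∀ j ∈ S, ∀ k ∈ B \ S, ∀ s ∈ I N, ‖u j k s‖ ≤ N ∧ u j k s j - u j k s k - s ∈ Λ)
    (u2 : μ.real {x | ∑ j ∈ S, ∑ k ∈ B \ S, ∑ s ∈ I N, ind (T (u j k s) x ∈ F j k) < d * N} ≤ η) :
    μ.real {x | ∀ j ∈ S, ∀ k ∈ B \ S, ∑ s ∈ I N, ind (x ∈ PP T F j k s) <
      d / (2 * (n ^ 2 + 1)) * N} ≤ (1 + 12 * n ^ 2 / d) * η := by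
  have n0 := H.n0
  have N0 := H.N0
  have c : ∀ S : Finset (Fin n), (#S : ℝ) ≤ n := fun S => by
    exact_mod_cast (card_le_univ S).trans_eq (Fintype.card_fin n)
  have a := markov (t := d / 2 * N) (c' := 12 * n ^ 2 / d * η) (bd_sum (fun j hj => bd_sum
    (fun k hk => bd_sum (fun s hs => bd_ind ((H.mY j k (u j k s)).mem.iff (H.mP _ _ _).mem).not.setOf
      (H.near (s1 hj) (mem_sdiff.1 hk).1 (fun e => (mem_sdiff.1 hk).2 (e ▸ hj)) _ s
        ((u1 j hj k hk s hs).1.trans (by nlinarith)) ((abs_I hs).trans (by nlinarith))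
        (u1 j hj k hk s hs).2)) (by positivity) (t := 3 * N) (by rw [card_I]; linarith))
    (by positivity) (c _)) (by positivity) (c S)) (by positivity) (le_of_eq (by field_simp; ring))
  refine le_trans (le2 fun x hx => ?_) ((add_le_add u2 a).trans_eq (by ring))
  by_contra k
  simp only [Set.mem_setOf_eq, Set.mem_preimage, not_or, not_lt, not_le] at k
  have e := sum_le_sum (s := S) fun j hj => sum_le_sum (s := B \ S) fun k hk => (sum_le_sum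
    (s := I N) fun s _ => ind_or (P := T (u j k s) x ∈ F j k) (Q := x ∈ PP T F j k s)
    (R := ¬(T (u j k s) x ∈ F j k ↔ x ∈ PP T F j k s)) (by tauto)).trans
    (sum_add_distrib.trans_le (add_le_add_left (hx j hj k hk).le _))
  simp only [sum_add_distrib, sum_const, nsmul_eq_mul] at e
  have e1 := mul_le_mul (c S) (mul_le_mul_of_nonneg_right (c (B \ S))
    (by positivity : 0 ≤ d / (2 * (n ^ 2 + 1)) * N)) (by positivity) (by positivity)
  have e2 : n * (n * (d / (2 * (n ^ 2 + 1)) * N)) ≤ d / 2 * N := by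
    rw [show n * (n * (d / (2 * (n ^ 2 + 1)) * N)) = d / 2 * N * (n ^ 2 / (n ^ 2 + 1)) by
      field_simp]
    exact mul_le_of_le_one_right (by positivity) (div_le_one_of_le₀ (by linarith) (by positivity))
  linarith [k.1, k.2]

end Hy

end one

theorem one (n : ℕ) {d ε : ℝ} (hd : 0 < d) (hε : 0 < ε) : ∃ η > (0 : ℝ), ∀ (X : Type)
    [MeasurableSpace X] (μ : Measure X) [IsProbabilityMeasure μ] (T : (Fin n → ℝ) → X → X)
    (F : Fin n → Fin n → Set X) (Λ : Set ℝ) (N : ℕ) (B : Finset (Fin n)), 3 ≤ #B →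
    Hy μ T F Λ N B η → (∀ S ⊆ B, S.Nonempty → S ≠ B → ∃ u : Fin n → Fin n → ℤ → Fin n → ℝ,
      (∀ j ∈ S, ∀ k ∈ B \ S, ∀ s ∈ I N, ‖u j k s‖ ≤ N ∧ u j k s j - u j k s k - s ∈ Λ) ∧
      μ.real {x | ∑ j ∈ S, ∑ k ∈ B \ S, ∑ s ∈ I N, ind (T (u j k s) x ∈ F j k) < d * N} ≤ η) →
    ∀ j ∈ B, ∀ k ∈ B, j ≠ k → μ.real (F j k)ᶜ ≤ ε := by
  obtain ⟨κ, κ0, H⟩ := core n (d := d / (2 * (n ^ 2 + 1))) (by positivity) hε
  obtain ⟨η, ⟨η1, η2⟩, η0⟩ := (((small 34 κ0).and (small (1 + 12 * n ^ 2 / d) κ0)).and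
    self_mem_nhdsWithin).exists
  replace η0 : 0 < η := η0
  refine ⟨η, η0, fun X _ μ _ T F Λ N B hB h dens j hj k hk jk => ?_⟩
  have ab : ∀ y ∈ I (3 * (n * N)), |(y : ℝ)| ≤ 3 * n * N := fun y hy =>
    (abs_I hy).trans_eq (by push_cast; ring)
  have nN : (0 : ℝ) ≤ n * N := by positivity
  have := H N (by exact_mod_cast h.N0) B hB X μ (PP T F) h.mP
    (fun j hj k hk jk y => (h.ha hj hk jk y).trans (by linarith))
    (fun i hi j hj k hk h1 h2 h3 a ha b hb => (h.hb hi hj hk h1 h2 h3 a b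
      (by linarith [ab a ha]) (by linarith [ab b hb])).trans (by linarith))
    (fun i hi j hj k hk h1 h2 h3 a ha b hb y hy => (h.hc hi hj hk h1 h2 h3 a b y (ab a ha) (ab b hb)
      (ab y hy)).trans η1) (fun S s1 s2 s3 => let ⟨u, u1, u2⟩ := dens S s1 s2 s3
      (h.hd hd η0.le s1 u1 u2).trans η2) j hj k hk jk
  rw [sum_congr rfl (g := fun _ => μ.real (F j k)ᶜ) fun y _ => by exact h.pre _ (h.hF j k).compl,
    sum_const, nsmul_eq_mul, mul_comm] at this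
  exact le_of_mul_le_mul_right this (by rw [card_I]; positivity)

end Cb

open Cb Classical in
/-- **Combinatorics of the slabs**, for a block `B` of indices -/
theorem combB (n : ℕ) (d ε : ℝ) (hd : 0 < d) (hε : 0 < ε) :
    ∃ (M C : ℕ) (η : ℝ), 0 < η ∧ ∀ (X : Type) [MeasurableSpace X] (μ : Measure X)
      [IsProbabilityMeasure μ] (T : (Fin n → ℝ) → X → X) (E : ℕ → Fin n → Fin n → Set X)
      (Λ : Set ℝ) (N : ℕ) (B : Finset (Fin n)), 3 ≤ #B → 1 ≤ N →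
      (∀ u, MeasurePreserving (T u) μ μ) → (∀ u v x, T (u + v) x = T u (T v x)) →
      (∀ m j k, MeasurableSet (E m j k)) →
      (∀ m < M, ∀ j ∈ B, ∀ k ∈ B, j ≠ k → E m j k ⊆ E (m + 1) j k) → 0 ∈ Λ → (1 ∈ Λ ∨ -1 ∈ Λ) →
      (∀ m < M, ∀ j ∈ B, ∀ k ∈ B, j ≠ k → ∀ u, ‖u‖ ≤ C * N → u j - u k ∈ Λ →
        μ.real (T u ⁻¹' E m j k \ E (m + 1) j k) ≤ η) →
      (∀ m < M, ∀ i ∈ B, ∀ j ∈ B, ∀ k ∈ B, i ≠ j → i ≠ k → j ≠ k →
        μ.real ((E m j i ∩ E m i k) \ E (m + 1) j k) ≤ η) →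
      (∀ S ⊆ B, S.Nonempty → S ≠ B → ∃ u : Fin n → Fin n → ℤ → Fin n → ℝ,
        (∀ j ∈ S, ∀ k ∈ B \ S, ∀ s ∈ Icc (-(N : ℤ)) N,
          ‖u j k s‖ ≤ N ∧ u j k s j - u j k s k - s ∈ Λ) ∧
        μ.real {x | ((∑ j ∈ S, ∑ k ∈ B \ S,
          #{s ∈ Icc (-(N : ℤ)) N | T (u j k s) x ∈ E 0 j k} : ℕ) : ℝ) < d * N} ≤ η) →
      ∀ j ∈ B, ∀ k ∈ B, j ≠ k → μ.real (E M j k)ᶜ ≤ ε := by
  obtain ⟨η, η0, H⟩ := one n hd hε
  obtain ⟨M, hM⟩ := exists_nat_gt (n ^ 2 / (η / 2))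
  have M0 : 0 < M := Nat.cast_pos.1 (lt_of_le_of_lt (by positivity) hM)
  refine ⟨M, 30 * n, η / 2, half_pos η0,
    fun X _ μ _ T E Λ N B hB hN hT hT' hE mono h0 h1 inv heis dens j hj k hk jk => ?_⟩
  have mo : ∀ m m', m ≤ m' → m' ≤ M → ∀ j ∈ B, ∀ k ∈ B, j ≠ k → E m j k ⊆ E m' j k := by
    intro m m' h h' j hj k hk jk
    induction m', h using Nat.le_induction with
    | base => rfl
    | succ m' _ ih => exact (ih (by omega)).trans (mono m' h' j hj k hk jk)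
  let g : ℕ → ℝ := fun m => ∑ q ∈ B.offDiag, μ.real (E m q.1 q.2)
  obtain ⟨m, hm, e⟩ := exists_le_of_sum_le (s := range M) (f := fun m => g (m + 1) - g m)
    (g := fun _ => η / 2) ⟨0, mem_range.2 M0⟩ (by
      have a := sum_le_card_nsmul B.offDiag (fun q => μ.real (E M q.1 q.2)) 1 fun _ _ =>
        measureReal_le_one
      have b : 0 ≤ g 0 := sum_nonneg fun _ _ => measureReal_nonneg
      have c : (#B.offDiag : ℝ) ≤ n ^ 2 := by
        exact_mod_cast (card_le_univ _).trans_eq (by simp [sq])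
      rw [div_lt_iff₀ (half_pos η0)] at hM
      rw [sum_range_sub, sum_const, card_range, nsmul_eq_mul]
      rw [nsmul_eq_mul] at a
      linarith)
  rw [mem_range] at hm
  have γ : ∀ j ∈ B, ∀ k ∈ B, j ≠ k → ∀ A, μ.real (A \ E (m + 1) j k) ≤ η / 2 →
      μ.real (A \ E m j k) ≤ η := fun j hj k hk jk A hA => by
    have d : ∀ q ∈ B.offDiag, μ.real (E (m + 1) q.1 q.2) - μ.real (E m q.1 q.2) =
        μ.real (E (m + 1) q.1 q.2 \ E m q.1 q.2) := fun q hq => by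
      obtain ⟨a, b, c⟩ := mem_offDiag.1 hq
      exact (measureReal_diff (mono m hm _ a _ b c) (hE _ _ _)).symm
    rw [← sum_sub_distrib, sum_congr rfl d] at e
    have := (single_le_sum (f := fun q : Fin n × Fin n => μ.real (E (m + 1) q.1 q.2 \ E m q.1 q.2))
      (fun _ _ => measureReal_nonneg) (mem_offDiag.2 ⟨hj, hk, jk⟩ : (j, k) ∈ _)).trans e
    refine le_trans (le2 fun x => ?_) ((add_le_add hA this).trans_eq (add_halves η))
    simp only [Set.mem_diff]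
    tauto
  refine (measureReal_mono (Set.compl_subset_compl.2 (mo m M hm.le le_rfl j hj k hk jk))).trans
    (H X μ T (E m) Λ N B hB ⟨by
      exact_mod_cast hB.trans ((card_le_univ B).trans_eq (Fintype.card_fin n)),
      by exact_mod_cast hN, hT, hT', hE m, h0, h1, fun j hj k hk jk u a b => γ j hj k hk jk _
        (inv m hm j hj k hk jk u (by exact_mod_cast a) b), fun i hi j hj k hk h1 h2 h3 =>
        γ j hj k hk h3 _ (heis m hm i hi j hj k hk h1 h2 h3)⟩ (fun S s1 s2 s3 => ?_) j hj k hk jk)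
  obtain ⟨u, u1, u2⟩ := dens S s1 s2 s3
  refine ⟨u, u1, le_trans (measureReal_mono (fun x hx => ?_) (measure_ne_top _ _))
    (u2.trans (half_le_self η0.le))⟩
  rw [Set.mem_setOf_eq] at hx ⊢
  refine lt_of_le_of_lt ?_ hx
  push_cast
  refine sum_le_sum fun j hj => sum_le_sum fun k hk => (sum_ind _ _).ge.trans
    (sum_le_sum fun s _ => ind_mono fun h => ?_)
  obtain ⟨a, b⟩ := mem_sdiff.1 hk
  exact mo 0 m m.zero_le hm.le j (s1 hj) k a (fun e => b (e ▸ hj)) h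

open Classical in
/-- **Combinatorics of the slabs** -/
theorem comb (n : ℕ) (hn : 3 ≤ n) (d ε : ℝ) (hd : 0 < d) (hε : 0 < ε) :
    ∃ (M C : ℕ) (η : ℝ), 0 < η ∧ ∀ (X : Type) [MeasurableSpace X] (μ : Measure X)
      [IsProbabilityMeasure μ] (T : (Fin n → ℝ) → X → X) (E : ℕ → Fin n → Fin n → Set X)
      (Λ : Set ℝ) (N : ℕ), 1 ≤ N → (∀ u, MeasurePreserving (T u) μ μ) →
      (∀ u v x, T (u + v) x = T u (T v x)) → (∀ m j k, MeasurableSet (E m j k)) →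
      (∀ m < M, ∀ j k, j ≠ k → E m j k ⊆ E (m + 1) j k) → 0 ∈ Λ → (1 ∈ Λ ∨ -1 ∈ Λ) →
      (∀ m < M, ∀ j k, j ≠ k → ∀ u, ‖u‖ ≤ C * N → u j - u k ∈ Λ →
        μ.real (T u ⁻¹' E m j k \ E (m + 1) j k) ≤ η) →
      (∀ m < M, ∀ i j k, i ≠ j → i ≠ k → j ≠ k →
        μ.real ((E m j i ∩ E m i k) \ E (m + 1) j k) ≤ η) →
      (∀ S : Finset (Fin n), S.Nonempty → S ≠ univ → ∃ u : Fin n → Fin n → ℤ → Fin n → ℝ,
        (∀ j ∈ S, ∀ k ∉ S, ∀ s ∈ Icc (-(N : ℤ)) N, ‖u j k s‖ ≤ N ∧ u j k s j - u j k s k - s ∈ Λ) ∧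
        μ.real {x | ((∑ j ∈ S, ∑ k ∈ Sᶜ,
          #{s ∈ Icc (-(N : ℤ)) N | T (u j k s) x ∈ E 0 j k} : ℕ) : ℝ) < d * N} ≤ η) →
      ∀ j k, j ≠ k → μ.real (E M j k)ᶜ ≤ ε := by
  obtain ⟨M, C, η, η0, H⟩ := combB n d ε hd hε
  refine ⟨M, C, η, η0, fun X _ μ _ T E Λ N hN hT hT' hE mono h0 h1 inv heis dens j k jk =>
    H X μ T E Λ N univ (by simpa using hn) hN hT hT' hE (fun m hm j _ k _ => mono m hm j k) h0 h1
      (fun m hm j _ k _ => inv m hm j k) (fun m hm i _ j _ k _ => heis m hm i j k)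
      (fun S _ s2 s3 => ?_) j (mem_univ _) k (mem_univ _) jk⟩
  obtain ⟨u, u1, u2⟩ := dens S s2 s3
  exact ⟨u, fun j hj k hk => u1 j hj k (mem_sdiff.1 hk).2, u2⟩

end Vale.Agent.P007M
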