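import Mathlib

/-!
# P007M: additive combinatorics of the slabs, deterministic part (helper11)
-/

set_option linter.all false

open Finset

namespace Vale.Agent.P007M.Cb

noncomputable section

open Classical in
/-- indicator of a proposition -/
def ind (P : Prop) : ℝ := if P then 1 else 0

theorem ind_pos {P : Prop} (h : P) : ind P = 1 := if_pos h
theorem ind_neg {P : Prop} (h : ¬P) : ind P = 0 := if_neg h
theorem ind_nonneg (P : Prop) : 0 ≤ ind P := by unfold ind; split_ifs <;> norm_num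
theorem ind_le_one (P : Prop) : ind P ≤ 1 := by unfold ind; split_ifs <;> norm_num

theorem ind_mono {P Q : Prop} (h : P → Q) : ind P ≤ ind Q := by
  by_cases k : P
  · rw [ind_pos k, ind_pos (h k)]
  · rw [ind_neg k]; exact ind_nonneg _

theorem ind_or {P Q R : Prop} (h : P → Q ∨ R) : ind P ≤ ind Q + ind R := by
  by_cases k : P
  · rcases h k with j | j
    · rw [ind_pos k, ind_pos j]; linarith [ind_nonneg R]
    · rw [ind_pos k, ind_pos j]; linarith [ind_nonneg Q]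
  · rw [ind_neg k]; linarith [ind_nonneg Q, ind_nonneg R]

theorem sum_ind {ι : Type*} (s : Finset ι) (P : ι → Prop) [DecidablePred P] :
    ∑ i ∈ s, ind (P i) = #{i ∈ s | P i} := by
  rw [← sum_boole]
  exact sum_congr rfl fun i _ => by unfold ind; congr

/-- the window -/
def I (R : ℕ) : Finset ℤ := Icc (-(R : ℤ)) R

theorem mem_I {R : ℕ} {y : ℤ} : y ∈ I R ↔ -(R : ℤ) ≤ y ∧ y ≤ R := mem_Icc

theorem card_I (R : ℕ) : (#(I R) : ℝ) = 2 * R + 1 := by
  have : #(I R) = 2 * R + 1 := by rw [I, Int.card_Icc]; omega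
  rw [this]; push_cast; ring

theorem shift {g : ℤ → ℝ} (hg : ∀ y, 0 ≤ g y) {R R' W : ℕ} {s : ℤ} (hs : s ∈ I R')
    (h : R + R' ≤ W) : ∑ y ∈ I R, g (y + s) ≤ ∑ y ∈ I W, g y := by
  rw [← sum_image (g := fun y => y + s) fun a _ b _ e => add_right_cancel e]
  refine sum_le_sum_of_subset_of_nonneg (fun y hy => ?_) fun y _ _ => hg y
  obtain ⟨z, hz, rfl⟩ := mem_image.1 hy
  rw [mem_I] at *
  omega

theorem I_mono {R W : ℕ} (h : R ≤ W) : I R ⊆ I W := fun y hy => by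
  rw [mem_I] at *
  omega

theorem sum_mono {g : ℤ → ℝ} (hg : ∀ y, 0 ≤ g y) {R W : ℕ} (h : R ≤ W) :
    ∑ y ∈ I R, g y ≤ ∑ y ∈ I W, g y := sum_le_sum_of_subset_of_nonneg (I_mono h) fun y _ _ => hg y

/-- a point of a dense set with a small cost -/
theorem pick {q : ℤ → Prop} {c : ℤ → ℝ} {R W : ℕ} {δ t : ℝ} (hδ : 0 < δ) (hc : ∀ y, 0 ≤ c y)
    (h : R ≤ W) (hq : δ ≤ ∑ y ∈ I R, ind (q y)) (ht : ∑ y ∈ I W, c y ≤ t * δ) :
    ∃ y ∈ I R, q y ∧ c y ≤ t := by
  classical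
  rw [sum_ind] at hq
  have t0 : 0 ≤ t := nonneg_of_mul_nonneg_left ((sum_nonneg fun y _ => hc y).trans ht) hδ
  obtain ⟨y, hy, k⟩ := exists_le_of_sum_le (s := {y ∈ I R | q y}) (f := c) (g := fun _ => t)
    (card_pos.1 (by exact_mod_cast hδ.trans_le hq)) (by
      rw [sum_const, nsmul_eq_mul]
      exact ((sum_le_sum_of_subset_of_nonneg ((filter_subset _ _).trans (I_mono h))
        fun y _ _ => hc y).trans ht).trans (by nlinarith))
  exact ⟨y, (mem_filter.1 hy).1, (mem_filter.1 hy).2, k⟩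

/-- discrete intermediate values -/
theorem ivt {f : ℤ → ℝ} {θ c : ℝ} {s t : ℤ} (hst : s ≤ t) (h0 : f s ≤ c) (ht : c < f t)
    (h1 : ∀ y, s ≤ y → y < t → f (y + 1) ≤ f y + θ) : ∃ y, s ≤ y ∧ y ≤ t ∧ c < f y ∧ f y ≤ c + θ := by
  obtain ⟨y, ⟨a, b⟩, hy⟩ := Int.exists_least_of_bdd (P := fun y => s ≤ y ∧ c < f y)
    ⟨s, fun z h => h.1⟩ ⟨t, hst, ht⟩
  have e := hy t ⟨hst, ht⟩
  have k : s < y := lt_of_le_of_ne a fun k => by subst k; linarith
  have := h1 (y - 1) (by omega) (by omega)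
  rw [sub_add_cancel] at this
  refine ⟨y, a, e, b, this.trans ?_⟩
  by_contra j
  have := hy (y - 1) ⟨by omega, by linarith⟩
  omega

/-- packing: the diameter of the Cayley graph -/
theorem pack {f : ℤ → ℝ} {A : Finset ℤ} {R K : ℕ} {θ : ℝ} {s t : ℤ} (hst : s ≤ t) (hθ : 0 ≤ θ)
    (hA : A ⊆ I R) (h0 : f s ≤ 0) (h1 : ∀ y, s ≤ y → y < t → f (y + 1) ≤ f y + θ)
    (h2 : ∀ y z, s ≤ y → y ≤ t → s ≤ z → z ≤ t → ∀ a ∈ A, ∀ b ∈ A, y + a = z + b → f y ≤ f z + θ)
    (hK : ((t - s : ℤ) : ℝ) + 2 * R + 1 < (K + 1) * #A) : f t ≤ 2 * K * θ := by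
  by_contra h
  have : ∀ i : ℕ, ∃ y, i ≤ K → s ≤ y ∧ y ≤ t ∧ 2 * i * θ < f y ∧ f y ≤ 2 * i * θ + θ := fun i => by
    by_cases hi : i ≤ K
    · have : (i : ℝ) ≤ K := by exact_mod_cast hi
      exact (ivt hst (h0.trans (by positivity)) (by nlinarith) h1).imp fun y k _ => k
    · exact ⟨0, fun k => absurd k hi⟩
  choose y hy using this
  have key : ∀ i j, i ≤ K → j ≤ K → ∀ a ∈ A, ∀ b ∈ A, y i + a = y j + b → i ≤ j := by
    intro i j hi hj a ha b hb e
    obtain ⟨a1, a2, a3, -⟩ := hy i hi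
    obtain ⟨b1, b2, -, b4⟩ := hy j hj
    have := h2 _ _ a1 a2 b1 b2 a ha b hb e
    by_contra k
    have : (j : ℝ) + 1 ≤ i := by exact_mod_cast not_le.1 k
    nlinarith
  have := card_le_card_of_injOn (s := range (K + 1) ×ˢ A) (t := Icc (s - R) (t + R))
    (fun p => y p.1 + p.2) (fun p hp => by
      obtain ⟨a, b⟩ := mem_product.1 (mem_coe.1 hp)
      obtain ⟨a1, a2, -⟩ := hy p.1 (Nat.lt_succ_iff.1 (mem_range.1 a))
      have := mem_I.1 (hA b)
      exact mem_coe.2 (mem_Icc.2 (by beta_reduce; omega))) fun p hp q hq e => by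
      obtain ⟨a, b⟩ := mem_product.1 (mem_coe.1 hp)
      obtain ⟨a', b'⟩ := mem_product.1 (mem_coe.1 hq)
      rw [mem_range, Nat.lt_succ_iff] at a a'
      have k := (key _ _ a a' _ b _ b' e).antisymm (key _ _ a' a _ b' _ b e.symm)
      exact Prod.ext k (by beta_reduce at e; rw [k] at e; exact add_left_cancel e)
  rw [card_product, card_range, Int.card_Icc] at this
  have k : ((K + 1 : ℕ) * #A : ℤ) ≤ t - s + 2 * R + 1 := by
    have := Int.ofNat_le.2 this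
    rw [Int.toNat_of_nonneg (by omega)] at this
    push_cast at this ⊢
    linarith
  have k' : (((K + 1 : ℕ) * #A : ℤ) : ℝ) ≤ ((t - s + 2 * R + 1 : ℤ) : ℝ) := Int.cast_le.2 k
  push_cast at k' hK
  linarith

variable {n N W : ℕ} {p : Fin n → Fin n → ℤ → Prop} {d θ : ℝ} {B : Finset (Fin n)}

/-- strong connectivity makes every slab set dense -/
theorem dense (hd : 0 < d) (hθ : 0 ≤ θ) (hN : 1 ≤ N) (hW : n * N ≤ W) (hθ' : n * θ ≤ d ^ 2 / 2)
    (g2 : ∀ i ∈ B, ∀ j ∈ B, ∀ k ∈ B, i ≠ j → i ≠ k → j ≠ k → ∑ b ∈ I W, ∑ a ∈ I W,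
      ind (p j i a ∧ p i k b ∧ ¬p j k (a + b)) ≤ θ * N ^ 2)
    (g4 : ∀ S ⊆ B, S.Nonempty → S ≠ B → ∃ j ∈ S, ∃ k ∈ B \ S, d * N ≤ ∑ s ∈ I N, ind (p j k s))
    {j k : Fin n} (hj : j ∈ B) (hk : k ∈ B) (h : j ≠ k) :
    d / 2 * N ≤ ∑ s ∈ I (n * N), ind (p j k s) := by
  have N0 : (0 : ℝ) < N := by exact_mod_cast hN
  have e : 0 ≤ θ / d := div_nonneg hθ hd.le
  have Bn : #B ≤ n := (card_le_univ B).trans_eq (Fintype.card_fin n)
  have : ∀ r < #B, ∃ S ⊆ B, j ∈ S ∧ #S = r + 1 ∧ ∀ k ∈ S, j ≠ k →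
      (d - r * (θ / d)) * N ≤ ∑ s ∈ I (r * N), ind (p j k s) := by
    intro r
    induction r with
    | zero => exact fun _ => ⟨{j}, singleton_subset_iff.2 hj, mem_singleton_self _, rfl,
        fun k hk h => absurd (mem_singleton.1 hk).symm h⟩
    | succ r ih =>
      intro hr
      obtain ⟨S, h0, h1, h2, h3⟩ := ih (by omega)
      obtain ⟨i, hi, l, hl, h4⟩ := g4 S h0 ⟨j, h1⟩ fun k => by
        rw [k] at h2
        omega
      obtain ⟨lB, hl⟩ := mem_sdiff.1 hl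
      have r1 : (r + 1) * N ≤ W := (Nat.mul_le_mul_right _ (by omega)).trans hW
      have r2 : (r + 1) * N = r * N + N := by ring
      refine ⟨insert l S, insert_subset lB h0, mem_insert_of_mem h1,
        by rw [card_insert_of_notMem hl, h2], fun k hk jk => ?_⟩
      push_cast
      rcases mem_insert.1 hk with rfl | hk
      · by_cases hij : i = j
        · subst hij
          refine le_trans ?_ (h4.trans (sum_mono (fun _ => ind_nonneg _) (by omega)))
          have : 0 ≤ ((r : ℝ) + 1) * (θ / d) := by positivity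
          nlinarith
        obtain ⟨b, b1, b2, b3⟩ := pick (t := θ / d * N) (mul_pos hd N0)
          (fun b => sum_nonneg fun a _ => ind_nonneg _) (by omega : N ≤ W) h4
          ((g2 i (h0 hi) j hj k lB hij (fun e => hl (e ▸ hi)) jk).trans_eq (by field_simp))
        have a1 := h3 i hi (Ne.symm hij)
        have a2 := shift (g := fun s => ind (p j k s)) (fun _ => ind_nonneg _) b1 r2.ge
        have a3 := sum_mono (g := fun a => ind (p j i a ∧ p i k b ∧ ¬p j k (a + b)))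
          (fun _ => ind_nonneg _) (by omega : r * N ≤ W)
        have a4 := sum_le_sum (s := I (r * N)) fun a _ => ind_or (P := p j i a)
          (Q := p j k (a + b)) (R := p j i a ∧ p i k b ∧ ¬p j k (a + b)) (by tauto)
        rw [sum_add_distrib] at a4
        linarith
      · refine le_trans ?_ ((h3 k hk jk).trans (sum_mono (fun _ => ind_nonneg _) (by omega)))
        nlinarith
  have B0 := card_pos.2 ⟨j, hj⟩
  obtain ⟨S, h0, -, h2, h3⟩ := this (#B - 1) (by omega)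
  have := h3 k (by rwa [eq_of_subset_of_card_le h0 (by omega)]) h
  refine le_trans ?_ (this.trans (sum_mono (fun _ => ind_nonneg _)
    (Nat.mul_le_mul_right _ (by omega))))
  refine mul_le_mul_of_nonneg_right ?_ N0.le
  have a : ((#B - 1 : ℕ) : ℝ) ≤ n := by exact_mod_cast (by omega : #B - 1 ≤ n)
  have b : n * (θ / d) ≤ d / 2 := by
    rw [← mul_div_assoc, div_le_iff₀ hd]
    linarith
  nlinarith

/-- a dense set that is almost invariant under a dense set of shifts is almost everything -/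
theorem full {q : ℤ → Prop} {A : Finset ℤ} {R K : ℕ} {b : ℤ} {δ t c : ℝ} (ht : 0 ≤ t)
    (hA : A ⊆ I R) (h1 : ∑ y ∈ I (3 * R), ind (¬(q y ↔ q (y + 1))) ≤ t)
    (h2 : ∀ a ∈ A, 2 * ∑ y ∈ I (3 * R), ind (¬(q y ↔ q (y + a + b))) ≤ t)
    (hK : 4 * (R : ℝ) + 1 < (K + 1) * #A) (hδ : 0 < δ) (hq : δ ≤ ∑ y ∈ I R, ind (q y))
    (hc : (4 * R + 1) * (2 * K * t) ≤ c * δ) : ∑ y ∈ I R, ind (¬q y) ≤ c := by
  let ρ : ℤ → ℤ → ℝ := fun s t => ∑ y ∈ I R, ind (¬(q (y + s) ↔ q (y + t)))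
  have tri : ∀ s t u, ρ s u ≤ ρ s t + ρ t u := fun s t u => by
    rw [← sum_add_distrib]
    exact sum_le_sum fun y _ => ind_or (by tauto)
  have sy : ∀ s t, ρ s t = ρ t s := fun s t => sum_congr rfl fun y _ => by rw [iff_comm]
  have sh : ∀ s ∈ I (2 * R), ∀ u, ρ s (s + u) ≤ ∑ y ∈ I (3 * R), ind (¬(q y ↔ q (y + u))) :=
    fun s hs u => by
      simpa only [ρ, add_assoc] using shift (g := fun y => ind (¬(q y ↔ q (y + u))))
        (fun _ => ind_nonneg _) hs (by omega : R + 2 * R ≤ 3 * R)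
  have key : ∀ s u, s ∈ I (2 * R) → u ∈ I (2 * R) → s ≤ u → u - s ≤ 2 * R → ρ s u ≤ 2 * K * t := by
    intro s u hs hu h h'
    have m : ∀ y, s ≤ y → y ≤ u → y ∈ I (2 * R) := fun y a b => by
      rw [mem_I] at *
      omega
    refine pack (f := ρ s) h ht hA (sum_nonpos fun y _ => (ind_neg (by tauto)).le)
      (fun y a b => by linarith [tri s y (y + 1), sh y (m y a b.le) 1])
      (fun y z y1 y2 z1 z2 a ha a' ha' e => ?_) (lt_of_le_of_lt ?_ hK)
    · have e1 := sh y (m y y1 y2) (a + b)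
      have e2 := sh z (m z z1 z2) (a' + b)
      simp only [← add_assoc] at e1 e2
      rw [e, sy] at e1
      linarith [tri s z y, tri z (z + a' + b) y, h2 a ha, h2 a' ha']
    · have : ((u - s : ℤ) : ℝ) ≤ ((2 * R : ℤ) : ℝ) := Int.cast_le.2 h'
      push_cast at this ⊢
      linarith
  have z : (0 : ℤ) ∈ I (2 * R) := mem_I.2 (by omega)
  have k2 : ∀ u ∈ I (2 * R), ρ 0 u ≤ 2 * K * t := fun u hu => by
    have := mem_I.1 hu
    rcases le_total 0 u with h | h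
    · exact key 0 u z hu h (by omega)
    · rw [sy]
      exact key u 0 hu z h (by omega)
  have k3 := sum_le_card_nsmul _ _ _ k2
  rw [sum_comm, nsmul_eq_mul, card_I] at k3
  refine le_of_mul_le_mul_right ?_ hδ
  rw [sum_mul]
  refine (sum_le_sum fun y hy => ?_).trans (k3.trans (by push_cast; linarith))
  by_cases h : q y
  · rw [ind_neg (not_not.2 h), zero_mul]
    exact sum_nonneg fun _ _ => ind_nonneg _
  have := shift (g := fun u => ind (¬(q (y + 0) ↔ q (y + u)))) (fun _ => ind_nonneg _)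
    (s := -y) (R' := R) (by rw [mem_I] at *; omega) (by omega : R + R ≤ 2 * R)
  rw [ind_pos h, one_mul]
  refine hq.trans ((sum_le_sum fun u _ => ind_mono fun k => ?_).trans this)
  rw [add_zero, show y + (u + -y) = u by ring]
  tauto

theorem small (a : ℝ) {b : ℝ} (h : 0 < b) : ∀ᶠ θ in nhdsWithin (0 : ℝ) (Set.Ioi 0), a * θ ≤ b :=
  nhdsWithin_le_nhds (((by fun_prop : ContinuousAt (fun θ : ℝ => a * θ) 0).eventually_lt_const
    (by simpa using h)).mono fun _ k => k.le)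

/-- the deterministic statement -/
theorem det (n : ℕ) {d ε : ℝ} (hd : 0 < d) (hε : 0 < ε) : ∃ θ > (0 : ℝ), ∀ N : ℕ,
    1 ≤ N → ∀ B : Finset (Fin n), 3 ≤ #B → ∀ p : Fin n → Fin n → ℤ → Prop,
    (∀ j ∈ B, ∀ k ∈ B, j ≠ k →
      ∑ y ∈ I (3 * (n * N)), ind (¬(p j k y ↔ p j k (y + 1))) ≤ θ * N) →
    (∀ i ∈ B, ∀ j ∈ B, ∀ k ∈ B, i ≠ j → i ≠ k → j ≠ k → ∑ b ∈ I (3 * (n * N)),
      ∑ a ∈ I (3 * (n * N)), ind (p j i a ∧ p i k b ∧ ¬p j k (a + b)) ≤ θ * N ^ 2) →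
    (∀ i ∈ B, ∀ j ∈ B, ∀ k ∈ B, i ≠ j → i ≠ k → j ≠ k → ∑ b ∈ I (3 * (n * N)),
      ∑ a ∈ I (3 * (n * N)), ∑ y ∈ I (3 * (n * N)),
        ind (p i j a ∧ p j i b ∧ ¬(p j k y ↔ p j k (y + a + b))) ≤ θ * N ^ 3) →
    (∀ S ⊆ B, S.Nonempty → S ≠ B → ∃ j ∈ S, ∃ k ∈ B \ S, d * N ≤ ∑ s ∈ I N, ind (p j k s)) →
    ∀ j ∈ B, ∀ k ∈ B, j ≠ k → ∑ y ∈ I (n * N), ind (¬p j k y) ≤ ε * N := by
  classical
  obtain ⟨K, hK⟩ := exists_nat_ge (20 * n / d)
  obtain ⟨θ, ⟨θ1, θ2⟩, θ0⟩ := (((small n (by positivity : 0 < d ^ 2 / 2)).and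
    (small (5 * n * (2 * K * (1 + 16 / d ^ 2))) (by positivity : 0 < ε * (d / 2)))).and
    self_mem_nhdsWithin).exists
  replace θ0 : 0 < θ := θ0
  refine ⟨θ, θ0, fun N hN B hB p g1 g2 g3 g4 j hj k hk h => ?_⟩
  have n0 : (3 : ℝ) ≤ n := by
    exact_mod_cast hB.trans ((card_le_univ B).trans_eq (Fintype.card_fin n))
  have N0 : (1 : ℝ) ≤ N := by exact_mod_cast hN
  have de := fun j k => dense (j := j) (k := k) hd θ0.le hN (by omega) θ1 g2 g4
  obtain ⟨i, iB, hi⟩ := exists_mem_notMem_of_card_lt_card (s := {j, k}) (t := B)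
    (by rw [card_pair h]; omega)
  rw [mem_insert, mem_singleton, not_or] at hi
  obtain ⟨b, -, b2, b3⟩ := pick (t := 2 * θ / d * N ^ 2) (by positivity)
    (fun b => sum_nonneg fun a _ => sum_nonneg fun y _ => ind_nonneg _) (by omega)
    (de j i hj iB (Ne.symm hi.1)) ((g3 i iB j hj k hk hi.1 hi.2 h).trans_eq (by field_simp))
  let c : ℤ → ℝ := fun a => ∑ y ∈ I (3 * (n * N)), ind (¬(p j k y ↔ p j k (y + a + b)))
  have τ0 : 0 < 8 * θ / d ^ 2 * N := by positivity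
  have a1 : ∑ a ∈ I (n * N), ind (p i j a ∧ ¬c a ≤ 8 * θ / d ^ 2 * N) ≤ d / 4 * N := by
    refine le_of_mul_le_mul_right ?_ τ0
    rw [sum_mul]
    refine (sum_le_sum fun a _ => ?_).trans ((sum_mono (fun a => sum_nonneg fun y _ => ind_nonneg _)
      (by omega)).trans (b3.trans_eq (by field_simp; ring)))
    by_cases k : p i j a ∧ ¬c a ≤ 8 * θ / d ^ 2 * N
    · rw [ind_pos k, one_mul]
      exact (not_le.1 k.2).le.trans (sum_le_sum fun y _ => ind_mono fun e => ⟨k.1, b2, e⟩)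
    · rw [ind_neg k, zero_mul]
      exact sum_nonneg fun y _ => ind_nonneg _
  have a2 := sum_le_sum (s := I (n * N)) fun a _ => ind_or (P := p i j a)
    (Q := p i j a ∧ c a ≤ 8 * θ / d ^ 2 * N) (R := p i j a ∧ ¬c a ≤ 8 * θ / d ^ 2 * N) (by tauto)
  rw [sum_add_distrib, sum_ind _ fun a => p i j a ∧ c a ≤ 8 * θ / d ^ 2 * N] at a2
  have a3 := de i j iB hj hi.1
  have e : 0 ≤ θ * (16 / d ^ 2) * N := by positivity
  refine full (b := b) (K := K) (t := θ * (1 + 16 / d ^ 2) * N) (by positivity) (filter_subset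
    (fun a => p i j a ∧ c a ≤ 8 * θ / d ^ 2 * N) _) ((g1 j hj k hk h).trans (by linarith))
    (fun a ha => ?_) ?_ (by positivity) (de j k hj hk h) ?_
  · have := (mem_filter.1 ha).2.2
    have e' : 2 * (8 * θ / d ^ 2 * N) = θ * (16 / d ^ 2) * N := by ring
    have : 0 ≤ θ * N := by positivity
    change 2 * c a ≤ _
    linarith
  · rw [div_le_iff₀ hd] at hK
    refine lt_of_lt_of_le ?_ (mul_le_mul_of_nonneg_left (b := d / 4 * N) (by linarith)
      (by positivity))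
    push_cast
    nlinarith [mul_le_mul_of_nonneg_right hK (by positivity : (0 : ℝ) ≤ N), mul_pos hd
      (by positivity : (0 : ℝ) < N)]
  · have := mul_le_mul_of_nonneg_right θ2 (by positivity : (0 : ℝ) ≤ N * N)
    refine le_trans ?_ (this.trans_eq (by ring))
    have e : (4 * ((n * N : ℕ) : ℝ) + 1) ≤ 5 * n * N := by push_cast; nlinarith
    exact (mul_le_mul_of_nonneg_right e (by positivity)).trans_eq (by ring)

end

end Vale.Agent.P007M.Cb
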