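import Vale.Agent.P007M.Comb

/-!
# P007M: combinatorics of the slabs without monotonicity of the levels (helper11)
-/

set_option linter.all false

open MeasureTheory Finset

namespace Vale.Agent.P007M

open Cb Classical in
/-- **Combinatorics of the slabs**, for a block `B` of indices, no monotonicity hypothesis -/
theorem combC (n : ℕ) (d ε : ℝ) (hd : 0 < d) (hε : 0 < ε) :
    ∃ (M C : ℕ) (η : ℝ), 0 < η ∧ ∀ (X : Type) [MeasurableSpace X] (μ : Measure X)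
      [IsProbabilityMeasure μ] (T : (Fin n → ℝ) → X → X) (E : ℕ → Fin n → Fin n → Set X)
      (Λ : Set ℝ) (N : ℕ) (B : Finset (Fin n)), 3 ≤ #B → 1 ≤ N →
      (∀ u, MeasurePreserving (T u) μ μ) → (∀ u v x, T (u + v) x = T u (T v x)) →
      (∀ m j k, MeasurableSet (E m j k)) → 0 ∈ Λ → (1 ∈ Λ ∨ -1 ∈ Λ) →
      (∀ m < M, ∀ j ∈ B, ∀ k ∈ B, j ≠ k → ∀ u, ‖u‖ ≤ C * N → u j - u k ∈ Λ →
        μ.real (T u ⁻¹' E m j k \ E (m + 1) j k) ≤ η) →
      (∀ m < M, ∀ i ∈ B, ∀ j ∈ B, ∀ k ∈ B, i ≠ j → i ≠ k → j ≠ k →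
        μ.real ((E m j i ∩ E m i k) \ E (m + 1) j k) ≤ η) →
      (∀ S ⊆ B, S.Nonempty → S ≠ B → ∃ u : Fin n → Fin n → ℤ → Fin n → ℝ,
        (∀ j ∈ S, ∀ k ∈ B \ S, ∀ s ∈ Icc (-(N : ℤ)) N,
          ‖u j k s‖ ≤ N ∧ u j k s j - u j k s k - s ∈ Λ) ∧
        μ.real {x | ((∑ j ∈ S, ∑ k ∈ B \ S,
          #{s ∈ Icc (-(N : ℤ)) N | T (u j k s) x ∈ E 0 j k} : ℕ) : ℝ) < d * N} ≤ η) →
      ∀ j ∈ B, ∀ k ∈ B, j ≠ k → μ.real (E M j k)ᶜ ≤ ε := by
  obtain ⟨M, C, η, η0, H⟩ := combB n d (ε / 2) hd (half_pos hε)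
  obtain ⟨κ, ⟨κ1, κ2⟩, κ0⟩ := (((small (2 * M + 1) η0).and (small M (half_pos hε))).and
    self_mem_nhdsWithin).exists
  replace κ0 : 0 < κ := κ0
  refine ⟨M, C, κ, κ0, fun X _ μ _ T E Λ N B hB hN hT hT' hE h0 h1 inv heis dens j hj k hk jk => ?_⟩
  let U : ℕ → Fin n → Fin n → Set X := fun m => Nat.rec (E 0) (fun m V => V ⊔ E (m + 1)) m
  have U1 : ∀ m j k, U (m + 1) j k = U m j k ∪ E (m + 1) j k := fun _ _ _ => rfl
  have mU : ∀ m j k, MeasurableSet (U m j k) := fun m j k => by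
    induction m with
    | zero => exact hE 0 j k
    | succ m ih => exact ih.union (hE _ j k)
  have pre : ∀ u {A : Set X}, MeasurableSet A → μ.real (T u ⁻¹' A) = μ.real A := fun u A hA =>
    (hT u).measureReal_preimage hA.nullMeasurableSet
  have df : ∀ j ∈ B, ∀ k ∈ B, j ≠ k → ∀ m ≤ M, μ.real (U m j k \ E m j k) ≤ m * κ := by
    intro j hj k hk jk m hm
    induction m with
    | zero => simp [U]
    | succ m ih =>
      have a := inv m hm j hj k hk jk 0 (by rw [norm_zero]; positivity) (by simpa using h0)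
      have b := pre 0 ((hE m j k).diff ((hT 0).measurable (hE m j k)))
      rw [show T 0 ⁻¹' (E m j k \ T 0 ⁻¹' E m j k) = ∅ from Set.eq_empty_of_forall_notMem
        fun x hx => hx.2 (by simpa [← hT'] using hx.1), measureReal_empty] at b
      refine le_trans (le4 fun x => ?_) ((add_le_add (add_le_add (add_le_add (ih (by omega)) a)
        b.ge) b.ge).trans_eq (by push_cast; ring))
      simp only [U1, Set.mem_diff, Set.mem_union]
      tauto
  have mk : ∀ m < M, (m : ℝ) * κ ≤ M * κ := fun m hm =>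
    mul_le_mul_of_nonneg_right (by exact_mod_cast hm.le) κ0.le
  have M0 : 0 ≤ M * κ := by positivity
  have := H X μ T U Λ N B hB hN hT hT' mU (fun m _ j _ k _ _ => Set.subset_union_left) h0 h1
    (fun m hm j hj k hk jk u a b => ?_) (fun m hm i hi j hj k hk h1 h2 h3 => ?_)
    (fun S s1 s2 s3 => (dens S s1 s2 s3).imp fun u h => ⟨h.1, h.2.trans (by linarith)⟩) j hj k hk jk
  · refine le_trans (le2 fun x => ?_) ((add_le_add this (df j hj k hk jk M le_rfl)).trans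
      (by linarith))
    exact fun h => (_root_.em (x ∈ U M j k)).symm.imp id fun a => ⟨a, h⟩
  · refine le_trans (le2 fun x => ?_) ((add_le_add ((pre u ((mU m j k).diff (hE m j k))).trans_le
      (df j hj k hk jk m hm.le)) (inv m hm j hj k hk jk u a b)).trans (by linarith [mk m hm]))
    simp only [U1, Set.mem_diff, Set.mem_union, Set.mem_preimage]
    tauto
  · refine le_trans (le4 (G := ∅) fun x => ?_) ((add_le_add (add_le_add (add_le_add
      (df j hj i hi h1.symm m hm.le) (df i hi k hk h2 m hm.le)) (heis m hm i hi j hj k hk h1 h2 h3))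
      measureReal_empty.le).trans (by linarith [mk m hm]))
    simp only [U1, Set.mem_diff, Set.mem_union, Set.mem_inter_iff]
    tauto

open Classical in
/-- **Combinatorics of the slabs**, no monotonicity hypothesis -/
theorem comb' (n : ℕ) (hn : 3 ≤ n) (d ε : ℝ) (hd : 0 < d) (hε : 0 < ε) :
    ∃ (M C : ℕ) (η : ℝ), 0 < η ∧ ∀ (X : Type) [MeasurableSpace X] (μ : Measure X)
      [IsProbabilityMeasure μ] (T : (Fin n → ℝ) → X → X) (E : ℕ → Fin n → Fin n → Set X)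
      (Λ : Set ℝ) (N : ℕ), 1 ≤ N → (∀ u, MeasurePreserving (T u) μ μ) →
      (∀ u v x, T (u + v) x = T u (T v x)) → (∀ m j k, MeasurableSet (E m j k)) →
      0 ∈ Λ → (1 ∈ Λ ∨ -1 ∈ Λ) →
      (∀ m < M, ∀ j k, j ≠ k → ∀ u, ‖u‖ ≤ C * N → u j - u k ∈ Λ →
        μ.real (T u ⁻¹' E m j k \ E (m + 1) j k) ≤ η) →
      (∀ m < M, ∀ i j k, i ≠ j → i ≠ k → j ≠ k →
        μ.real ((E m j i ∩ E m i k) \ E (m + 1) j k) ≤ η) →
      (∀ S : Finset (Fin n), S.Nonempty → S ≠ univ → ∃ u : Fin n → Fin n → ℤ → Fin n → ℝ,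
        (∀ j ∈ S, ∀ k ∉ S, ∀ s ∈ Icc (-(N : ℤ)) N, ‖u j k s‖ ≤ N ∧ u j k s j - u j k s k - s ∈ Λ) ∧
        μ.real {x | ((∑ j ∈ S, ∑ k ∈ Sᶜ,
          #{s ∈ Icc (-(N : ℤ)) N | T (u j k s) x ∈ E 0 j k} : ℕ) : ℝ) < d * N} ≤ η) →
      ∀ j k, j ≠ k → μ.real (E M j k)ᶜ ≤ ε := by
  obtain ⟨M, C, η, η0, H⟩ := combC n d ε hd hε
  refine ⟨M, C, η, η0, fun X _ μ _ T E Λ N hN hT hT' hE h0 h1 inv heis dens j k jk =>
    H X μ T E Λ N univ (by simpa using hn) hN hT hT' hE h0 h1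
      (fun m hm j _ k _ => inv m hm j k) (fun m hm i _ j _ k _ => heis m hm i j k)
      (fun S _ s2 s3 => ?_) j (mem_univ _) k (mem_univ _) jk⟩
  obtain ⟨u, u1, u2⟩ := dens S s2 s3
  exact ⟨u, fun j hj k hk => u1 j hj k (mem_sdiff.1 hk).2, u2⟩

end Vale.Agent.P007M
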