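import Mathlib.MeasureTheory.Integral.Bochner.Set
import Mathlib.MeasureTheory.Measure.Typeclasses.Probability
import Mathlib.Analysis.SpecialFunctions.Exp

/-!
# P007M: the pigeonhole principle over scales, invariance and monotonicity of the information
-/

set_option linter.all false

open MeasureTheory Finset

namespace Vale.Agent.P007M.Reg

noncomputable section

/-- arrays of thicknesses -/
abbrev Th (n : ℕ) := Fin n → Fin n → ℝ

variable {n : ℕ}

/-- valid arrays with diagonal entries `d` -/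
def Val (d : ℝ) (t : Th n) : Prop := (∀ j, t j j = d) ∧ ∀ j l k, t j k ≤ t j l + t l k

/-- the shift by the diagonal element with exponents `u` -/
def dl (u : Fin n → ℝ) : Th n := fun j k => u j - u k

/-- the entry `(j, k)` is replaced by `b` -/
def up (t : Th n) (j k : Fin n) (b : ℝ) : Th n := fun p q => if p = j ∧ q = k then b else t p q

/-- the entry `(j, k)` is `a`, the other entries off the diagonal are `r` -/
def bs (d : ℝ) (j k : Fin n) (a r : ℝ) : Th n := up (fun p q => if p = q then d else r) j k a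

/-- the entry `(j, k)` is `a`, the other entries off the diagonal are between `r` and `R` -/
structure In (d r R : ℝ) (j k : Fin n) (a : ℝ) (t : Th n) : Prop where
  d0 : 0 ≤ d
  dr : d ≤ r
  val : Val d t
  lev : t j k = a
  bd : ∀ p q, p ≠ q → ¬(p = j ∧ q = k) → r ≤ t p q ∧ t p q ≤ R

variable {t s s' t' : Th n} {j k p q : Fin n} {a b d r R Λ : ℝ} {u : Fin n → ℝ}

theorem Val.sup (h : Val d s) (h' : Val d s') : Val d (s ⊔ s') :=
  ⟨fun j => by simp [h.1, h'.1], fun j l k => sup_le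
    ((h.2 j l k).trans (add_le_add le_sup_left le_sup_left))
    ((h'.2 j l k).trans (add_le_add le_sup_right le_sup_right))⟩

theorem Val.shift (h : Val d t) (u : Fin n → ℝ) : Val d (t + dl u) :=
  ⟨fun j => by simp [dl, h.1], fun j l k => by
    simp only [Pi.add_apply, dl]
    linarith [h.2 j l k]⟩

@[simp] theorem up_self : up t j k b j k = b := by simp [up]

theorem up_ne (h : ¬(p = j ∧ q = k)) : up t j k b p q = t p q := if_neg h

@[simp] theorem up_up : up (up t j k a) j k b = up t j k b := by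
  funext p q
  by_cases h : p = j ∧ q = k <;> simp [up, h]

theorem up_eq (h : t j k = a) : up t j k a = t := by
  funext p q
  by_cases e : p = j ∧ q = k
  · simp [e.1, e.2, h]
  · exact up_ne e

theorem up_shift : up t j k b + dl u = up (t + dl u) j k (b + (u j - u k)) := by
  funext p q
  by_cases e : p = j ∧ q = k
  · simp [e.1, e.2, dl]
  · simp [up_ne e]

theorem up_mono (h : t ≤ t') (e : a ≤ b) : up t j k a ≤ up t' j k b := fun p q => by
  by_cases e : p = j ∧ q = k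
  · simpa [e.1, e.2]
  · simpa only [up_ne e] using h p q

theorem le_up (e : t j k ≤ b) : t ≤ up t j k b :=
  (up_eq rfl).symm.trans_le (up_mono le_rfl e)

theorem sum_up : ∑ p, ∑ q, (up t j k b p q - t p q) = b - t j k := by
  rw [sum_eq_single_of_mem j (mem_univ _) fun p _ h => sum_eq_zero fun q _ => by simp [up, h],
    sum_eq_single_of_mem k (mem_univ _) fun q _ h => by simp [up, h], up_self]

@[simp] theorem bs_self : bs d j k a r j k = a := up_self

@[simp] theorem up_bs : up (bs d j k a r) j k b = bs d j k b r := up_up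

theorem bs_diag (h : j ≠ k) : bs d j k a r p p = d := by
  rw [bs, up_ne fun e => h (e.1.symm.trans e.2), if_pos rfl]

theorem bs_ne (h : p ≠ q) (e : ¬(p = j ∧ q = k)) : bs d j k a r p q = r := by
  rw [bs, up_ne e, if_neg h]

theorem bs_ge (h : p ≠ q) : bs d j k a r p q = r ∨ (p = j ∧ q = k ∧ bs d j k a r p q = a) := by
  by_cases e : p = j ∧ q = k
  · exact .inr ⟨e.1, e.2, by rw [e.1, e.2, bs_self]⟩
  · exact .inl (bs_ne h e)

theorem val_bs (h : j ≠ k) (d0 : 0 ≤ d) (dr : d ≤ r) (ha : 0 ≤ a) (har : a ≤ 2 * r) :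
    Val d (bs d j k a r) := by
  refine ⟨fun p => bs_diag h, fun p l q => ?_⟩
  by_cases e2 : p = l
  · rw [← e2, bs_diag h]
    linarith
  by_cases e3 : l = q
  · rw [e3, bs_diag h]
    linarith
  have e4 : bs d j k a r p q ≤ r ∨ (p = j ∧ q = k ∧ bs d j k a r p q = a) := by
    by_cases e1 : p = q
    · exact .inl (by rw [e1, bs_diag h]; exact dr)
    · exact (bs_ge e1).imp_left le_of_eq
  rcases bs_ge (d := d) (j := j) (k := k) (a := a) (r := r) e2 with b1 | ⟨b1, b2, b3⟩ <;>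
    rcases bs_ge (d := d) (j := j) (k := k) (a := a) (r := r) e3 with c1 | ⟨c1, c2, c3⟩ <;>
    rcases e4 with f1 | ⟨f1, f2, f3⟩
  all_goals first
    | linarith
    | exact absurd (b1.trans c1.symm) e2
    | exact absurd (f1.trans c1.symm) e2
    | exact absurd (b2.trans f2.symm) e3

theorem in_bs {r' : ℝ} (h : j ≠ k) (d0 : 0 ≤ d) (dr : d ≤ r) (ha : 0 ≤ a) (har : a ≤ 2 * r')
    (h1 : r ≤ r') (h2 : r' ≤ R) : In d r R j k a (bs d j k a r') :=
  ⟨d0, dr, val_bs h d0 (dr.trans h1) ha har, bs_self, fun p q e e' => by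
    rw [bs_ne e e']
    exact ⟨h1, h2⟩⟩

/-- shifted base points are in the regime -/
theorem in_bs_shift {r' W : ℝ} (h : j ≠ k) (d0 : 0 ≤ d) (dr : d ≤ r) (ha : 0 ≤ a)
    (har : a ≤ 2 * r') (hu : ∀ p q, u p - u q ≤ W) (h1 : r + W ≤ r') (h2 : r' + W ≤ R) :
    In d r R j k (a + (u j - u k)) (bs d j k a r' + dl u) :=
  ⟨d0, dr, (val_bs h d0 (by linarith [hu j j]) ha har).shift u, by simp [dl], fun p q e e' => by
    simp only [Pi.add_apply, bs_ne e e', dl]
    exact ⟨by linarith [hu q p], by linarith [hu p q]⟩⟩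

namespace In

variable (h : In d r R j k a t) (hjk : j ≠ k)
include h hjk

theorem lo : bs d j k a r ≤ t := fun p q => by
  by_cases e : p = q
  · rw [e, bs_diag hjk, h.val.1]
  by_cases e' : p = j ∧ q = k
  · rw [e'.1, e'.2, bs_self, h.lev]
  · rw [bs_ne e e']
    exact (h.bd p q e e').1

theorem hi : t ≤ bs d j k a R := fun p q => by
  by_cases e : p = q
  · rw [e, bs_diag hjk, h.val.1]
  by_cases e' : p = j ∧ q = k
  · rw [e'.1, e'.2, bs_self, h.lev]
  · rw [bs_ne e e']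
    exact (h.bd p q e e').2

theorem sup_bs (hab : a ≤ b) : t ⊔ bs d j k b r = up t j k b := by
  funext p q
  by_cases e' : p = j ∧ q = k
  · simp [e'.1, e'.2, h.lev, hab]
  · rw [up_ne e']
    exact sup_eq_left.2 ((up_ne e').trans_le ((up_ne e').symm.trans_le (h.lo hjk p q)))

theorem up (ha : 0 ≤ a) (hab : a ≤ b) (hb : b ≤ 2 * r) : In d r R j k b (up t j k b) :=
  ⟨h.d0, h.dr, h.sup_bs hjk hab ▸ h.val.sup (val_bs hjk h.d0 h.dr (ha.trans hab) hb), up_self,
    fun p q e e' => by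
      rw [up_ne e']
      exact h.bd p q e e'⟩

end In

variable {X : Type*} [MeasurableSpace X] {μ : Measure X} {f : Th n → X → ℝ} {C : ℝ}

/-- the information functions `f t x = - log μ(x B_t)` -/
structure Info (μ : Measure X) (f : Th n → X → ℝ) (d C : ℝ) : Prop where
  mono : ∀ t t', Val d t → Val d t' → t ≤ t' → ∀ᵐ x ∂μ, f t x ≤ f t' x
  int : ∀ t t', Val d t → Val d t' → t ≤ t' → Integrable (fun x => f t' x - f t x) μ
  sub : ∀ t s s', Val d t → Val d s → Val d s' → t ≤ s → t ≤ s' →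
    ∫ x, (f (s ⊔ s') x + f t x - f s x - f s' x)⁺ ∂μ ≤ C

/-- the information that is gained if the entry `(j, k)` of `t` is raised to `b` -/
def J (f : Th n → X → ℝ) (t : Th n) (j k : Fin n) (b : ℝ) (x : X) : ℝ := f (up t j k b) x - f t x

/-- in the regime the information does not depend on the thickness of the other entries -/
def Rg (μ : Measure X) (f : Th n → X → ℝ) (d r R Λ C : ℝ) : Prop :=
  ∀ j k a b t t', j ≠ k → 0 ≤ a → a ≤ b → b ≤ Λ → In d r R j k a t → In d r R j k a t' →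
    Integrable (fun x => J f t j k b x - J f t' j k b x) μ ∧
      ∫ x, |J f t j k b x - J f t' j k b x| ∂μ ≤ C

theorem int_abs {Z : X → ℝ} (h : Integrable Z μ) :
    ∫ x, |Z x| ∂μ = 2 * ∫ x, (Z x)⁺ ∂μ - ∫ x, Z x ∂μ := by
  have k : Integrable (fun x => (Z x)⁺) μ := h.pos_part
  rw [← integral_const_mul, ← integral_sub (k.const_mul 2) h]
  refine integral_congr_ae (ae_of_all _ fun x => ?_)
  rcases le_total 0 (Z x) with e | e
  · simp only [abs_of_nonneg e, posPart_eq_self.2 e]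
    ring
  · simp [abs_of_nonpos e, posPart_eq_zero.2 e]

theorem int_le_pos {Z : X → ℝ} (h : Integrable Z μ) : ∫ x, Z x ∂μ ≤ ∫ x, (Z x)⁺ ∂μ :=
  integral_mono h h.pos_part fun x => le_posPart _

namespace Info

variable (h : Info μ f d C)
include h

theorem nonneg (d0 : 0 ≤ d) : 0 ≤ C := by
  have v : Val d (fun _ _ => d : Th n) := ⟨fun _ => rfl, fun _ _ _ => by simpa⟩
  exact (integral_nonneg fun x => posPart_nonneg _).trans (h.sub _ _ _ v v v le_rfl le_rfl)

theorem intJ (hjk : j ≠ k) (ha : 0 ≤ a) (hab : a ≤ b) (hb : b ≤ 2 * r) (i : In d r R j k a t) :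
    Integrable (J f t j k b) μ :=
  h.int _ _ i.val (i.up hjk ha hab hb).val (le_up (i.lev.trans_le hab))

/-- finer thickness, less information -/
theorem anti (hjk : j ≠ k) (ha : 0 ≤ a) (hab : a ≤ b) (hb : b ≤ 2 * r) (i : In d r R j k a t)
    (i' : In d r R j k a t') (e : t ≤ t') : ∫ x, (J f t' j k b x - J f t j k b x)⁺ ∂μ ≤ C := by
  have k1 := h.sub t t' (up t j k b) i.val i'.val (i.up hjk ha hab hb).val e
    (le_up (i.lev.trans_le hab))
  have k2 : t' ⊔ up t j k b = up t' j k b := by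
    rw [← i.sup_bs hjk hab, ← sup_assoc, sup_eq_left.2 e, i'.sup_bs hjk hab]
  rw [k2] at k1
  refine le_of_eq_of_le (integral_congr_ae (ae_of_all _ fun x => ?_)) k1
  simp only [J]
  congr 1
  ring

theorem anti' (hjk : j ≠ k) (ha : 0 ≤ a) (hab : a ≤ b) (hb : b ≤ 2 * r) (i : In d r R j k a t)
    (i' : In d r R j k a t') (e : t ≤ t') :
    ∫ x, J f t' j k b x ∂μ - ∫ x, J f t j k b x ∂μ ≤ C := by
  have a1 := h.intJ hjk ha hab hb i
  have a2 := h.intJ hjk ha hab hb i'
  rw [← integral_sub a2 a1]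
  exact (int_le_pos (a2.sub a1)).trans (h.anti hjk ha hab hb i i' e)

/-- the chain rule -/
theorem chain {e : ℝ} (hjk : j ≠ k) (ha : 0 ≤ a) (hab : a ≤ b) (hbd : b ≤ e) (hd : e ≤ 2 * r)
    (i : In d r R j k a t) : ∫ x, J f t j k e x ∂μ =
      ∫ x, J f t j k b x ∂μ + ∫ x, J f (up t j k b) j k e x ∂μ := by
  rw [← integral_add (h.intJ hjk ha hab (hbd.trans hd) i)
    (h.intJ hjk (ha.trans hab) hbd hd (i.up hjk ha hab (hbd.trans hd)))]
  simp [J]

/-- a small loss between the ends of the range gives a regime -/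
theorem rg_of {δ : ℝ} (hΛ : Λ ≤ 2 * r) (hrR : r ≤ R) (hδ : ∀ j k, j ≠ k →
    ∫ x, J f (bs d j k 0 r) j k Λ x ∂μ - ∫ x, J f (bs d j k 0 R) j k Λ x ∂μ ≤ δ) :
    Rg μ f d r R Λ (2 * δ + 10 * C) := by
  intro j k a b t t' hjk ha hab hb i i'
  have hb' := hb.trans hΛ
  have ha' := hab.trans hb'
  have lo : ∀ {a}, 0 ≤ a → a ≤ 2 * r → In d r R j k a (bs d j k a r) := fun h1 h2 =>
    in_bs hjk i.d0 i.dr h1 h2 le_rfl hrR
  have hi : ∀ {a}, 0 ≤ a → a ≤ 2 * r → In d r R j k a (bs d j k a R) := fun h1 h2 =>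
    in_bs hjk i.d0 i.dr h1 (by linarith) hrR le_rfl
  have h0 : (0 : ℝ) ≤ 2 * r := ha.trans ha'
  have c1 := h.chain hjk le_rfl ha (hab.trans hb) hΛ (lo le_rfl h0)
  have c2 := h.chain hjk ha hab hb hΛ (lo ha ha')
  have c3 := h.chain hjk le_rfl ha (hab.trans hb) hΛ (hi le_rfl h0)
  have c4 := h.chain hjk ha hab hb hΛ (hi ha ha')
  have c5 := h.anti' hjk le_rfl ha ha' (lo le_rfl h0) (hi le_rfl h0) ((hi le_rfl h0).lo hjk)
  have c6 := h.anti' hjk (ha.trans hab) hb hΛ (lo (ha.trans hab) hb') (hi (ha.trans hab) hb')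
    ((hi (ha.trans hab) hb').lo hjk)
  simp only [up_bs] at c1 c2 c3 c4
  have c7 := hδ j k hjk
  have a0 := h.intJ hjk ha hab hb' (lo ha ha')
  have key : ∀ t, In d r R j k a t → ∫ x, |J f t j k b x - J f (bs d j k a r) j k b x| ∂μ ≤
      δ + 5 * C := fun t i => by
    have a1 := h.intJ hjk ha hab hb' i
    rw [int_abs (a1.sub' a0), integral_sub a1 a0]
    linarith [h.anti hjk ha hab hb' (lo ha ha') i (i.lo hjk),
      h.anti' hjk ha hab hb' i (hi ha ha') (i.hi hjk)]
  have a1 := h.intJ hjk ha hab hb' i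
  have a2 := h.intJ hjk ha hab hb' i'
  refine ⟨a1.sub a2, (integral_mono (a1.sub a2).abs ((a1.sub a0).abs.add (a2.sub a0).abs)
    fun x => ?_).trans ?_⟩
  · exact (abs_sub_le _ _ _).trans_eq (congrArg _ (abs_sub_comm _ _))
  · refine (integral_add (a1.sub' a0).abs (a2.sub' a0).abs).trans_le ?_
    linarith [key t i, key t' i']

/-- **The pigeonhole principle over scales.** -/
theorem pigeon (r : ℕ → ℝ) (hr : Monotone r) {E : ℝ} {M : ℕ} (d0 : 0 ≤ d) (dr : d ≤ r 0)
    (h0 : 0 ≤ Λ) (hΛ : Λ ≤ 2 * r 0)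
    (hE : ∀ j k, j ≠ k → ∫ x, J f (bs d j k 0 (r 0)) j k Λ x ∂μ ≤ E) (hM : n ^ 2 * E < M)
    (hE0 : 0 ≤ E) : ∃ i < M, Rg μ f d (r i) (r (i + 1)) Λ (2 + (2 * n ^ 2 + 10) * C) := by
  have hΛ' : ∀ i, Λ ≤ 2 * r i := fun i => by linarith [hr (Nat.zero_le i)]
  have dr' : ∀ i, d ≤ r i := fun i => dr.trans (hr (Nat.zero_le i))
  set e : ℕ → Fin n × Fin n → ℝ := fun i p =>
    if p.1 = p.2 then 0 else ∫ x, J f (bs d p.1 p.2 0 (r i)) p.1 p.2 Λ x ∂μ with he
  have e0 : ∀ i p, 0 ≤ e i p := fun i p => by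
    simp only [he]
    split_ifs with k
    · rfl
    have v := val_bs k d0 (dr' i) le_rfl (h0.trans (hΛ' i))
    exact integral_nonneg_of_ae ((h.mono _ _ v (by simpa using val_bs k d0 (dr' i) h0 (hΛ' i))
      (le_up (bs_self.trans_le h0))).mono fun x hx => sub_nonneg.2 hx)
  have e1 : ∑ p, e 0 p ≤ n ^ 2 * E := (sum_le_card_nsmul _ _ E fun p _ => by
    simp only [he]
    split_ifs with k
    exacts [hE0, hE _ _ k]).trans_eq (by simp [sq])
  have e2 : ∀ i p, e (i + 1) p - e i p ≤ C := fun i p => by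
    simp only [he]
    split_ifs with k
    · simpa using h.nonneg d0
    have m := hr (Nat.le_succ i)
    have i1 := in_bs k d0 (dr' i) le_rfl (h0.trans (hΛ' (i + 1))) m le_rfl
    exact h.anti' k le_rfl h0 (hΛ' i) (in_bs k d0 (dr' i) le_rfl (h0.trans (hΛ' i)) le_rfl m) i1
      (i1.lo k)
  obtain ⟨i, hi, e3⟩ : ∃ i ∈ range M, ∑ p, e i p - ∑ p, e (i + 1) p < 1 := by
    refine exists_lt_of_sum_lt ?_
    rw [sum_range_sub' (fun i => ∑ p, e i p), sum_const, card_range, nsmul_eq_mul, mul_one]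
    linarith [sum_nonneg fun p (_ : p ∈ univ) => e0 M p]
  refine ⟨i, mem_range.1 hi, ?_⟩
  have := h.rg_of (δ := 1 + n ^ 2 * C) (hΛ' i) (hr (Nat.le_succ i)) fun j k hjk => by
    have k1 := single_le_sum (f := fun p => e i p - e (i + 1) p + C)
      (fun p _ => by linarith [e2 i p]) (mem_univ (j, k))
    simp only [sum_add_distrib, sum_sub_distrib, sum_const, card_univ, Fintype.card_prod,
      Fintype.card_fin, nsmul_eq_mul, ← sq, Nat.cast_pow] at k1
    simp only [he, if_neg hjk] at k1 e3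
    linarith [h.nonneg d0]
  convert this using 1
  ring

end Info

/-! ### equivariance -/

/-- `S` is the action of the diagonal element with exponents `u` -/
structure Act (μ : Measure X) (f : Th n → X → ℝ) (d : ℝ) (u : Fin n → ℝ) (S : X → X) : Prop where
  mp : MeasurePreserving S μ μ
  eqv : ∀ t, Val d t → ∀ᵐ x ∂μ, f (t + dl u) (S x) = f t x

theorem markov {Z : X → ℝ} {η : ℝ} (h : Integrable Z μ) (hC : ∫ x, |Z x| ∂μ ≤ C) (hη : 0 < η)
    (h0 : 0 < C) : μ.real {x | C / η ≤ |Z x|} ≤ η := by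
  have := mul_meas_ge_le_integral_of_nonneg (ae_of_all _ fun x => abs_nonneg (Z x)) h.abs (C / η)
  rw [div_mul_eq_mul_div, div_le_iff₀ hη] at this
  nlinarith

variable {S : X → X}

/-- **EQV**: the information at `x` for any array that is shifted into the regime -/
theorem Rg.eqv (g : Rg μ f d r R Λ C) (A : Act μ f d u S) (hjk : j ≠ k) {l : ℝ} (hl : 0 ≤ l)
    (ha : 0 ≤ a) (hΛ : a + l ≤ Λ) (hr : Λ ≤ 2 * r) (i : In d r R j k a (t + dl u))
    (i' : In d r R j k a t') :
    Integrable (fun x => J f t j k (t j k + l) x - J f t' j k (a + l) (S x)) μ ∧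
      ∫ x, |J f t j k (t j k + l) x - J f t' j k (a + l) (S x)| ∂μ ≤ C := by
  obtain ⟨g1, g2⟩ := g j k a (a + l) _ _ hjk ha (le_add_of_nonneg_right hl) hΛ i i'
  have b : ∀ t : Th n, t + dl u + dl (-u) = t := fun t => by
    funext p q
    simp [dl]
    ring
  have e0 : up t j k (t j k + l) + dl u = up (t + dl u) j k (a + l) := by
    rw [up_shift, ← i.lev]
    simp only [Pi.add_apply, dl, add_right_comm]
  have v1 : Val d t := b t ▸ i.val.shift (-u)
  have v2 : Val d (up t j k (t j k + l)) := b (up t j k (t j k + l)) ▸ (e0 ▸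
    (i.up hjk ha (le_add_of_nonneg_right hl) (hΛ.trans hr)).val).shift (-u)
  have e : (fun x => J f t j k (t j k + l) x - J f t' j k (a + l) (S x)) =ᵐ[μ]
      (fun x => J f (t + dl u) j k (a + l) x - J f t' j k (a + l) x) ∘ S := by
    filter_upwards [A.eqv _ v1, A.eqv _ v2] with x e1 e2
    simp only [J, Function.comp_def, ← e0, e1, e2]
  refine ⟨(A.mp.integrable_comp_of_integrable g1).congr e.symm, ?_⟩
  refine le_of_eq_of_le ((integral_congr_ae (e.fun_comp abs)).trans ?_) g2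
  conv_rhs => rw [← A.mp.map_eq]
  exact (integral_map A.mp.measurable.aemeasurable
    (by rw [A.mp.map_eq]; exact g1.abs.aestronglyMeasurable)).symm

/-- the information in the entry `(j, k)` over the interval `[0, l]`, thickness `r` -/
def I (f : Th n → X → ℝ) (d r : ℝ) (j k : Fin n) (l : ℝ) (x : X) : ℝ :=
  f (bs d j k l r) x - f (bs d j k 0 r) x

theorem I_eq (l : ℝ) : I f d r j k l = J f (bs d j k 0 r) j k l := by
  funext x
  rw [I, J, up_bs]

theorem Info.I_mono (h : Info μ f d C) (hjk : j ≠ k) (d0 : 0 ≤ d) (dr : d ≤ r) {l l' : ℝ}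
    (hl : 0 ≤ l) (hll : l ≤ l') (hl' : l' ≤ 2 * r) :
    ∀ᵐ x ∂μ, I f d r j k l x ≤ I f d r j k l' x :=
  (h.mono _ _ (val_bs hjk d0 dr hl (hll.trans hl')) (val_bs hjk d0 dr (hl.trans hll) hl')
    (up_mono le_rfl hll)).mono fun x hx => sub_le_sub_right hx _

theorem Act.neg (A : Act μ f d (-u) S) (v : Val d t) : ∀ᵐ x ∂μ, f t (S x) = f (t + dl u) x := by
  have b : t + dl u + dl (-u) = t := by
    funext p q
    simp [dl]
    ring
  simpa only [b] using A.eqv _ (v.shift u)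

/-- **INV** (`u j = u k`) and **MONO** (`u k ≤ u j`): the event at `x` gives the event at `S x` -/
theorem Rg.push [IsFiniteMeasure μ] {C' r' W l l' η h0 : ℝ} (g : Rg μ f d r R Λ C)
    (h : Info μ f d C') (A : Act μ f d u S) (hjk : j ≠ k) (d0 : 0 ≤ d) (dr : d ≤ r) (hl : 0 ≤ l)
    (hs : u k ≤ u j) (hl' : l + (u j - u k) ≤ l') (hΛ : l' ≤ Λ) (hr : Λ ≤ 2 * r)
    (hu : ∀ p q, u p - u q ≤ W) (h1 : r + W ≤ r') (h2 : r' + W ≤ R) (hη : 0 < η) (hC : 0 < C) :
    μ.real {x | h0 ≤ I f d r' j k l x ∧ I f d r' j k l' (S x) < h0 - C / η} ≤ η := by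
  have hW : 0 ≤ W := by simpa using hu j j
  have s0 := sub_nonneg.2 hs
  have i := in_bs_shift (a := 0) hjk d0 dr le_rfl (by linarith) hu h1 h2
  rw [zero_add] at i
  have i' : In d r R j k (u j - u k) (bs d j k (u j - u k) r') :=
    in_bs hjk d0 dr s0 (by linarith) (by linarith) (by linarith)
  obtain ⟨g1, g2⟩ := g.eqv A hjk hl s0 (by linarith) hr i i'
  have q := A.mp.quasiMeasurePreserving
  have m := q.ae (h.I_mono hjk d0 (r := r') (by linarith) le_rfl s0 (by linarith))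
  have m' := q.ae (h.I_mono hjk d0 (r := r') (by linarith) (by linarith) hl' (by linarith))
  refine le_trans (ENNReal.toReal_mono (measure_ne_top _ _) (measure_mono_ae ?_))
    (markov g1 g2 hη hC)
  filter_upwards [m, m'] with x e e' hx
  obtain ⟨a1, a2⟩ := hx
  refine le_trans ?_ (le_abs_self _)
  simp only [I, J, up_bs, bs_self, zero_add, add_comm (u j - u k)] at a1 a2 e e' ⊢
  linarith

/-- **INV** and **MONO**: the event at `S x` gives the event at `x`; here `S` acts by `-u` -/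
theorem Rg.pull [IsFiniteMeasure μ] {C' r' W l l' η h0 : ℝ} (g : Rg μ f d r R Λ C)
    (h : Info μ f d C') (A : Act μ f d (-u) S) (hjk : j ≠ k) (d0 : 0 ≤ d) (dr : d ≤ r) (hl : 0 ≤ l)
    (hs : u k ≤ u j) (hl' : l + (u j - u k) ≤ l') (hΛ : l' ≤ Λ) (hr : Λ ≤ 2 * r)
    (hu : ∀ p q, u p - u q ≤ W) (h1 : r + W ≤ r') (h2 : r' + W ≤ R) (hη : 0 < η) (hC : 0 < C) :
    μ.real {x | h0 ≤ I f d r' j k l (S x) ∧ I f d r' j k l' x < h0 - C / η} ≤ η := by
  have hW : 0 ≤ W := by simpa using hu j j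
  have s0 := sub_nonneg.2 hs
  have i := in_bs_shift (a := 0) hjk d0 dr le_rfl (by linarith) hu h1 h2
  rw [zero_add] at i
  have i' : In d r R j k (u j - u k) (bs d j k (u j - u k) r') :=
    in_bs hjk d0 dr s0 (by linarith) (by linarith) (by linarith)
  obtain ⟨g1, g2⟩ := g j k _ (l + (u j - u k)) _ _ hjk s0 (by linarith) (by linarith) i i'
  have m := h.I_mono hjk d0 (r := r') (by linarith) le_rfl s0 (by linarith)
  have m' := h.I_mono hjk d0 (r := r') (by linarith) (by linarith) hl' (by linarith)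
  refine le_trans (ENNReal.toReal_mono (measure_ne_top _ _) (measure_mono_ae ?_))
    (markov g1 g2 hη hC)
  filter_upwards [m, m', A.neg (val_bs hjk d0 (r := r') (by linarith) hl (by linarith)),
    A.neg (val_bs hjk d0 (r := r') (by linarith) le_rfl (by linarith))] with x e e' b1 b2 hx
  obtain ⟨a1, a2⟩ := hx
  refine le_trans ?_ (le_abs_self _)
  simp only [I, J, up_bs, ← up_shift, b1, b2] at a1 a2 e e' ⊢
  linarith

/-- the form for events that agree almost surely with the events `h ≤ I` -/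
theorem Rg.step [IsFiniteMeasure μ] {C' r' W l l' η h0 : ℝ} (g : Rg μ f d r R Λ C)
    (h : Info μ f d C') (A : Act μ f d (-u) S) (hjk : j ≠ k) (d0 : 0 ≤ d) (dr : d ≤ r) (hl : 0 ≤ l)
    (hs : u k ≤ u j) (hl' : l + (u j - u k) ≤ l') (hΛ : l' ≤ Λ) (hr : Λ ≤ 2 * r)
    (hu : ∀ p q, u p - u q ≤ W) (h1 : r + W ≤ r') (h2 : r' + W ≤ R) (hη : 0 < η) (hC : 0 < C)
    {E E' : Set X} (hE : ∀ᵐ x ∂μ, x ∈ E → h0 ≤ I f d r' j k l x)
    (hE' : ∀ᵐ x ∂μ, h0 - C / η ≤ I f d r' j k l' x → x ∈ E') : μ.real (S ⁻¹' E \ E') ≤ η := by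
  refine le_trans (ENNReal.toReal_mono (measure_ne_top _ _) (measure_mono_ae ?_))
    (g.pull (h0 := h0) h A hjk d0 dr hl hs hl' hΛ hr hu h1 h2 hη hC)
  filter_upwards [A.mp.quasiMeasurePreserving.ae hE, hE'] with x a b hx
  exact ⟨a hx.1, not_le.1 fun e => hx.2 (b e)⟩

/-! ### first moments from exponential moments -/

theorem pos_of_exp {Z : X → ℝ} (hZ : AEStronglyMeasurable Z μ) (hC : 0 ≤ C)
    (h : ∫⁻ x, ENNReal.ofReal (Real.exp (Z x)) ∂μ ≤ ENNReal.ofReal C) :
    Integrable (fun x => (Z x)⁺) μ ∧ ∫ x, (Z x)⁺ ∂μ ≤ C := by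
  have m : AEStronglyMeasurable (fun x => (Z x)⁺) μ := continuous_posPart.comp_aestronglyMeasurable hZ
  have n0 : 0 ≤ᵐ[μ] fun x => (Z x)⁺ := ae_of_all _ fun x => posPart_nonneg _
  have b : ∫⁻ x, ENNReal.ofReal (Z x)⁺ ∂μ ≤ ENNReal.ofReal C :=
    (lintegral_mono fun x => ENNReal.ofReal_le_ofReal (sup_le
      (by linarith [Real.add_one_le_exp (Z x)]) (Real.exp_pos _).le)).trans h
  refine ⟨⟨m, (hasFiniteIntegral_iff_ofReal n0).2 (b.trans_lt ENNReal.ofReal_lt_top)⟩, ?_⟩
  rw [integral_eq_lintegral_of_nonneg_ae n0 m]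
  exact ENNReal.toReal_le_of_le_ofReal hC b

/-- a nonnegative function with `E exp (Z - l) ≤ C` -/
theorem ent_of_exp [IsProbabilityMeasure μ] {Z : X → ℝ} {l : ℝ} (hZ : AEStronglyMeasurable Z μ)
    (hC : 0 ≤ C) (h0 : ∀ᵐ x ∂μ, 0 ≤ Z x)
    (h : ∫⁻ x, ENNReal.ofReal (Real.exp (Z x - l)) ∂μ ≤ ENNReal.ofReal C) :
    Integrable Z μ ∧ ∫ x, Z x ∂μ ≤ l + C := by
  obtain ⟨a1, a2⟩ := pos_of_exp (hZ.sub aestronglyMeasurable_const) hC h
  have a3 := (integrable_const l).add a1
  have b : ∀ x, Z x ≤ l + (Z x - l)⁺ := fun x => by linarith [le_posPart (Z x - l)]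
  have a4 : Integrable Z μ := a3.mono' hZ (h0.mono fun x hx => (abs_of_nonneg hx).trans_le (b x))
  refine ⟨a4, (integral_mono a4 a3 b).trans ?_⟩
  refine (integral_add (integrable_const l) a1).trans_le ?_
  simpa using a2

end

end Vale.Agent.P007M.Reg
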