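import Vale.Agent.P007M.Box
import Vale.Agent.P007M.Reg
import Vale.Agent.P007.Bdl.B10

/-!
# P007M: the information functions
-/

set_option linter.all false

open MeasureTheory Filter Topology Set Function Real
open scoped ENNReal Pointwise

namespace Vale.Agent.P007M

open Vale.Agent.P007 Vale.Agent.P007.Koopman Vale.Agent.P007.R Reg

noncomputable section

variable {n : ℕ} {t t' s s' : Fin n → Fin n → ℝ} {ρ ρ' d : ℝ} {μ : Measure (X n)} {x : X n}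

/-- **the information function** -/
def fi (μ : Measure (X n)) (ρ : ℝ) (t : Fin n → Fin n → ℝ) (x : X n) : ℝ :=
  -log (loc μ x (bx ρ t)).toReal

theorem Reg.Val.valid (h : Val d t) : Valid t := fun a b c => h.2 a c b

theorem loc_bx_tr {u : Fin n → ℝ} (ha : μ.map (tr (da u)) = μ) (ρ : ℝ) (t : Th n) (x : X n) :
    loc μ (tr (da u) x) (bx ρ (t + dl u)) = loc μ x (bx ρ t) := by
  rw [loc_inv ha]
  exact congrArg _ (Set.ext fun h => conj_bx (coe_da u))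

/-- exact equivariance -/
theorem fi_tr {u : Fin n → ℝ} (ha : μ.map (tr (da u)) = μ) (ρ : ℝ) (t : Th n) (x : X n) :
    fi μ ρ (t + dl u) (tr (da u) x) = fi μ ρ t x := by rw [fi, fi, loc_bx_tr ha]

theorem act_fi (ha : AInv μ) (ρ d : ℝ) (u : Fin n → ℝ) : Act μ (fi μ ρ) d u (tr (da u)) :=
  ⟨⟨(continuous_tr _).measurable, ha u⟩, fun t _ => ae_of_all _ (fi_tr (ha u) ρ t)⟩

theorem tr_da_add (u v : Fin n → ℝ) (x : X n) : tr (da (u + v)) x = tr (da u) (tr (da v) x) := by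
  rw [tr_tr, add_comm, da_add]

variable [IsProbabilityMeasure μ]

theorem loc_bx_ne_top (x : X n) (ρ : ℝ) (t : Th n) : loc μ x (bx ρ t) ≠ ∞ := by
  obtain ⟨K, h, e⟩ := cpt_bx ρ t
  exact ((measure_mono e).trans_lt h.measure_lt_top).ne

theorem meas_fi (ρ : ℝ) (t : Th n) : Measurable (fi μ ρ t) :=
  (meas_loc meas_bx).ennreal_toReal.log.neg

/-- the points which see mass in all boxes -/
def Pos (μ : Measure (X n)) (x : X n) : Prop := ∀ ρ > 0, ∀ t, loc μ x (bx ρ t) ≠ 0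

theorem ae_pos (μ : Measure (X n)) : ∀ᵐ x ∂μ, Pos μ x :=
  (loc_pos μ).mono fun _ h _ k _ => (h _ (bx_nhds k)).ne'

theorem Pos.eq (h : Pos μ x) (k : 0 < ρ) (t : Th n) :
    loc μ x (bx ρ t) = ENNReal.ofReal (exp (-fi μ ρ t x)) := by
  rw [fi, neg_neg, exp_log (ENNReal.toReal_pos (h ρ k t) (loc_bx_ne_top x ρ t)),
    ENNReal.ofReal_toReal (loc_bx_ne_top x ρ t)]

theorem Pos.inv (h : Pos μ x) (k : 0 < ρ) (t : Th n) :
    (loc μ x (bx ρ t))⁻¹ = ENNReal.ofReal (exp (fi μ ρ t x)) := by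
  rw [h.eq k, ← ENNReal.ofReal_inv_of_pos (exp_pos _), ← exp_neg, neg_neg]

theorem Pos.div (h : Pos μ x) (k : 0 < ρ) (k' : 0 < ρ') (t t' : Th n) :
    loc μ x (bx ρ t) / loc μ x (bx ρ' t') = ENNReal.ofReal (exp (fi μ ρ' t' x - fi μ ρ t x)) := by
  rw [div_eq_mul_inv, h.eq k, h.inv k', ← ENNReal.ofReal_mul (exp_pos _).le, ← exp_add,
    neg_add_eq_sub]

theorem Pos.le_iff (h : Pos μ x) (k : 0 < ρ) (k' : 0 < ρ') (c : ℝ) :
    c ≤ fi μ ρ' t' x - fi μ ρ t x ↔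
      loc μ x (bx ρ' t') ≤ ENNReal.ofReal (exp (-c)) * loc μ x (bx ρ t) := by
  rw [h.eq k, h.eq k', ← ENNReal.ofReal_mul (exp_pos _).le, ← exp_add,
    ENNReal.ofReal_le_ofReal_iff (exp_pos _).le, exp_le_exp]
  constructor <;> intro <;> linarith

theorem Pos.mono (h : Pos μ x) (k : 0 < ρ') (e : ρ' ≤ ρ) (e' : t ≤ t') : fi μ ρ t x ≤ fi μ ρ' t' x :=
  sub_nonneg.1 ((h.le_iff (k.trans_le e) k 0).2 (by simpa using measure_mono (bx_mono k.le e e')))

theorem fi_mono (k : 0 < ρ') (e : ρ' ≤ ρ) (e' : t ≤ t') : ∀ᵐ x ∂μ, fi μ ρ t x ≤ fi μ ρ' t' x :=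
  (ae_pos μ).mono fun _ h => h.mono k e e'

theorem cov_inv (v : Valid t) (v' : Valid t') (e : t ≤ t') (k : 0 < ρ') (k' : ρ' ≤ ρ)
    (k1 : 2 * n * ρ ≤ 1) : Cov (bx ρ t)⁻¹ (bx ρ' t')
      (ENNReal.ofReal ((12 * ρ / ρ') ^ (n * n) * exp (∑ j, ∑ k, (t' j k - t j k)))) := by
  have := mul_le_mul_of_nonneg_left k' (Nat.cast_nonneg (α := ℝ) n)
  have := mul_nonneg (Nat.cast_nonneg (α := ℝ) n) k.le
  exact (cov_bx (ρ := 2 * ρ) v v' e k (by linarith) (by linarith)).mono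
    (fun g hg => inv_inv g ▸ inv_bx v (k.trans_le k') k1 hg) le_rfl (le_of_eq (by congr 4; ring))

/-- **exponential moments on an event** -/
theorem exp_ev {V : Set (X n)} {N : ℝ≥0∞} (hV : MeasurableSet V) (k : 0 < ρ) (k' : 0 < ρ')
    (h : ∀ y, Cov {g | g⁻¹ ∈ bx ρ t ∧ tr g y ∈ V} (bx ρ' t') N) :
    ∫⁻ x in V, ENNReal.ofReal (exp (fi μ ρ' t' x - fi μ ρ t x)) ∂μ ≤ N :=
  (lintegral_congr_ae (ae_restrict_of_ae ((ae_pos μ).mono fun _ h => (h.div k k' t t').symm))).trans_le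
    (ratio_ev hV meas_bx meas_bx h)

/-- **exponential moments**, doubling -/
theorem exp_mom (v : Valid t) (v' : Valid t') (e : t ≤ t') (k : 0 < ρ') (k' : ρ' ≤ ρ)
    (k1 : 2 * n * ρ ≤ 1) : ∫⁻ x, ENNReal.ofReal (exp (fi μ ρ' t' x - fi μ ρ t x)) ∂μ ≤
      ENNReal.ofReal ((12 * ρ / ρ') ^ (n * n) * exp (∑ j, ∑ k, (t' j k - t j k))) :=
  (lintegral_congr_ae ((ae_pos μ).mono fun _ h => (h.div (k.trans_le k') k t t').symm)).trans_le
    (ratio meas_bx meas_bx (cov_inv v v' e k k' k1))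

theorem exp_mom' (v : Valid t) (v' : Valid t') (e : t ≤ t') (k : 0 < ρ') (k' : ρ' ≤ ρ)
    (k1 : 2 * n * ρ ≤ 1) : ∫⁻ x, ENNReal.ofReal
      (exp (fi μ ρ' t' x - fi μ ρ t x - ∑ j, ∑ k, (t' j k - t j k))) ∂μ ≤
      ENNReal.ofReal ((12 * ρ / ρ') ^ (n * n)) := by
  have := k.trans_le k'
  simp only [sub_eq_add_neg (_ - _), exp_add, ENNReal.ofReal_mul (exp_pos _).le]
  rw [lintegral_mul_const' _ _ ENNReal.ofReal_ne_top]
  refine (mul_le_mul_left (exp_mom v v' e k k' k1) _).trans_eq ?_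
  rw [← ENNReal.ofReal_mul (by positivity), mul_assoc, ← exp_add, add_neg_cancel, exp_zero, mul_one]

omit [IsProbabilityMeasure μ] in
/-- Markov's inequality -/
theorem tail_of_exp {Z : X n → ℝ} {V : Set (X n)} {C : ℝ} (hZ : Measurable Z) (hC : 0 ≤ C)
    (h : ∫⁻ x in V, ENNReal.ofReal (exp (Z x)) ∂μ ≤ ENNReal.ofReal C) (c : ℝ) :
    μ.real ({x | c ≤ Z x} ∩ V) ≤ C * exp (-c) := by
  have m := hZ.exp.ennreal_ofReal
  have k := (mul_meas_ge_le_lintegral (μ := μ.restrict V) m (ENNReal.ofReal (exp c))).trans h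
  simp only [ENNReal.ofReal_le_ofReal_iff (exp_pos _).le, exp_le_exp] at k
  rw [Measure.restrict_apply (measurableSet_le measurable_const hZ), mul_comm,
    ← ENNReal.le_div_iff_mul_le (.inl (by simp [exp_pos])) (.inl (by simp)),
    ← ENNReal.ofReal_div_of_pos (exp_pos _)] at k
  rw [exp_neg]
  exact ENNReal.toReal_le_of_le_ofReal (by positivity) k

theorem tail_fi (v : Valid t) (v' : Valid t') (e : t ≤ t') (k : 0 < ρ') (k' : ρ' ≤ ρ)
    (k1 : 2 * n * ρ ≤ 1) (c : ℝ) :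
    μ.real {x | ∑ j, ∑ k, (t' j k - t j k) + c ≤ fi μ ρ' t' x - fi μ ρ t x} ≤
      (12 * ρ / ρ') ^ (n * n) * exp (-c) := by
  have := k.trans_le k'
  have := tail_of_exp (V := univ) (((meas_fi ρ' t').sub (meas_fi ρ t)).sub_const _) (by positivity)
    ((setLIntegral_univ _).trans_le (exp_mom' (μ := μ) v v' e k k' k1)) c
  simpa only [inter_univ, le_sub_iff_add_le', Pi.sub_apply] using this

/-- **the entropy bound** -/
theorem ent_fi (v : Valid t) (v' : Valid t') (e : t ≤ t') (k : 0 < ρ') (k' : ρ' ≤ ρ)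
    (k1 : 2 * n * ρ ≤ 1) : Integrable (fun x => fi μ ρ' t' x - fi μ ρ t x) μ ∧
      ∫ x, (fi μ ρ' t' x - fi μ ρ t x) ∂μ ≤ ∑ j, ∑ k, (t' j k - t j k) + (12 * ρ / ρ') ^ (n * n) := by
  have := k.trans_le k'
  exact ent_of_exp ((meas_fi ρ' t').sub (meas_fi ρ t)).aestronglyMeasurable (by positivity)
    ((fi_mono k k' e).mono fun _ => sub_nonneg.2) (exp_mom' v v' e k k' k1)

theorem ent_J {j l : Fin n} {b : ℝ} (v : Valid t) (v' : Valid (up t j l b)) (e : t j l ≤ b)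
    (k : 0 < ρ) (k1 : 2 * n * ρ ≤ 1) : ∫ x, J (fi μ ρ) t j l b x ∂μ ≤ b - t j l + 12 ^ (n * n) := by
  have := (ent_fi (μ := μ) v v' (le_up e) k le_rfl k1).2
  rwa [sum_up, mul_div_cancel_right₀ _ k.ne'] at this

/-- **submodularity**, with a larger box -/
theorem exp_sub (v : Valid t) (w : Valid s) (w' : Valid s') (e : t ≤ s) (e' : t ≤ s') (k : 0 < ρ)
    (k1 : 2 * n * ρ ≤ 1) : ∫⁻ x, ENNReal.ofReal
      (exp (fi μ ρ (s ⊔ s') x + fi μ (7 * ρ) t x - fi μ ρ s x - fi μ ρ s' x)) ∂μ ≤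
      ENNReal.ofReal (24 ^ (n * n)) := by
  have o : ∀ {t : Th n} {g}, g ∈ bx ρ t → g ∈ bx (1 * ρ) t := fun h => by rwa [one_mul]
  have p : ∀ {t : Th n} {a b}, Valid t → a ∈ bx ρ t → b ∈ bx ρ t → a * b⁻¹ ∈ bx (4 * ρ) t :=
    fun v ha hb => by
      have := mul_bx' (r := 1) v k one_pos two_pos (by linarith) (o ha) (inv_bx v k k1 hb)
      rwa [show (1 + 2 + 1 : ℝ) = 4 by norm_num] at this
  refine le_trans (le_of_eq (lintegral_congr_ae ((ae_pos μ).mono fun x h => ?_)))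
    (subm (P := bx ρ s) (Q := bx ρ s') (S := bx ρ (s ⊔ s')) (R := bx (7 * ρ) t) (T := bx (4 * ρ) t)
      meas_bx meas_bx meas_bx meas_bx meas_bx (fun a ha b hb => ?_) (fun a ha b hb => ?_) fun z => ?_)
  · simp only [h.inv k, h.inv (ρ := 7 * ρ) (by positivity), h.eq k s, h.eq k s',
      ← ENNReal.ofReal_mul (exp_pos _).le, ← exp_add]
    congr 2; ring
  · have := mul_bx' (r := 1) v k two_pos one_pos (by linarith)
      (inv_bx v k k1 (bx_mono k.le le_rfl e ha)) (o (bx_mono k.le le_rfl e' hb))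
    rwa [show (2 + 1 + 1 : ℝ) = 4 by norm_num] at this
  · have := mul_bx' (r := 2) v k one_pos four_pos (by linarith) (o (bx_mono k.le le_rfl e ha)) hb
    rwa [show (1 + 4 + 2 : ℝ) = 7 by norm_num] at this
  · have := mul_nonneg (Nat.cast_nonneg (α := ℝ) n) k.le
    refine ((cov_bx (ρ := 4 * ρ) (w.sup w') (w.sup w') le_rfl k (by linarith) (by linarith)).mono
      le_rfl le_rfl (le_of_eq ?_)).of_diff fun a ha b hb => ?_
    · simp only [sub_self, Finset.sum_const_zero, exp_zero, mul_one]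
      congr 2; field_simp; norm_num
    · rw [bx_sup (by positivity)]
      exact ⟨by simpa using p w ha.1 hb.1, by simpa [mul_assoc] using p w' ha.2 hb.2⟩

/-- **submodularity** in the mean -/
theorem sub_fi (v : Valid t) (w : Valid s) (w' : Valid s') (e : t ≤ s) (e' : t ≤ s') (k : 0 < ρ)
    (k1 : 14 * n * ρ ≤ 1) :
    Integrable (fun x => (fi μ ρ (s ⊔ s') x + fi μ ρ t x - fi μ ρ s x - fi μ ρ s' x)⁺) μ ∧
      ∫ x, (fi μ ρ (s ⊔ s') x + fi μ ρ t x - fi μ ρ s x - fi μ ρ s' x)⁺ ∂μ ≤ 2 * 84 ^ (n * n) := by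
  have := mul_nonneg (Nat.cast_nonneg (α := ℝ) n) k.le
  have m : ∀ r, AEStronglyMeasurable
      (fun x => fi μ ρ (s ⊔ s') x + fi μ r t x - fi μ ρ s x - fi μ ρ s' x) μ := fun r =>
    ((((meas_fi _ _).add (meas_fi _ _)).sub (meas_fi _ _)).sub (meas_fi _ _)).aestronglyMeasurable
  obtain ⟨a1, a2⟩ := pos_of_exp (m _) (by positivity) (exp_sub v w w' e e' k (by linarith))
  obtain ⟨b1, b2⟩ := ent_fi (μ := μ) (ρ := 7 * ρ) v v le_rfl k (by linarith) (by linarith)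
  have c : ∀ᵐ x ∂μ, (fi μ ρ (s ⊔ s') x + fi μ ρ t x - fi μ ρ s x - fi μ ρ s' x)⁺ ≤
      (fi μ ρ (s ⊔ s') x + fi μ (7 * ρ) t x - fi μ ρ s x - fi μ ρ s' x)⁺ +
        (fi μ ρ t x - fi μ (7 * ρ) t x) := (fi_mono (ρ := 7 * ρ) (t := t) k (by linarith) le_rfl).mono
    fun x h => by
      exact sup_le (by linarith [le_posPart (fi μ ρ (s ⊔ s') x + fi μ (7 * ρ) t x - fi μ ρ s x -
        fi μ ρ s' x)]) (add_nonneg (posPart_nonneg _) (sub_nonneg.2 h))
  have i := (a1.add b1).mono' (continuous_posPart.comp_aestronglyMeasurable (m ρ))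
    (c.mono fun x h => (abs_of_nonneg (posPart_nonneg _)).trans_le h)
  refine ⟨i, (integral_mono_ae i (a1.add b1) c).trans ((integral_add a1 b1).trans_le ?_)⟩
  rw [show 12 * (7 * ρ) / ρ = 84 by field_simp; norm_num] at b2
  simp only [sub_self, Finset.sum_const_zero, zero_add] at b2
  linarith [pow_le_pow_left₀ (by norm_num : (0 : ℝ) ≤ 24) (by norm_num : (24 : ℝ) ≤ 84) (n * n)]

/-- **the information functions satisfy the axioms** -/
theorem info_fi (k : 0 < ρ) (k1 : 14 * n * ρ ≤ 1) (d : ℝ) : Info μ (fi μ ρ) d (2 * 84 ^ (n * n)) := by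
  have := mul_nonneg (Nat.cast_nonneg (α := ℝ) n) k.le
  exact ⟨fun _ _ _ _ e => fi_mono k le_rfl e,
    fun _ _ v v' e => (ent_fi v.valid v'.valid e k le_rfl (by linarith)).1,
    fun _ _ _ v w w' e e' => (sub_fi v.valid w.valid w'.valid e e' k k1).2⟩

end

end Vale.Agent.P007M
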