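import Vale.Agent.P007M.Reg

/-! The interface between the entropy bound and the rigidity argument. -/

set_option autoImplicit false

open MeasureTheory

namespace Vale.Agent.P007M

open Reg

variable {n : ℕ}

/-- diagonal entries `d`, all other entries `r` -/
def base (d r : ℝ) : Th n := fun p q => if p = q then d else r

/-- `τ` on `S × Sᶜ`, zero elsewhere -/
def crs (S : Finset (Fin n)) (τ : ℝ) : Th n := fun p q => if p ∈ S ∧ q ∉ S then τ else 0

/-- the information gained by refining the entries in `S × Sᶜ` by `τ` is at least `c₀ τ` off a set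
of mass `η` -/
def Gain {X : Type} [MeasurableSpace X] (μ : Measure X) (f : Th n → X → ℝ)
    (d c₀ K η r₁ R₁ : ℝ) : Prop :=
  ∀ S : Finset (Fin n), S.Nonempty → S ≠ Finset.univ → ∀ r τ : ℝ, r₁ ≤ r → K * r ≤ τ → τ ≤ R₁ →
    μ.real {x | f (base d r + crs S τ) x - f (base d r) x < c₀ * τ} ≤ η

theorem val_base {d r : ℝ} (d0 : 0 ≤ d) (dr : d ≤ r) : Val d (base d r : Th n) := by
  refine ⟨fun j => if_pos rfl, fun j l k => ?_⟩
  unfold base
  split_ifs <;> first | linarith | (subst_vars; simp_all)

theorem crs_nonneg (S : Finset (Fin n)) {τ : ℝ} (h : 0 ≤ τ) (p q : Fin n) : 0 ≤ crs S τ p q := by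
  unfold crs
  split_ifs
  · exact h
  · exact le_rfl

theorem val_base_crs {d r τ : ℝ} (d0 : 0 ≤ d) (dr : d ≤ r) (S : Finset (Fin n)) (h : 0 ≤ τ) :
    Val d (base d r + crs S τ : Th n) := by
  refine ⟨fun j => by simp [base, crs], fun j l k => ?_⟩
  have h1 := (val_base (n := n) d0 dr).2 j l k
  have h2 : crs S τ j k ≤ crs S τ j l + crs S τ l k := by
    unfold crs
    by_cases a : j ∈ S <;> by_cases b : l ∈ S <;> by_cases c : k ∈ S <;> simp [a, b, c, h]
  simp only [Pi.add_apply]
  linarith

end Vale.Agent.P007M
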