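import Vale.Agent.P007M.Dense
import Vale.Agent.P007M.Ifc

/-!
# P007M: a gain of information at the full rate forces information in one step
-/

set_option linter.all false

open MeasureTheory Finset

namespace Vale.Agent.P007M.C2

open Reg

variable {n : ℕ} {X : Type*} [MeasurableSpace X] {μ : Measure X} {f : Th n → X → ℝ}
  {d C L r a : ℝ} {j k : Fin n} {s t : Th n}

/-- comparison of steps -/
theorem step_le {u : Fin n → ℝ} {S : X → X} (h : Info μ f d C) (A : Act μ f d u S) (hL : 0 ≤ L)
    (vt : Val d t) (vt' : Val d (up t j k (t j k + L))) (vs : Val d s)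
    (vs' : Val d (up s j k (s j k + L))) (e : t ≤ s + dl u) (e' : t j k = s j k + (u j - u k)) :
    ∫ x, J f s j k (s j k + L) x ∂μ ≤ ∫ x, J f t j k (t j k + L) x ∂μ + C := by
  have w := vs.shift u
  have w' := vs'.shift u
  have e1 : up s j k (s j k + L) + dl u = up (s + dl u) j k (t j k + L) := by
    rw [up_shift, e']; congr 1; ring
  have e2 : (s + dl u) ⊔ up t j k (t j k + L) = up (s + dl u) j k (t j k + L) := by
    funext p q
    by_cases z : p = j ∧ q = k
    · simp only [z.1, z.2, Pi.sup_apply, up_self, Pi.add_apply, dl]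
      exact sup_eq_right.2 (by linarith)
    · simp only [Pi.sup_apply, up_ne z]
      exact sup_eq_left.2 (e p q)
  have i1 := h.int _ _ w w' fun p q => add_le_add_left (le_up (by linarith) p q) _
  have i2 := h.int _ _ vt vt' (le_up (by linarith))
  have k1 := h.sub _ _ _ vt w vt' e (le_up (by linarith))
  rw [e2, ← e1] at k1
  have k2 := (int_le_pos (i1.sub i2)).trans ((le_of_eq (by congr; ext; congr 1; simp; ring)).trans k1)
  have k3 : ∫ x, J f s j k (s j k + L) x ∂μ =
      ∫ x, (f (up s j k (s j k + L) + dl u) x - f (s + dl u) x) ∂μ := by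
    conv_rhs => rw [← A.mp.map_eq, integral_map A.mp.aemeasurable (A.mp.map_eq.symm ▸ i1.1)]
    exact integral_congr_ae (((A.eqv _ vs).and (A.eqv _ vs')).mono fun x z => by
      simp only [z.1, z.2, J])
  have k4 := integral_sub i1 i2
  simp only [Pi.sub_apply] at k2
  rw [k3]
  unfold J
  linarith

theorem mean_le [IsProbabilityMeasure μ] {Z : X → ℝ} (m : Measurable Z) (i : Integrable Z μ)
    (hL : 0 ≤ L) (h : ∫ x, (Z x - L)⁺ ∂μ ≤ C) (H : ℝ) :
    ∫ x, Z x ∂μ ≤ |H| + L * μ.real {x | H ≤ Z x} + C := by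
  have w : MeasurableSet {x | H ≤ Z x} := measurableSet_le measurable_const m
  have i1 := (integrable_const (μ := μ) L).indicator w
  have i2 := (i.sub (integrable_const L)).pos_part
  refine (integral_mono i (((integrable_const |H|).add i1).add i2) fun x => ?_).trans ?_
  · have := le_abs_self H
    have := abs_nonneg H
    have := le_max_left (Z x - L) 0
    have := le_max_right (Z x - L) 0
    by_cases z : H ≤ Z x <;> simp [Set.indicator, z] <;> linarith
  · refine (integral_add ((integrable_const |H|).add i1) i2).trans_le (add_le_add ?_ h)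
    refine (integral_add (integrable_const |H|) i1).trans_le ?_
    rw [integral_indicator_const _ w]
    simp [mul_comm]

theorem tS_eq2 (S : Finset (Fin n)) : tS d r S a = base d r + crs S a := by
  funext p q
  by_cases e : p = q
  · simp [tS, base, crs, e]
  · by_cases z : p ∈ S ∧ q ∉ S <;> simp only [tS, base, crs, e, z, if_true, if_false, Pi.add_apply,
      and_self, add_zero, not_false_eq_true]

theorem val_up_base (h : j ≠ k) (d0 : 0 ≤ d) (dr : d ≤ r) (hL : 0 ≤ L) (hr : L ≤ r) :
    Val d (up (base d r) j k (r + L)) := val_bs h d0 dr (by linarith) (by linarith)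

variable {T : (Fin n → ℝ) → X → X} (h : Info μ f d C) (A : ∀ u, Act μ f d u (T u)) (d0 : 0 ≤ d)
  (dr : d ≤ r) (hL : 0 ≤ L) (hr : L ≤ r)
include h A d0 dr hL hr

theorem row_le (ha : 0 ≤ a) {P : Finset (Fin n × Fin n)} (hP : P ⊆ {j} ×ˢ {j}ᶜ) :
    ∫ x, (f (ar d r L {j} a P) x - f (tS d r {j} a) x) ∂μ ≤
      ∑ p ∈ P, (∫ x, J f (base d r) j p.2 (r + L) x ∂μ + C) := by
  induction P using Finset.induction_on with
  | empty => simp [ar_empty]
  | insert p P hp ih =>
    obtain ⟨i, k⟩ := p
    have z : i = j ∧ k ≠ j := by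
      simpa only [mem_product, mem_singleton, mem_compl] using hP (mem_insert_self _ _)
    obtain ⟨rfl, z⟩ := z
    have hP' := (subset_insert _ _).trans hP
    have v := val_ar hP' d0 dr hL hr ha
    have v' := val_ar hP d0 dr hL hr ha
    have b : (base d r : Th n) i k = r := if_neg z.symm
    have c : ar d r L {i} a P i k = r + a := by simp [ar, tS, hp, z, z.symm]
    rw [ar_insert hp] at v' ⊢
    have k1 := step_le h (A (Pi.single i (-a))) hL (val_base d0 dr)
      (by rw [b]; exact val_up_base z.symm d0 dr hL hr) v v' (fun p q => ?_)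
      (by rw [b, c]; simp [z])
    · have k2 := integral_add (h.int _ _ v v' (le_up (by linarith)))
        (h.int _ _ (val_tS d0 dr ha) v fun p q => le_add_of_nonneg_right (by split_ifs <;> linarith))
      simp only [sub_add_sub_cancel] at k2
      rw [sum_insert hp, k2]
      rw [b] at k1
      exact add_le_add k1 (ih hP')
    · rcases ar_cases (d := d) (r := r) (a := a) hP' hL p q with ⟨rfl, e⟩ | ⟨e, e1, e2⟩ | ⟨e, e1, e2, -⟩
      · simp [base, dl, e]
      · have : p ≠ i := fun z => e1 (by simp [z, Ne.symm (z ▸ e)])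
        simp only [base, if_neg e, Pi.add_apply, e2, dl, Pi.single_apply, if_neg this]
        split_ifs <;> linarith
      · rw [mem_singleton] at e e1
        simp only [base, Pi.add_apply, dl, Pi.single_apply, if_pos e, if_neg e1,
          if_neg (fun z : p = q => e1 (z ▸ e))]
        linarith

theorem rows_le (N : ℕ) : ∫ x, (f (tS d r {j} (N * L)) x - f (tS d r {j} 0) x) ∂μ ≤
    N * ∑ k ∈ {j}ᶜ, (∫ x, J f (base d r) j k (r + L) x ∂μ + C) := by
  have m : ∀ {a b : ℝ}, a ≤ b → tS d r {j} a ≤ tS d r {j} b := fun e p q => by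
    unfold tS; split_ifs <;> linarith
  induction N with
  | zero => simp
  | succ N ih =>
    have n0 : 0 ≤ N * L := by positivity
    have k1 := row_le h A d0 dr hL hr n0 (j := j) le_rfl
    rw [ar_full, sum_product, sum_singleton] at k1
    have k2 := integral_add (h.int _ _ (val_tS d0 dr n0) (val_tS d0 dr (add_nonneg n0 hL))
      (m (le_add_of_nonneg_right hL))) (h.int _ _ (val_tS d0 dr le_rfl) (val_tS d0 dr n0) (m n0))
    simp only [sub_add_sub_cancel] at k2
    push_cast
    rw [add_mul, add_mul, one_mul, one_mul, k2]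
    linarith

omit h A d0 dr hL hr

/-- **CORE2**: full rate -/
theorem core2 {ε : ℝ} (n : ℕ) (C H : ℝ) (hε : 0 < ε) (hC : 0 ≤ C) : ∃ η > 0, ∃ d₀ > 0,
    ∀ (X : Type) [MeasurableSpace X] (μ : Measure X) [IsProbabilityMeasure μ] (f : Th n → X → ℝ)
      (T : (Fin n → ℝ) → X → X) (d r : ℝ) (N : ℕ) (j k : Fin n), d₀ ≤ d → d ≤ r → 0 < N → j ≠ k →
      Info μ f d C → Tail μ f d C → (∀ t, Measurable (f t)) → (∀ u, Act μ f d u (T u)) →
      μ.real {x | f (base d (2 * r) + crs {j} (N * d)) x - f (base d (2 * r)) x <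
        (1 - η) * (N * d)} ≤ η →
      (∀ l, l ≠ j → l ≠ k → μ.real {x | 1 ≤ J f (base d (2 * r)) j l (2 * r + d) x} ≤ η) →
      μ.real {x | I f d r j k d x < H} ≤ ε := by
  refine ⟨ε / (2 * (n + 2)), by positivity, 2 * (n * (1 + 2 * C) + |H| + 3 * C + 1) / ε,
    by positivity, fun X _ μ _ f T d r N j k h0 dr hN jk h tl m A g nl => ?_⟩
  set η := ε / (2 * (n + 2)) with hη
  have e0 : 0 < η := by positivity
  have d0 : 0 < d := lt_of_lt_of_le (by positivity) h0
  have dr' : d ≤ 2 * r := by linarith
  have n0 : (0 : ℝ) < N * d := by positivity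
  have vb : Val d (base d (2 * r) : Th n) := val_base d0.le dr'
  have vu : ∀ {l}, l ≠ j → Val d (up (base d (2 * r) : Th n) j l (2 * r + d)) := fun z =>
    val_up_base z.symm d0.le dr' d0.le dr'
  have bb : ∀ {l}, l ≠ j → (base d (2 * r) : Th n) j l = 2 * r := fun z => if_neg z.symm
  have k1 := rows_le h A d0.le dr' d0.le dr' (j := j) N
  rw [tS_eq2, tS_eq2, show (crs {j} 0 : Th n) = 0 from funext₂ fun _ _ => ite_self _, add_zero] at k1
  have le : base d (2 * r) ≤ base d (2 * r) + crs {j} (N * d) :=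
    le_add_of_nonneg_right fun p q => crs_nonneg _ n0.le p q
  have vc := val_base_crs d0.le dr' {j} n0.le
  have k2 := mul_meas_ge_le_integral_of_nonneg ((h.mono _ _ vb vc le).mono fun _ => sub_nonneg.2)
    (h.int _ _ vb vc le) ((1 - η) * (N * d))
  have m2 : ∀ s t, Measurable fun x => f s x - f t x := fun s t => (m s).sub (m t)
  have co : ∀ {Z : X → ℝ} (c : ℝ), Measurable Z → μ.real {x | c ≤ Z x} = 1 - μ.real {x | Z x < c} :=
    fun c w => by
      rw [← probReal_compl_eq_one_sub (measurableSet_lt w measurable_const)]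
      simp only [Set.compl_setOf, not_lt]
  rw [co _ (m2 _ _)] at k2
  have k3 : ∀ l ∈ ({j}ᶜ : Finset _).erase k, ∫ x, J f (base d (2 * r)) j l (2 * r + d) x ∂μ + C ≤
      1 + d * η + 2 * C := fun l hl => by
    have z : l ≠ k ∧ l ≠ j := by simpa using hl
    have := tl _ j l (2 * r + d) z.2.symm vb (vu z.2) (by rw [bb z.2]; linarith)
    rw [bb z.2, add_sub_cancel_left] at this
    have := mean_le (m2 _ _) (h.int _ _ vb (vu z.2) (le_up (by rw [bb z.2]; linarith)))
      d0.le this 1
    have := mul_le_mul_of_nonneg_left (nl l z.2 z.1) d0.le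
    rw [abs_one] at *
    unfold J at *
    linarith
  have v0 := val_bs jk d0.le dr le_rfl (by linarith : 0 ≤ 2 * r)
  have v1 : Val d (up (bs d j k 0 r) j k d) := by rw [up_bs]; exact val_bs jk d0.le dr d0.le dr'
  have k4 := step_le h (A (Pi.single j (-r) + Pi.single k r)) d0.le v0
    (by rwa [bs_self, zero_add]) vb (by rw [bb jk.symm]; exact vu jk.symm) (fun p q => ?_)
    (by rw [bb jk.symm]; simp [jk, jk.symm]; ring)
  · have k5 := tl _ j k d jk v0 v1 (by rw [bs_self]; exact d0.le)
    rw [bs_self, sub_zero] at k5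
    have k6 := mean_le (m2 _ _) (h.int _ _ v0 v1 (le_up (by rw [bs_self]; exact d0.le)))
      d0.le k5 H
    rw [co _ (m2 _ _)] at k6
    rw [bs_self, zero_add, bb jk.symm] at k4
    have k7 := sum_le_card_nsmul _ _ _ k3
    have k8 : (#(({j}ᶜ : Finset _).erase k) : ℝ) ≤ n := by
      exact_mod_cast (card_le_univ _).trans_eq (Fintype.card_fin n)
    rw [← add_sum_erase _ _ (by simpa using jk.symm : k ∈ ({j}ᶜ : Finset _))] at k1
    rw [nsmul_eq_mul] at k7
    have k9 := mul_le_mul_of_nonneg_right k8 (by positivity : 0 ≤ 1 + d * η + 2 * C)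
    rw [I_eq]
    unfold J at *
    set p := μ.real {x | f (up (bs d j k 0 r) j k d) x - f (bs d j k 0 r) x < H}
    have e1 : η ≤ 1 ∨ 1 ≤ ε := by
      by_contra! z
      rw [hη, lt_div_iff₀ (by positivity)] at z
      nlinarith
    rcases e1 with e1 | e1
    · have e2 := mul_le_mul_of_nonneg_left (sub_le_sub_left g 1)
        (mul_nonneg (sub_nonneg.2 e1) n0.le)
      have e3 : N * ((1 - η) * d * (1 - η)) ≤ N * (|H| + d * (1 - p) + 3 * C +
          n * (1 + d * η + 2 * C)) := by
        refine le_trans (by linarith) (k1.trans (mul_le_mul_of_nonneg_left (by linarith) N.cast_nonneg))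
      have e4 := le_of_mul_le_mul_left e3 (by positivity)
      rw [div_le_iff₀ hε] at h0
      have e5 : (n + 2) * η = ε / 2 := by rw [hη]; field_simp
      refine le_of_mul_le_mul_left ?_ d0
      nlinarith [mul_pos d0 (mul_pos e0 e0)]
    · exact measureReal_le_one.trans e1
  · by_cases z : p = j ∧ q = k
    · simp [z.1, z.2, bb jk.symm, dl, jk, jk.symm]; linarith
    · by_cases z' : p = q
      · simp [z', bs_diag jk, base, dl]
      · simp only [bs_ne z' z, base, if_neg z', Pi.add_apply, dl, Pi.single_apply]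
        split_ifs with a b c e <;> first | linarith | exact absurd ⟨‹p = j›, ‹q = k›⟩ z

end Vale.Agent.P007M.C2
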