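import Vale.Agent.P007M.Reg

/-! The statement of the Heisenberg lemma. -/

open MeasureTheory

namespace Vale.Agent.P007M

open Reg

/-- information in the entries `ji` and `ik` forces information in the entry `jk` -/
def Heis {n : ℕ} {X : Type} [MeasurableSpace X] (μ : Measure X) (f : Th n → X → ℝ)
    (d a CH : ℝ) : Prop :=
  ∀ r R Λ C θ η h l₁ l₂ s : ℝ, 0 < η → 0 ≤ C → Rg μ f d r R Λ C → d ≤ r → 0 < Λ → Λ ≤ r →
    6 * r ≤ θ → θ + 5 * r ≤ R → 0 ≤ l₁ → 0 ≤ l₂ → l₁ + l₂ + a ≤ s → s ≤ Λ → s ≤ d →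
    CH * (C + 1) / η ≤ h → ∀ j i k : Fin n, j ≠ i → i ≠ k → j ≠ k →
      μ.real {x | h ≤ I f d θ j i l₁ x ∧ h ≤ I f d θ i k l₂ x ∧ I f d θ j k s x < h / 4} ≤ η

end Vale.Agent.P007M
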