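import Vale.Agent.P007M.Dense
import Vale.Agent.P007M.Ifc
import Vale.Agent.P007M.HDef
import Vale.Agent.P007M.Comb

/-!
# P007M: the abstract core; a gain of information gives large information in all entries
-/

set_option linter.all false

open MeasureTheory Finset

namespace Vale.Agent.P007M

open Reg hiding Heis

noncomputable section

variable {n : ℕ}

/-- the gain of information, for the subsets of the block `b` -/
def GainB {X : Type} [MeasurableSpace X] (μ : Measure X) (f : Th n → X → ℝ) (b : Finset (Fin n))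
    (d c₀ K η r₁ R₁ : ℝ) : Prop :=
  ∀ S : Finset (Fin n), S.Nonempty → S ⊂ b → ∀ r τ : ℝ, r₁ ≤ r → K * r ≤ τ → τ ≤ R₁ →
    μ.real {x | f (base d r + crs S τ) x - f (base d r) x < c₀ * τ} ≤ η

/-- there is no information in the entries that leave the block `b` -/
def Null {X : Type} [MeasurableSpace X] (μ : Measure X) (f : Th n → X → ℝ) (b : Finset (Fin n))
    (d η r₁ R₁ : ℝ) : Prop :=
  ∀ j ∈ b, ∀ k ∉ b, ∀ r l : ℝ, r₁ ≤ r → 0 ≤ l → l ≤ r → r + l ≤ R₁ →
    μ.real {x | 1 ≤ J f (base d r) j k (r + l) x} ≤ η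

theorem tS_eq (d r : ℝ) (S : Finset (Fin n)) (a : ℝ) : tS d r S a = base d r + crs S a := by
  funext p q
  by_cases e : p = q
  · simp [tS, base, crs, e]
  · by_cases h : p ∈ S ∧ q ∉ S <;> simp [tS, base, crs, e, h]

theorem tS_zero (d r : ℝ) (S : Finset (Fin n)) : tS d r S 0 = base d r := by
  funext p q
  simp [tS, base]

section

variable {X : Type} [MeasurableSpace X] {μ : Measure X} [IsProbabilityMeasure μ]
  {f : Th n → X → ℝ} {T : (Fin n → ℝ) → X → X} {d r R r' L Λ C η : ℝ} {j k : Fin n}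

theorem meas_I (mf : ∀ t, Measurable (f t)) (h l : ℝ) : MeasurableSet {x | h ≤ I f d r j k l x} :=
  measurableSet_le measurable_const ((mf _).sub (mf _))

/-- no information at the small scale, no information at the level zero -/
theorem off_small {ρ h0 : ℝ} (g : Rg μ f d r R Λ C) (A : ∀ u, Act μ f d (L • u) (T u)) (d0 : 0 ≤ d)
    (dr : d ≤ r) (hL : 0 ≤ L) (hΛ : L ≤ Λ) (hr : Λ ≤ 2 * r) (hρ : 0 ≤ ρ) (h1 : 2 * r ≤ ρ * L)
    (h2 : (2 * ρ + 1) * L ≤ R) (i1 : r ≤ r') (i2 : r' ≤ R) (e : j ≠ k) (hη : 0 < η) (hC : 0 < C)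
    (hh : 1 + C / η ≤ h0) (mf : ∀ t, Measurable (f t))
    (nul : μ.real {x | 1 ≤ J f (base d (ρ * L)) j k (ρ * L + L) x} ≤ η) :
    μ.real {x | h0 ≤ I f d r' j k L x} ≤ 2 * η := by
  obtain ⟨z1, z2⟩ := g.eqv (A _) e hL le_rfl (by linarith) hr
    (in_ar (S := {j}) (empty_subset _) (mem_singleton_self j) (by simpa using e.symm)
      (notMem_empty _) d0 dr hL (by linarith) hρ le_rfl h1 (by simpa using h2))
    (in_bs e d0 dr le_rfl (by linarith) i1 i2)
  have b : (base d (ρ * L) : Th n) j k = ρ * L := if_neg e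
  simp only [ar_empty, zero_mul, tS_zero, zero_add, ← I_eq, b] at z1 z2
  rw [← (A (sh {j} ρ j k (-(ρ + 0)))).mp.measureReal_preimage (meas_I mf _ _).nullMeasurableSet]
  refine le_trans (measureReal_mono fun x hx => ?_) ((measureReal_union_le _ _).trans
    ((add_le_add nul (markov z1 z2 hη hC)).trans_eq (two_mul η).symm))
  by_contra k
  obtain ⟨k1, k2⟩ := not_or.1 k
  simp only [Set.mem_setOf_eq, not_le, Set.mem_preimage] at k1 k2 hx
  linarith [(abs_lt.1 k2).1]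

open Classical in
theorem sm_cnt {ι : Type*} (s : Finset ι) {E : ι → Set X} (hm : ∀ i, MeasurableSet (E i))
    (h : ∀ i ∈ s, μ.real (E i) ≤ η) : Sm μ (fun x => (#{i ∈ s | x ∈ E i} : ℝ)) (#s * η) := by
  refine (Sm.sum (Z := fun i => (E i).indicator 1) s fun i hi =>
    ⟨(integrable_const 1).indicator (hm i), ?_⟩).cast (fun x => ?_) le_rfl
  · refine le_of_eq_of_le ((integral_congr_ae (ae_of_all _ fun x => ?_)).trans
      (integral_indicator_one (hm i))) (h i hi)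
    exact abs_of_nonneg (Set.indicator_nonneg (fun _ _ => zero_le_one) x)
  · simp only [Set.indicator_apply, Pi.one_apply, sum_boole]

open Classical in
/-- the entries that leave the block can be dropped -/
theorem blk {b S : Finset (Fin n)} (hS : S ⊆ b) {G : Fin n → Fin n → ℤ → Set X}
    (mG : ∀ j k s, MeasurableSet (G j k s)) {N : ℕ} (hN : 1 ≤ N) {c η' : ℝ} (hc : 0 < c)
    (hη : 0 < η') (hn : 0 < n) (off : ∀ j ∈ b, ∀ k ∉ b, ∀ s, μ.real (G j k s) ≤ η')
    (h : μ.real {x | ((∑ j ∈ S, ∑ k ∈ Sᶜ, #{s ∈ Icc (-(N : ℤ)) N | x ∈ G j k s} : ℕ) : ℝ) <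
      2 * c * N} ≤ η) :
    μ.real {x | ((∑ j ∈ S, ∑ k ∈ b \ S, #{s ∈ Icc (-(N : ℤ)) N | x ∈ G j k s} : ℕ) : ℝ) < c * N} ≤
      η + 3 * n ^ 2 * η' / c := by
  have n0 : (0 : ℝ) < n := by exact_mod_cast hn
  have N0 : (1 : ℝ) ≤ N := by exact_mod_cast hN
  have cd : ∀ S : Finset (Fin n), #S ≤ n := fun S =>
    (card_le_univ S).trans_eq (Fintype.card_fin n)
  have ci : (#(Icc (-(N : ℤ)) N) : ℝ) ≤ 3 * N := by
    have : #(Icc (-(N : ℤ)) N) ≤ 3 * N := by
      rw [Int.card_Icc]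
      omega
    exact_mod_cast this
  have z := (Sm.sum S fun j hj => Sm.sum bᶜ fun k hk => sm_cnt (Icc (-(N : ℤ)) N) (mG j k)
    fun s _ => off j (hS hj) k (mem_compl.1 hk) s).cast (fun _ => rfl)
      (C' := n * (n * (3 * N * η'))) (by gcongr <;> apply cd)
  have mk := markov (η := 3 * n ^ 2 * η' / c) z.1 z.2 (by positivity) (by positivity)
  rw [show n * (n * (3 * N * η')) / (3 * n ^ 2 * η' / c) = c * N by field_simp] at mk
  refine le_trans (measureReal_mono fun x hx => ?_)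
    ((measureReal_union_le _ _).trans (add_le_add h mk))
  by_contra k
  obtain ⟨k1, k2⟩ := not_or.1 k
  simp only [Set.mem_setOf_eq, not_le, not_lt] at k1 k2 hx
  have k3 := (le_abs_self _).trans_lt k2
  simp only [← sum_sdiff (compl_subset_compl.2 hS), compl_sdiff_compl, sum_add_distrib] at k1
  push_cast at k1 hx
  linarith

/-- the upper tail of the information at the level zero -/
theorem tail_I {l : ℝ} (h : Info μ f d C) (tl : Tail μ f d C) (e : j ≠ k) (d0 : 0 ≤ d) (dr : d ≤ r)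
    (hl : 0 ≤ l) (hl' : l ≤ 2 * r) :
    Integrable (I f d r j k l) μ ∧ Sm μ (fun x => (I f d r j k l x - l)⁺) C := by
  have a : Integrable (I f d r j k l) μ :=
    I_eq (f := f) l ▸ h.intJ e le_rfl hl hl' (in_bs e d0 dr le_rfl (by linarith) le_rfl le_rfl)
  refine ⟨a, (a.sub (integrable_const l)).pos_part, ?_⟩
  have := tl _ j k l e (val_bs e d0 dr le_rfl (hl.trans hl')) (by simpa using val_bs e d0 dr hl hl')
    (bs_self.trans_le hl)
  simpa only [abs_of_nonneg (posPart_nonneg _), I_eq, bs_self, sub_zero] using this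

/-- there is a regime of any given relative length -/
theorem scale {K r₁ : ℝ} (h : Info μ f d C) (tl : Tail μ f d C) (d0 : 0 ≤ d) (hK : 1 ≤ K)
    (dr : d ≤ r₁) : ∃ r, r₁ ≤ r ∧ K * r ≤ K ^ (⌊n ^ 2 * (d + C)⌋₊ + 1) * r₁ ∧
      Rg μ f d r (K * r) d (2 + (2 * n ^ 2 + 10) * C) := by
  have r0 := d0.trans dr
  have mo : Monotone fun i : ℕ => K ^ i * r₁ := fun i j e =>
    mul_le_mul_of_nonneg_right (pow_le_pow_right₀ hK e) r0
  obtain ⟨i, hi, g⟩ := h.pigeon _ mo (E := d + C) (M := ⌊n ^ 2 * (d + C)⌋₊ + 1) d0 (by simpa)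
    d0 (by simp only [pow_zero]; linarith) (fun j k e => by
      obtain ⟨a, b, c⟩ := tail_I h tl e d0 dr d0 (by linarith)
      simp only [pow_zero, one_mul, ← I_eq]
      have := int_le_pos (a.sub' (integrable_const d))
      rw [integral_sub a (integrable_const d)] at this
      simp only [abs_of_nonneg (posPart_nonneg _)] at c
      simp only [integral_const, probReal_univ, one_smul] at this
      linarith)
    (by exact_mod_cast Nat.lt_floor_add_one _) (add_nonneg d0 (h.nonneg d0))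
  refine ⟨K ^ i * r₁, by simpa using mo i.zero_le, ?_, ?_⟩
  · rw [← mul_assoc, ← pow_succ']
    exact mo hi
  · rwa [← mul_assoc, ← pow_succ']

end

/-- **CORE**, for a block `b` of indices -/
theorem coreB (n : ℕ) {c₀ K ε C CH : ℝ} (H : ℝ) (hc : 0 < c₀) (hK : 1 ≤ K) (hε : 0 < ε)
    (hC : 0 ≤ C) : ∃ η : ℝ, 0 < η ∧ ∀ a : ℝ, ∃ d Lam : ℝ, 0 < d ∧ 1 ≤ Lam ∧
      ∀ b : Finset (Fin n), 3 ≤ #b → ∀ (X : Type) [MeasurableSpace X] (μ : Measure X)
      [IsProbabilityMeasure μ] (f : Th n → X → ℝ) (T : (Fin n → ℝ) → X → X),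
      Info μ f d C → Tail μ f d C → (∀ t, Measurable (f t)) → (∀ u, Act μ f d u (T u)) →
      (∀ u v x, T (u + v) x = T u (T v x)) → Heis μ f d a CH → ∀ r₁, d ≤ r₁ →
      GainB μ f b d c₀ K η r₁ (Lam * r₁) → Null μ f b d η r₁ (Lam * r₁) →
      ∃ r, r₁ ≤ r ∧ r ≤ Lam * r₁ ∧ ∀ j ∈ b, ∀ k ∈ b, j ≠ k →
        μ.real {x | I f d r j k d x < H} ≤ ε := by
  classical
  obtain ⟨M, Cc, η', η0', cb⟩ := combB n (c₀ / 8) ε (by positivity) hε
  obtain ⟨η, η0, e1, e2⟩ : ∃ η : ℝ, 0 < η ∧ η ≤ η' ∧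
      2 * η + 3 * n ^ 2 * (2 * η) / (c₀ / 8) ≤ η' := by
    have p : (0 : ℝ) ≤ 48 * n ^ 2 / c₀ := by positivity
    refine ⟨η' / (2 + 48 * n ^ 2 / c₀), by positivity, div_le_self η0'.le (by linarith), le_of_eq ?_⟩
    field_simp
    ring
  refine ⟨η, η0, fun a => ?_⟩
  obtain ⟨C0, hC0⟩ : ∃ C0, C0 = 2 + (2 * n ^ 2 + 10) * C := ⟨_, rfl⟩
  have C00 : 0 < C0 := by rw [hC0]; positivity
  have q0 : 0 < C0 / η := by positivity
  obtain ⟨B, B1, B2, B3, B4⟩ : ∃ B, H ≤ B ∧ CH * (C0 + 1) / η ≤ B ∧ 2 * (C0 / η) ≤ B ∧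
      1 + C0 / η ≤ B := ⟨max (max _ _) (max _ _), le_sup_of_le_left le_sup_left,
    le_sup_of_le_left le_sup_right, le_sup_of_le_right le_sup_left, le_sup_of_le_right le_sup_right⟩
  have B0 : 0 < B := by linarith
  obtain ⟨h, hB, h4, ha⟩ : ∃ h : ℕ → ℝ, (∀ m ≤ M, B ≤ h m) ∧ (∀ m, h (m + 1) = h m / 4) ∧
      Antitone h := ⟨fun m => B * 4 ^ M / 4 ^ m, fun m hm => by
      rw [le_div_iff₀ (by positivity)]
      gcongr
      norm_num, fun m => by simp only [pow_succ, div_div], fun m m' e => by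
      dsimp only
      gcongr
      norm_num⟩
  obtain ⟨L, L0, L1, L2⟩ : ∃ L, 0 < L ∧ a ≤ L ∧ n ^ 2 * (h 0 + (C0 + C) / η) ≤ c₀ * L / 2 :=
    ⟨max (max a 1) (n ^ 2 * (h 0 + (C0 + C) / η) * 2 / c₀),
      one_pos.trans_le (le_sup_of_le_left le_sup_right), le_sup_of_le_left le_sup_left, by
      rw [le_div_iff₀ two_pos, ← div_le_iff₀' hc]
      exact le_sup_right⟩
  obtain ⟨l, l0, l3, lm⟩ : ∃ l : ℕ → ℝ, l 0 = L ∧ (∀ m, l (m + 1) = 3 * l m) ∧ Monotone l :=
    ⟨fun m => L * 3 ^ m, by simp, fun m => by ring, fun m m' e => by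
      dsimp only
      gcongr
      norm_num⟩
  have lL : ∀ m, L ≤ l m := fun m => l0 ▸ lm m.zero_le
  have d0 : 0 < l M := L0.trans_le (lL M)
  obtain ⟨K', hK'⟩ : ∃ K' : ℕ, K ≤ K' := ⟨_, Nat.le_ceil K⟩
  have K1 : (1 : ℝ) ≤ K' := hK.trans hK'
  obtain ⟨K2, hK2⟩ : ∃ K2 : ℝ, K2 = 6 * Cc * (1 + K') := ⟨_, rfl⟩
  have K20 : 0 ≤ K2 := by rw [hK2]; positivity
  have Kb : 1 ≤ 11 + 2 * K2 + 3 * K' := by linarith
  refine ⟨l M, _, d0, one_le_pow₀ (n := ⌊n ^ 2 * (l M + C)⌋₊ + 1) Kb,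
    fun b hb X _ μ _ f T hI tl mf A hT he r₁ dr₁ ga nu => ?_⟩
  obtain ⟨r, r1, r2, g⟩ := scale hI tl d0.le Kb dr₁
  rw [← hC0] at g
  have hn : 0 < n := by
    have := (card_le_univ b).trans_eq (Fintype.card_fin n)
    omega
  have dr := dr₁.trans r1
  have r0 := d0.trans_le dr
  have Lr := (lL M).trans dr
  have k2 := mul_nonneg K20 r0.le
  have k3 : r ≤ K' * r := le_mul_of_one_le_left r0.le K1
  obtain ⟨ρ, ρ1, ρ2⟩ : ∃ ρ : ℕ, 2 * r ≤ ρ * L ∧ ρ * L ≤ 3 * r := ⟨⌈2 * r / L⌉₊,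
    (div_le_iff₀ L0).1 (Nat.le_ceil _), by
      have := mul_lt_mul_of_pos_right (Nat.ceil_lt_add_one (a := 2 * r / L) (by positivity)) L0
      rw [add_mul, div_mul_cancel₀ _ L0.ne'] at this
      linarith⟩
  have ρ0 : 0 < ρ := Nat.pos_of_ne_zero fun e => by
    rw [e, Nat.cast_zero] at ρ1
    linarith
  have K0 : 0 < K' := Nat.cast_pos.1 (one_pos.trans_le K1)
  have ρ3 : ((K' * ρ : ℕ) : ℝ) * L ≤ 3 * (K' * r) := by
    have := mul_le_mul_of_nonneg_left ρ2 (Nat.cast_nonneg (α := ℝ) K')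
    push_cast
    linarith
  have ρ4 : ρ * L ≤ ((K' * ρ : ℕ) : ℝ) * L :=
    mul_le_mul_of_nonneg_right (Nat.cast_le.2 (Nat.le_mul_of_pos_left ρ K0)) L0.le
  obtain ⟨r', hr'⟩ : ∃ r', r' = 6 * r + K2 * r := ⟨_, rfl⟩
  generalize hR : (11 + 2 * K2 + 3 * K') * r = R at g r2
  replace hR : R = 11 * r + 2 * (K2 * r) + 3 * (K' * r) := by rw [← hR]; ring
  let E : ℕ → Fin n → Fin n → Set X := fun m j k =>
    ⋃ m' ∈ Set.Iic m, {x | h m' ≤ I f (l M) r' j k (l m') x}
  have mE : ∀ m j k, MeasurableSet (E m j k) := fun m j k =>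
    .biUnion (Set.to_countable _) fun _ _ => meas_I mf _ _
  have E1 : ∀ m j k x, h m ≤ I f (l M) r' j k (l m) x → x ∈ E m j k := fun m j k x hx =>
    Set.mem_biUnion (Set.mem_Iic.2 le_rfl) hx
  have E2 : ∀ m ≤ M, ∀ j k, j ≠ k → ∀ᵐ x ∂μ, x ∈ E m j k → h m ≤ I f (l M) r' j k (l m) x := by
    intro m hm j k e
    have : ∀ m' : Set.Iic m, ∀ᵐ x ∂μ, I f (l M) r' j k (l m') x ≤ I f (l M) r' j k (l m) x :=
      fun m' => hI.I_mono e d0.le (by linarith) (L0.le.trans (lL _)) (lm m'.2)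
        (by linarith [lm hm])
    filter_upwards [ae_all_iff.2 this] with x hx hE
    obtain ⟨m', a1, a2⟩ := Set.mem_iUnion₂.1 hE
    exact ((ha a1).trans a2).trans (hx ⟨m', a1⟩)
  have A' : ∀ u, Act μ f (l M) (L • u) (T (L • u)) := fun u => A _
  have key := cb X μ (fun u => T (L • u)) E {0, -1} (ρ + K' * ρ) b hb (by omega)
    (fun u => (A _).mp) (fun u v x => by simp only [smul_add, hT]) mE
    (fun m _ j _ k _ _ => Set.biUnion_subset_biUnion_left (Set.Iic_subset_Iic.2 m.le_succ))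
    (by simp) (by simp) (fun m hm j _ k _ e u hu hs => ?_) (fun m hm i _ j _ k _ ij ik jk => ?_)
    fun S hS S0 S1 => ?_
  · refine ⟨r', by linarith, by linarith, fun j hj k hk e => le_trans
      (ENNReal.toReal_mono (measure_ne_top _ _) (measure_mono_ae ?_)) (key j hj k hk e)⟩
    filter_upwards [E2 M le_rfl j k e] with x hx a1 a2
    exact absurd (B1.trans ((hB M le_rfl).trans (hx a2))) (not_le.2 a1)
  · have hs' : 0 ≤ u k - u j ∧ u k - u j ≤ 1 := by
      rcases hs with hs | hs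
      · constructor <;> linarith
      · constructor <;> linarith [Set.mem_singleton_iff.1 hs]
    have s1 := mul_le_mul_of_nonneg_left hs'.1 L0.le
    have s2 := mul_le_mul_of_nonneg_left hs'.2 L0.le
    have bd : ∀ p, |L * u p| ≤ K2 * r / 2 := fun p => by
      have a1 := mul_le_mul_of_nonneg_left ((norm_le_pi_norm u p).trans hu) L0.le
      have a2 := mul_le_mul_of_nonneg_left (add_le_add ρ2 ρ3) (Nat.cast_nonneg (α := ℝ) Cc)
      rw [abs_mul, abs_of_pos L0, hK2]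
      rw [Nat.cast_add, Real.norm_eq_abs] at a1
      linarith
    refine le_trans (g.step (u := -(L • u)) (W := K2 * r) (r' := r') hI (by rw [neg_neg]; exact A _)
      e d0.le dr (L0.le.trans (lL m)) ?_ ?_ (lm (Nat.succ_le_of_lt hm)) (by linarith)
      (fun p q => ?_) (by linarith) (by linarith) η0 C00 (E2 m hm.le j k e)
      (ae_of_all _ fun x hx => E1 _ _ _ _ (le_trans ?_ hx))) e1
    · simp only [Pi.neg_apply, Pi.smul_apply, smul_eq_mul]
      linarith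
    · simp only [Pi.neg_apply, Pi.smul_apply, smul_eq_mul, l3]
      linarith [lL m]
    · simp only [Pi.neg_apply, Pi.smul_apply, smul_eq_mul]
      linarith [(abs_le.1 (bd p)).1, (abs_le.1 (bd q)).2]
    · linarith [h4 m, hB m hm.le]
  · have a0 := L0.le.trans (lL m)
    refine le_trans (ENNReal.toReal_mono (measure_ne_top _ _) (measure_mono_ae ?_))
      ((he r R (l M) C0 r' η (h m) (l m) (l m) (l (m + 1)) η0 C00.le g dr d0 dr (by linarith)
        (by linarith) a0 a0 (by linarith [l3 m, lL m]) (lm hm) (lm hm) (B2.trans (hB m hm.le))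
        j i k ij.symm ik jk).trans e1)
    filter_upwards [E2 m hm.le j i ij.symm, E2 m hm.le i k ik] with x a1 a2 hx
    exact ⟨a1 hx.1.1, a2 hx.1.2, not_le.1 fun e => hx.2 (E1 _ _ _ _ ((h4 m).trans_le e))⟩
  · have hB0 := hB 0 M.zero_le
    obtain ⟨u, u1, u2⟩ := dense (S := S) (c := c₀) (h0 := h 0) (ρ := ρ) (N := K' * ρ) (E := E 0) g A'
      d0.le dr L0 (lL M) (by linarith) ρ1 (by linarith) (r' := r') (by linarith) (by linarith)
      (Nat.mul_pos K0 ρ0) η0 C00 hC (by linarith) hn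
      (fun j k e => (tail_I hI tl e d0.le (by linarith) L0.le (by linarith)).2) L2
      (fun j k _ => ae_of_all _ fun x hx => E1 0 j k x (by rwa [l0])) (by
        rw [tS_eq, tS_zero]
        refine ga S S0 (ssubset_of_subset_of_ne hS S1) _ _ (by linarith) ?_ (by linarith)
        have := mul_le_mul_of_nonneg_right hK' (mul_nonneg (Nat.cast_nonneg (α := ℝ) ρ) L0.le)
        push_cast
        linarith)
    refine ⟨u, fun j hj k hk s hs => ?_, le_trans (blk (η := 2 * η) (η' := 2 * η) hS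
      (G := fun j k s => T (L • u j k s) ⁻¹' E 0 j k) (fun j k s => (A _).mp.measurable (mE 0 j k))
      (by omega) (by positivity) (by positivity) hn (fun j hj k hk s => ?_)
      (le_trans (measureReal_mono fun x hx => ?_) u2)) e2⟩
    · obtain ⟨a1, a2, -⟩ := u1 j hj k (mem_sdiff.1 hk).2 s hs
      exact ⟨a1, .inl (sub_eq_zero.2 a2)⟩
    · have e : j ≠ k := fun e => hk (e ▸ hj)
      rw [(A _).mp.measureReal_preimage (mE 0 j k).nullMeasurableSet]
      refine le_trans (ENNReal.toReal_mono (measure_ne_top _ _) (measure_mono_ae ?_))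
        (off_small (h0 := h 0) (r' := r') g A' d0.le dr L0.le (lL M) (by linarith)
          (Nat.cast_nonneg ρ) ρ1 (by linarith) (by linarith) (by linarith) e η0 C00 (B4.trans hB0) mf
          (nu j hj k hk _ _ (by linarith) L0.le (by linarith) (by linarith)))
      exact l0 ▸ E2 0 M.zero_le j k e
    · refine (Set.mem_setOf_eq ▸ hx :).trans_le ?_
      have := mul_le_mul_of_nonneg_left (le_of_mul_le_mul_right ρ4 L0) hc.le
      rw [Nat.cast_add]
      linarith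

/-- **CORE** -/
theorem core (hn : 3 ≤ n) {c₀ K ε C CH : ℝ} (H : ℝ) (hc : 0 < c₀) (hK : 1 ≤ K) (hε : 0 < ε)
    (hC : 0 ≤ C) : ∃ η : ℝ, 0 < η ∧ ∀ a : ℝ, ∃ d Lam : ℝ, 0 < d ∧ 1 ≤ Lam ∧
      ∀ (X : Type) [MeasurableSpace X] (μ : Measure X)
      [IsProbabilityMeasure μ] (f : Th n → X → ℝ) (T : (Fin n → ℝ) → X → X),
      Info μ f d C → Tail μ f d C → (∀ t, Measurable (f t)) → (∀ u, Act μ f d u (T u)) →
      (∀ u v x, T (u + v) x = T u (T v x)) → Heis μ f d a CH → ∀ r₁, d ≤ r₁ →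
      Gain μ f d c₀ K η r₁ (Lam * r₁) → ∃ r, r₁ ≤ r ∧ r ≤ Lam * r₁ ∧ ∀ j k, j ≠ k →
        μ.real {x | I f d r j k d x < H} ≤ ε := by
  obtain ⟨η, η0, h⟩ := coreB n (CH := CH) H hc hK hε hC
  refine ⟨η, η0, fun a => ?_⟩
  obtain ⟨d, Lam, d0, L1, h⟩ := h a
  refine ⟨d, Lam, d0, L1, fun X _ μ _ f T a1 a2 a3 a4 a5 a6 r₁ dr ga => ?_⟩
  obtain ⟨r, r1, r2, h⟩ := h univ (by simpa) X μ f T a1 a2 a3 a4 a5 a6 r₁ dr
    (fun S S0 S1 => ga S S0 S1.ne) fun j _ k hk => absurd (mem_univ k) hk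
  exact ⟨r, r1, r2, fun j k => h j (mem_univ j) k (mem_univ k)⟩

end

end Vale.Agent.P007M
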