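import Vale.Agent.P007M.Reg

/-!
# P007M: the chain rule; a gain of information gives many positions with large information
-/

set_option linter.all false

open MeasureTheory Finset

namespace Vale.Agent.P007M.Reg

noncomputable section

variable {n : ℕ}

/-- thickness `r`, and `r + a` on `S × Sᶜ` -/
def tS (d r : ℝ) (S : Finset (Fin n)) (a : ℝ) : Th n := fun p q =>
  if p = q then d else if p ∈ S ∧ q ∉ S then r + a else r

/-- the intermediate arrays -/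
def ar (d r L : ℝ) (S : Finset (Fin n)) (a : ℝ) (P : Finset (Fin n × Fin n)) : Th n := fun p q =>
  tS d r S a p q + if (p, q) ∈ P then L else 0

/-- the shift that moves the step at the entry `(j, k)` into the regime -/
def sh (S : Finset (Fin n)) (ρ : ℝ) (j k : Fin n) (s : ℝ) : Fin n → ℝ := fun p =>
  (if p ∈ S then s + ρ else 0) - (if p = j then ρ / 2 else 0) + if p = k then ρ / 2 else 0

variable {d r R r' L a Λ C C' : ℝ} {S : Finset (Fin n)} {P : Finset (Fin n × Fin n)} {j k : Fin n}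

theorem ar_empty : ar d r L S a ∅ = tS d r S a := by
  funext p q
  simp [ar]

theorem ar_full : ar d r L S a (S ×ˢ Sᶜ) = tS d r S (a + L) := by
  funext p q
  by_cases e : p = q
  · simp [ar, tS, e]
  by_cases h : p ∈ S ∧ q ∉ S
  · simp [ar, tS, e, h, add_assoc]
  · simp [ar, tS, e, h]

theorem ar_insert (h : (j, k) ∉ P) :
    ar d r L S a (insert (j, k) P) = up (ar d r L S a P) j k (ar d r L S a P j k + L) := by
  funext p q
  by_cases e : p = j ∧ q = k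
  · simp [e.1, e.2, ar, h]
  · rw [up_ne e]
    simp [ar, e]

theorem ar_cases (hP : P ⊆ S ×ˢ Sᶜ) (hL : 0 ≤ L) (p q : Fin n) :
    (p = q ∧ ar d r L S a P p q = d) ∨ (p ≠ q ∧ ¬(p ∈ S ∧ q ∉ S) ∧ ar d r L S a P p q = r) ∨
      (p ∈ S ∧ q ∉ S ∧ r + a ≤ ar d r L S a P p q ∧ ar d r L S a P p q ≤ r + a + L) := by
  by_cases h : p ∈ S ∧ q ∉ S
  · have e : p ≠ q := fun e => h.2 (e ▸ h.1)
    refine .inr (.inr ⟨h.1, h.2, ?_⟩)
    simp only [ar, tS, if_neg e, if_pos h]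
    split_ifs <;> constructor <;> linarith
  · have h' : (p, q) ∉ P := fun k => h (by simpa using hP k)
    by_cases e : p = q
    · exact .inl ⟨e, by simp only [ar, tS, if_pos e, if_neg h', add_zero]⟩
    · exact .inr (.inl ⟨e, h, by simp only [ar, tS, if_neg e, if_neg h, if_neg h', add_zero]⟩)

theorem val_ar (hP : P ⊆ S ×ˢ Sᶜ) (d0 : 0 ≤ d) (dr : d ≤ r) (hL : 0 ≤ L) (hLr : L ≤ r)
    (ha : 0 ≤ a) : Val d (ar d r L S a P) := by
  refine ⟨fun p => ?_, fun p l q => ?_⟩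
  · rcases ar_cases (d := d) (r := r) (a := a) hP hL p p with h | h | h
    exacts [h.2, absurd rfl h.1, absurd h.1 h.2.1]
  by_cases e2 : p = l
  · subst e2
    rcases ar_cases (d := d) (r := r) (a := a) hP hL p p with h | h | h
    exacts [by linarith [h.2], absurd rfl h.1, absurd h.1 h.2.1]
  by_cases e3 : l = q
  · subst e3
    rcases ar_cases (d := d) (r := r) (a := a) hP hL l l with h | h | h
    exacts [by linarith [h.2], absurd rfl h.1, absurd h.1 h.2.1]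
  rcases ar_cases (d := d) (r := r) (a := a) hP hL p l with ⟨b, -⟩ | ⟨-, b1, b2⟩ | ⟨b1, b2, b3, -⟩
  · exact absurd b e2
  all_goals
    rcases ar_cases (d := d) (r := r) (a := a) hP hL l q with ⟨c, -⟩ | ⟨-, c1, c2⟩ | ⟨c1, c2, c3, -⟩
    · exact absurd c e3
    all_goals
      rcases ar_cases (d := d) (r := r) (a := a) hP hL p q with ⟨-, f⟩ | ⟨-, -, f⟩ | ⟨f1, f2, -, f⟩
      all_goals first
        | linarith
        | exact absurd ⟨not_not.1 fun h => b1 ⟨f1, h⟩, f2⟩ c1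

theorem val_tS (d0 : 0 ≤ d) (dr : d ≤ r) (ha : 0 ≤ a) : Val d (tS d r S a) :=
  ar_empty (L := 0) ▸ val_ar (empty_subset _) d0 dr le_rfl (d0.trans dr) ha

theorem sh_sub {ρ s : ℝ} (hj : j ∈ S) (hk : k ∉ S) : sh S ρ j k s j - sh S ρ j k s k = s := by
  have e : j ≠ k := fun e => hk (e ▸ hj)
  simp [sh, hj, hk, e, e.symm]
  ring

theorem norm_sh {ρ s N : ℝ} (hj : j ∈ S) (hk : k ∉ S) (h0 : 0 ≤ ρ) (h1 : s ≤ -ρ) (h2 : -N ≤ s) :
    ‖sh S ρ j k s‖ ≤ N := by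
  refine (pi_norm_le_iff_of_nonneg (by linarith)).2 fun p => abs_le.2 ?_
  by_cases a : p = j
  · have e : j ≠ k := fun e => hk (e ▸ hj)
    simp only [sh, a, if_pos hj, if_neg e, if_true]
    constructor <;> linarith
  by_cases b : p = k
  · simp only [sh, if_neg a, if_neg (b ▸ hk : p ∉ S), if_pos b]
    constructor <;> linarith
  simp only [sh, if_neg a, if_neg b]
  split_ifs <;> constructor <;> linarith

theorem sh_bd {ρ s : ℝ} {p q : Fin n} (e : j ≠ k) (hρ : 0 ≤ ρ) (h : ¬(p = j ∧ q = k)) :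
    ∃ y, -(ρ / 2) ≤ y ∧ y ≤ ρ ∧ sh S ρ j k s p - sh S ρ j k s q =
      (if p ∈ S then s + ρ else 0) - (if q ∈ S then s + ρ else 0) + y := by
  refine ⟨(if q = j then ρ / 2 else 0) - (if q = k then ρ / 2 else 0) -
    (if p = j then ρ / 2 else 0) + if p = k then ρ / 2 else 0, ?_, ?_, by simp only [sh]; ring⟩
  · split_ifs with a b c <;> first
      | linarith
      | exact absurd ⟨‹p = j›, ‹q = k›⟩ h
  · split_ifs <;> linarith

/-- the steps of the chain are in the regime after the shift -/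
theorem in_ar {ρ m : ℝ} (hP : P ⊆ S ×ˢ Sᶜ) (hj : j ∈ S) (hk : k ∉ S) (h : (j, k) ∉ P) (d0 : 0 ≤ d)
    (dr : d ≤ r) (hL : 0 ≤ L) (hLr : L ≤ ρ * L) (hρ : 0 ≤ ρ) (hm : 0 ≤ m) (h1 : 2 * r ≤ ρ * L)
    (h2 : (2 * ρ + m + 1) * L ≤ R) :
    In d r R j k 0 (ar d (ρ * L) L S (m * L) P + dl (L • sh S ρ j k (-(ρ + m)))) := by
  have e : j ≠ k := fun e => hk (e ▸ hj)
  have hm' := mul_nonneg hm hL
  refine ⟨d0, dr, (val_ar hP d0 (by linarith) hL hLr hm').shift _, ?_, fun p q e1 e2 => ?_⟩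
  · simp only [Pi.add_apply, dl, Pi.smul_apply, smul_eq_mul, ← mul_sub, sh_sub hj hk, ar, tS,
      if_neg e, if_pos (And.intro hj hk), if_neg h]
    ring
  · obtain ⟨y, y1, y2, y3⟩ := sh_bd (S := S) (s := -(ρ + m)) e hρ e2
    have y4 := mul_le_mul_of_nonneg_left y1 hL
    have y5 := mul_le_mul_of_nonneg_left y2 hL
    simp only [Pi.add_apply, dl, Pi.smul_apply, smul_eq_mul, ← mul_sub, y3]
    rcases ar_cases (d := d) (r := ρ * L) (a := m * L) hP hL p q with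
      b | ⟨-, b1, b2⟩ | ⟨b1, b2, b3, b4⟩
    · exact absurd b.1 e1
    · rw [b2]
      split_ifs with c1 c2
      · constructor <;> linarith
      · exact absurd ⟨c1, c2⟩ b1
      all_goals constructor <;> linarith
    · rw [if_pos b1, if_neg b2]
      constructor <;> linarith

variable {X : Type*} [MeasurableSpace X] {μ : Measure X} {f : Th n → X → ℝ}
  {T : (Fin n → ℝ) → X → X}

/-- functions that are small in the mean -/
def Sm (μ : Measure X) (Z : X → ℝ) (C : ℝ) : Prop := Integrable Z μ ∧ ∫ x, |Z x| ∂μ ≤ C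

theorem Sm.add {Z Z' : X → ℝ} (h : Sm μ Z C) (h' : Sm μ Z' C') :
    Sm μ (fun x => Z x + Z' x) (C + C') :=
  ⟨h.1.add h'.1, (integral_mono (h.1.add h'.1).abs (h.1.abs.add h'.1.abs) fun x =>
    abs_add_le _ _).trans ((integral_add h.1.abs h'.1.abs).trans_le (add_le_add h.2 h'.2))⟩

theorem Sm.cast {Z Z' : X → ℝ} (h : Sm μ Z C) (e : ∀ x, Z' x = Z x) (e' : C ≤ C') : Sm μ Z' C' :=
  funext e ▸ ⟨h.1, h.2.trans e'⟩

theorem sm_zero : Sm μ (fun _ => 0) 0 := ⟨integrable_zero _ _ _, by simp⟩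

theorem Sm.sum {ι : Type*} {Z : ι → X → ℝ} (s : Finset ι) (h : ∀ i ∈ s, Sm μ (Z i) C) :
    Sm μ (fun x => ∑ i ∈ s, Z i x) (#s * C) := by
  classical
  induction s using Finset.induction_on with
  | empty => simpa using sm_zero
  | insert i s hi ih =>
    exact ((h i (mem_insert_self _ _)).add (ih fun i hi => h i (mem_insert_of_mem hi))).cast
      (fun x => sum_insert hi) (by rw [card_insert_of_notMem hi]; push_cast; linarith)

theorem Sm.comp {Z : X → ℝ} (h : Sm μ Z C) {S : X → X} (hS : MeasurePreserving S μ μ) :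
    Sm μ (fun x => Z (S x)) C := by
  refine ⟨hS.integrable_comp_of_integrable h.1, le_of_eq_of_le ?_ h.2⟩
  conv_rhs => rw [← hS.map_eq]
  exact (integral_map hS.measurable.aemeasurable
    (by rw [hS.map_eq]; exact h.1.abs.aestronglyMeasurable)).symm

section chain

variable {ρ : ℝ} (g : Rg μ f d r R Λ C) (A : ∀ u, Act μ f d (L • u) (T u)) (d0 : 0 ≤ d)
  (dr : d ≤ r) (hL : 0 ≤ L) (hΛ : L ≤ Λ) (hr : Λ ≤ 2 * r) (hρ : 0 ≤ ρ) (h1 : 2 * r ≤ ρ * L)
  (i1 : r ≤ r') (i2 : r' ≤ R)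
include g A d0 dr hL hΛ hr hρ h1 i1 i2

theorem chain1 {m : ℝ} (hm : 0 ≤ m) (h2 : (2 * ρ + m + 1) * L ≤ R) (hP : P ⊆ S ×ˢ Sᶜ) :
    Sm μ (fun x => f (ar d (ρ * L) L S (m * L) P) x - f (tS d (ρ * L) S (m * L)) x -
      ∑ p ∈ P, I f d r' p.1 p.2 L (T (sh S ρ p.1 p.2 (-(ρ + m))) x)) (#P * C) := by
  induction P using Finset.induction_on with
  | empty => simpa [ar_empty] using sm_zero
  | insert p P hp ih =>
    obtain ⟨j, k⟩ := p
    obtain ⟨hj, hk⟩ : j ∈ S ∧ k ∉ S := by simpa using hP (mem_insert_self _ _)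
    have e : j ≠ k := fun e => hk (e ▸ hj)
    have hP' := (subset_insert _ _).trans hP
    have := g.eqv (A _) e hL le_rfl (by linarith) hr
      (in_ar hP' hj hk hp d0 dr hL (by linarith) hρ hm h1 h2)
      (in_bs e d0 dr le_rfl (by linarith) i1 i2)
    refine ((ih hP').add this).cast (fun x => ?_) ?_
    · rw [sum_insert hp, ar_insert hp, zero_add, ← I_eq, J]
      ring
    · rw [card_insert_of_notMem hp]
      push_cast
      linarith

theorem chain2 (N : ℕ) (h2 : (2 * ρ + N) * L ≤ R) :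
    Sm μ (fun x => f (tS d (ρ * L) S (N * L)) x - f (tS d (ρ * L) S 0) x - ∑ m ∈ range N,
      ∑ p ∈ S ×ˢ Sᶜ, I f d r' p.1 p.2 L (T (sh S ρ p.1 p.2 (-(ρ + m))) x))
        (N * (#(S ×ˢ Sᶜ) * C)) := by
  have := Sm.sum (range N) fun m hm => chain1 g A d0 dr hL hΛ hr hρ h1 i1 i2 (m := m) (Nat.cast_nonneg m)
    (le_trans (mul_le_mul_of_nonneg_right (by
      have : (m : ℝ) + 1 ≤ N := by exact_mod_cast mem_range.1 hm
      linarith) hL) h2) (subset_rfl (a := S ×ˢ Sᶜ))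
  refine this.cast (fun x => ?_) (by rw [card_range])
  have e := sum_range_sub (fun m : ℕ => f (tS d (ρ * L) S (m * L)) x) N
  simp only [Nat.cast_zero, zero_mul, Nat.cast_succ, add_one_mul] at e
  simp only [ar_full, sum_sub_distrib, ← e]

end chain

theorem card_pairs (S : Finset (Fin n)) : (#(S ×ˢ Sᶜ) : ℝ) ≤ n ^ 2 := by
  have := card_le_univ (S ×ˢ Sᶜ)
  simp only [Fintype.card_prod, Fintype.card_fin, ← sq] at this
  exact_mod_cast this

/-- the upper tails of the information -/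
def Tail (μ : Measure X) (f : Th n → X → ℝ) (d C : ℝ) : Prop :=
  ∀ t j k b, j ≠ k → Val d t → Val d (up t j k b) → t j k ≤ b →
    ∫ x, (J f t j k b x - (b - t j k))⁺ ∂μ ≤ C

/-- **HEIS**, the Heisenberg step -/
def Heis (μ : Measure X) (f : Th n → X → ℝ) (d θ κ K B C η : ℝ) : Prop :=
  ∀ r r' R Λ h l i j k, Rg μ f d r R Λ C → B ≤ h → B ≤ l → κ * l ≤ Λ → Λ ≤ d → K * d ≤ r →
    K * r ≤ r' → K * r' ≤ R → i ≠ j → i ≠ k → j ≠ k →
    μ.real {x | h ≤ I f d r' j i l x ∧ h ≤ I f d r' i k l x ∧ I f d r' j k (κ * l) x < θ * h} ≤ η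

open Classical in
/-- **DENSE** -/
theorem dense [IsProbabilityMeasure μ] {c η h0 : ℝ} {ρ N : ℕ} (g : Rg μ f d r R Λ C)
    (A : ∀ u, Act μ f d (L • u) (T u)) (d0 : 0 ≤ d) (dr : d ≤ r) (hL : 0 < L) (hΛ : L ≤ Λ)
    (hr : Λ ≤ 2 * r) (h1 : 2 * r ≤ ρ * L) (h2 : (2 * ρ + N) * L ≤ R) (i1 : r ≤ r')
    (i2 : r' ≤ R) (hN : 0 < N) (hη : 0 < η)
    (hC : 0 < C) (hC' : 0 ≤ C') (hh : 0 ≤ h0) (hn : 0 < n)
    (tail : ∀ j k, j ≠ k → Sm μ (fun x => (I f d r' j k L x - L)⁺) C')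
    (big : n ^ 2 * (h0 + (C + C') / η) ≤ c * L / 2) {E : Fin n → Fin n → Set X}
    (hE : ∀ j k, j ≠ k → ∀ᵐ x ∂μ, h0 ≤ I f d r' j k L x → x ∈ E j k)
    (gain : μ.real {x | f (tS d (ρ * L) S (N * L)) x - f (tS d (ρ * L) S 0) x < c * (N * L)} ≤ η) :
    ∃ u : Fin n → Fin n → ℤ → Fin n → ℝ, (∀ j ∈ S, ∀ k ∉ S,
      ∀ s ∈ Icc (-((ρ + N : ℕ) : ℤ)) (ρ + N : ℕ), ‖u j k s‖ ≤ (ρ + N : ℕ) ∧
        u j k s j - u j k s k = s ∧ ∀ p, p ∉ S → p ≠ k → u j k s p = 0) ∧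
      μ.real {x | ((∑ j ∈ S, ∑ k ∈ Sᶜ, #{s ∈ Icc (-((ρ + N : ℕ) : ℤ)) (ρ + N : ℕ) |
        T (u j k s) x ∈ E j k} : ℕ) : ℝ) < c / 2 * N} ≤ 2 * η := by
  refine ⟨fun j k s => if s ≤ -ρ then sh S ρ j k s else Pi.single j (s : ℝ),
    fun j hj k hk s hs => ?_, ?_⟩
  · obtain ⟨s1, s2⟩ := mem_Icc.1 hs
    have s1' : -((ρ + N : ℕ) : ℝ) ≤ s := by exact_mod_cast s1
    have s2' : (s : ℝ) ≤ (ρ + N : ℕ) := by exact_mod_cast s2
    have e : k ≠ j := fun e => hk (e ▸ hj)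
    dsimp only
    split_ifs with h
    · exact ⟨norm_sh hj hk (Nat.cast_nonneg _) (by exact_mod_cast h) s1', sh_sub hj hk,
        fun p a b => by simp [sh, a, b, show p ≠ j from fun e => a (e ▸ hj)]⟩
    · exact ⟨by rw [Pi.norm_single]; exact abs_le.2 ⟨s1', s2'⟩, by simp [e],
        fun p a b => Pi.single_eq_of_ne (fun e => a (by rw [e]; exact hj)) _⟩
  set Q := S ×ˢ Sᶜ
  have hQ : ∀ p ∈ Q, p.1 ≠ p.2 := fun p hp e => by
    obtain ⟨a, b⟩ := mem_product.1 hp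
    exact mem_compl.1 b (e ▸ a)
  have z1 := chain2 (S := S) g A d0 dr hL.le hΛ hr (Nat.cast_nonneg ρ) h1 i1 i2 N h2
  have z2 := Sm.sum (range N) fun m _ => Sm.sum Q fun p hp =>
    (tail _ _ (hQ p hp)).comp (A (sh S ρ p.1 p.2 (-(ρ + m)))).mp
  have n0 : (0 : ℝ) < n := by exact_mod_cast hn
  have N0 : (0 : ℝ) < N := by exact_mod_cast hN
  have q := card_pairs S
  have z := (z1.add z2).cast (fun _ => rfl) (C' := N * (n ^ 2 * (C + C'))) (by
    rw [card_range, ← mul_add, ← mul_add]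
    gcongr)
  have mk := markov z.1 z.2 hη (by positivity)
  refine le_trans (ENNReal.toReal_mono (measure_ne_top _ _) (measure_mono_ae ?_))
    ((measureReal_union_le _ _).trans ((add_le_add gain mk).trans_eq (two_mul η).symm))
  have ae : ∀ᵐ x ∂μ, ∀ m : ℕ, ∀ p ∈ Q, h0 ≤ I f d r' p.1 p.2 L (T (sh S ρ p.1 p.2 (-(ρ + m))) x)
      → T (sh S ρ p.1 p.2 (-(ρ + m))) x ∈ E p.1 p.2 := ae_all_iff.2 fun m =>
    (Filter.eventually_all_finset Q).2 fun p hp =>
      (A _).mp.quasiMeasurePreserving.ae (hE _ _ (hQ p hp))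
  filter_upwards [ae] with x hx hc
  by_contra k
  obtain ⟨k1, k2⟩ := not_or.1 k
  simp only [Set.mem_setOf_eq, not_lt, not_le] at k1 k2 hc
  have k3 := (le_abs_self _).trans_lt k2
  set w : ℕ → Fin n × Fin n → ℝ := fun m p =>
    if T (sh S ρ p.1 p.2 (-(ρ + m))) x ∈ E p.1 p.2 then 1 else 0 with hw
  have k4 : ∑ m ∈ range N, ∑ p ∈ Q, I f d r' p.1 p.2 L (T (sh S ρ p.1 p.2 (-(ρ + m))) x) ≤
      ∑ m ∈ range N, ∑ p ∈ Q, (h0 + L * w m p +
        (I f d r' p.1 p.2 L (T (sh S ρ p.1 p.2 (-(ρ + m))) x) - L)⁺) :=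
    sum_le_sum fun m _ => sum_le_sum fun p hp => by
      have a := le_posPart (I f d r' p.1 p.2 L (T (sh S ρ p.1 p.2 (-(ρ + m))) x) - L)
      have b := posPart_nonneg (I f d r' p.1 p.2 L (T (sh S ρ p.1 p.2 (-(ρ + m))) x) - L)
      simp only [hw]
      split_ifs with e
      · linarith
      · linarith [not_le.1 (mt (hx m p hp) e)]
  have k5 : ∑ m ∈ range N, ∑ p ∈ Q, w m p < c / 2 * N := by
    refine lt_of_le_of_lt ?_ hc
    rw [sum_comm, ← sum_product' (f := fun j k => #{s ∈ Icc (-((ρ + N : ℕ) : ℤ)) (ρ + N : ℕ) |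
      T (if s ≤ -(ρ : ℤ) then sh S ρ j k s else Pi.single j (s : ℝ)) x ∈ E j k}), Nat.cast_sum]
    refine sum_le_sum fun p _ => ?_
    rw [hw, sum_boole, Nat.cast_le]
    refine card_le_card_of_injOn (fun m : ℕ => -((ρ : ℤ) + m)) (fun m hm => ?_)
      fun a _ b _ e => by simpa using e
    obtain ⟨a, b⟩ := mem_filter.1 (mem_coe.1 hm)
    have a' := mem_range.1 a
    dsimp only
    refine mem_coe.2 (mem_filter.2 ⟨mem_Icc.2 ⟨by omega, by omega⟩, ?_⟩)
    rw [if_pos (by omega)]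
    simpa using b
  simp only [sum_add_distrib, ← mul_sum, sum_const, card_range, nsmul_eq_mul] at k4
  have k6 : N * (#Q * h0) ≤ N * (n ^ 2 * h0) := by gcongr
  have k7 := mul_le_mul_of_nonneg_left big N0.le
  have k8 := mul_lt_mul_of_pos_left k5 hL
  rw [mul_div_assoc, mul_div_assoc] at k3
  nlinarith

end

end Vale.Agent.P007M.Reg
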