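import Vale.Agent.P007M.Core
import Vale.Agent.P007M.Dense

/-! # P007M: the tail bound for the information functions -/

set_option linter.all false

open MeasureTheory

namespace Vale.Agent.P007M

open Vale.Agent.P007 Reg

variable {n : ℕ} {μ : Measure (X n)} [IsProbabilityMeasure μ] {ρ : ℝ}

theorem tail_row (k : 0 < ρ) (k1 : 14 * n * ρ ≤ 1) (d : ℝ) :
    Tail μ (fi μ ρ) d (2 * 84 ^ (n * n)) := fun t j l b _ v v' e => by
  have := mul_nonneg (Nat.cast_nonneg (α := ℝ) n) k.le
  have h := exp_mom' (μ := μ) v.valid v'.valid (le_up e) k le_rfl (by linarith)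
  rw [sum_up, mul_div_cancel_right₀ _ k.ne'] at h
  have := (pos_of_exp (((meas_fi ρ _).sub (meas_fi ρ t)).sub_const _).aestronglyMeasurable
    (by positivity) h).2
  have := pow_le_pow_left₀ (by norm_num : (0 : ℝ) ≤ 12) (by norm_num : (12 : ℝ) ≤ 84) (n * n)
  have : (0 : ℝ) ≤ 84 ^ (n * n) := by positivity
  exact le_trans ‹∫ _, _ ∂_ ≤ _› (by linarith)

end Vale.Agent.P007M
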