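import Vale.Agent.P007M.Loc

/-!
# P007M: covering numbers, ratios of local measures
-/

set_option linter.all false

open MeasureTheory Filter Topology Set Function
open scoped ENNReal Pointwise

namespace Vale.Agent.P007M

open Vale.Agent.P007 Vale.Agent.P007.Koopman

noncomputable section

variable {n : ℕ} {μ : Measure (X n)} {x y : X n} {E E' B B' P Q R S T : Set (G n)} {N N' : ℝ≥0∞}

/-- `E` is covered by `N` translates of `B`, in the form which is used for measures -/
def Cov (E B : Set (G n)) (N : ℝ≥0∞) : Prop :=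
  ∀ ν : Measure (G n), SFinite ν → ∫⁻ h in E, (ν (h • B))⁻¹ ∂ν ≤ N

lemma meas_smul (ν : Measure (G n)) [SFinite ν] (hB : MeasurableSet B) :
    Measurable fun h : G n => ν (h • B) := by
  have := measurable_measure_prodMk_left (ν := ν)
    (s := (fun p : G n × G n => p.1⁻¹ * p.2) ⁻¹' B) (hB.preimage (by fun_prop))
  simp only [← preimage_smul_inv]
  exact this

theorem Cov.mono (h : Cov E B N) (e : E' ⊆ E) (e' : B ⊆ B') (k : N ≤ N') : Cov E' B' N' :=
  fun ν s => (lintegral_mono' (Measure.restrict_mono e le_rfl) fun _ =>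
    ENNReal.inv_le_inv.2 (measure_mono (smul_set_mono e'))).trans ((h ν s).trans k)

theorem cov_empty : Cov ∅ B N := fun ν s => by simp

theorem Cov.smul (h : Cov E B N) (g : G n) : Cov (g • E) B N := fun ν s => by
  have e := measurableEmbedding_mulLeft g⁻¹
  have k := h (ν.map (g⁻¹ * ·)) inferInstance
  rw [e.restrict_map, e.lintegral_map] at k
  convert k using 3
  · exact (preimage_smul_inv g E).symm
  · rename_i a
    rw [e.map_apply]
    congr 2
    ext z
    simp [mem_smul_set_iff_inv_smul_mem, mul_assoc]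

theorem Cov.union (h : Cov E B N) (h' : Cov E' B N') : Cov (E ∪ E') B (N + N') := fun ν s =>
  (lintegral_union_le _ _ _).trans (add_le_add (h ν s) (h' ν s))

theorem cov_biUnion {ι : Type*} (s : Finset ι) {F : ι → Set (G n)} (h : ∀ i ∈ s, Cov (F i) B N) :
    Cov (⋃ i ∈ s, F i) B (s.card * N) := by
  classical
  induction s using Finset.induction_on with
  | empty => simpa using cov_empty
  | insert a s ha ih =>
    rw [Finset.set_biUnion_insert, Finset.card_insert_of_notMem ha]
    exact ((h a (by simp)).union (ih fun i k => h i (by simp [k]))).mono le_rfl le_rfl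
      (by push_cast; rw [add_mul, one_mul, add_comm])

lemma small_le (ν : Measure (G n)) (h : ∀ a ∈ E, ∀ b ∈ E, a⁻¹ * b ∈ B) (m : MeasurableSet E) :
    ∫⁻ h in E, (ν (h • B))⁻¹ ∂ν ≤ 1 := by
  refine (setLIntegral_mono' m (g := fun _ => (ν E)⁻¹) fun a ha => ENNReal.inv_le_inv.2
    (measure_mono fun b hb => mem_smul_set_iff_inv_smul_mem.2 (h a ha b hb))).trans ?_
  rw [setLIntegral_const, mul_comm]
  exact ENNReal.mul_inv_le_one _

/-- small sets -/
theorem cov_one (h : ∀ a ∈ E, ∀ b ∈ E, a⁻¹ * b ∈ B) (m : MeasurableSet E) : Cov E B 1 :=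
  fun ν _ => small_le ν h m

/-- sets with small differences -/
theorem Cov.of_diff (h : Cov T B N) (e : ∀ a ∈ E, ∀ b ∈ E, a⁻¹ * b ∈ T) : Cov E B N := by
  rcases E.eq_empty_or_nonempty with rfl | ⟨a, ha⟩
  · exact cov_empty
  · exact (h.smul a).mono (fun b hb => mem_smul_set_iff_inv_smul_mem.2 (e a ha b hb)) le_rfl le_rfl

/-- the volume argument -/
theorem cov_of_vol {V : Type*} [MeasurableSpace V] (m : Measure V) [SFinite m]
    {W : Set (G n × V)} (hW : MeasurableSet W) {U : Set V} {v : ℝ≥0∞} (h0 : v ≠ 0) (h1 : v ≠ ∞)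
    (hE : MeasurableSet E) (hB : MeasurableSet B) (hU : MeasurableSet U)
    (hv : ∀ h ∈ E, v ≤ m (Prod.mk h ⁻¹' W)) (hU' : ∀ h ∈ E, ∀ z, (h, z) ∈ W → z ∈ U)
    (hs : ∀ a b z, (a, z) ∈ W → (b, z) ∈ W → a⁻¹ * b ∈ B) : Cov E B (m U / v) := fun ν s => by
  have mm : Measurable fun h : G n => (ν (h • B))⁻¹ := (meas_smul ν hB).inv
  rw [ENNReal.le_div_iff_mul_le (.inl h0) (.inl h1), ← lintegral_mul_const _ mm]
  have k : Measurable (uncurry fun (h : G n) (z : V) => W.indicator (fun p => (ν (p.1 • B))⁻¹) (h, z)) :=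
    (mm.comp measurable_fst).indicator hW
  calc _ ≤ ∫⁻ h in E, ∫⁻ z, W.indicator (fun p => (ν (p.1 • B))⁻¹) (h, z) ∂m ∂ν :=
        setLIntegral_mono' hE fun h hh => by
          rw [show (fun z => W.indicator (fun p => (ν (p.1 • B))⁻¹) (h, z)) =
            (Prod.mk h ⁻¹' W).indicator fun _ => (ν (h • B))⁻¹ from rfl,
            lintegral_indicator_const (measurable_prodMk_left hW)]
          exact mul_le_mul_right (hv h hh) _
    _ = ∫⁻ z, ∫⁻ h in E, W.indicator (fun p => (ν (p.1 • B))⁻¹) (h, z) ∂ν ∂m :=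
        lintegral_lintegral_swap k.aemeasurable
    _ ≤ ∫⁻ z, U.indicator 1 z ∂m := lintegral_mono fun z => by
        have w : MeasurableSet ((·, z) ⁻¹' W : Set (G n)) := measurable_prodMk_right hW
        rw [show (fun h => W.indicator (fun p => (ν (p.1 • B))⁻¹) (h, z)) =
          ((·, z) ⁻¹' W).indicator fun h => (ν (h • B))⁻¹ from rfl, lintegral_indicator w,
          Measure.restrict_restrict w]
        by_cases u : z ∈ U
        · rw [indicator_of_mem u]
          exact small_le ν (fun a ha b hb => hs a b z ha.1 hb.1) (w.inter hE)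
        · rw [eq_empty_of_forall_notMem (s := (·, z) ⁻¹' W ∩ E) fun h k => u (hU' h k.2 z k.1)]
          simp
    _ = m U := lintegral_indicator_one hU

/-- separated sets are small -/
theorem Cov.card_le (h : Cov E B N) (hE : MeasurableSet E) (hB : MeasurableSet B)
    {s : Finset (G n)} (e : ∀ a ∈ s, a ∈ E) (d : ∀ a ∈ s, ∀ b ∈ s, a⁻¹ * b ∈ B → a = b) :
    (s.card : ℝ≥0∞) ≤ N := by
  refine le_trans ?_ (h (∑ a ∈ s, Measure.dirac a) inferInstance)
  rw [← lintegral_indicator hE, lintegral_finsetSum_measure, Finset.card_eq_sum_ones]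
  push_cast
  refine Finset.sum_le_sum fun a ha => ?_
  rw [lintegral_dirac, indicator_of_mem (e a ha), ENNReal.one_le_inv, Measure.finsetSum_apply,
    Finset.sum_eq_single_of_mem a ha fun b hb k => ?_]
  · exact prob_le_one
  · rw [Measure.dirac_apply' _ (hB.const_smul a), indicator_of_notMem fun k' =>
      k (d a ha b hb (mem_smul_set_iff_inv_smul_mem.1 k')).symm]

/-- finite covers -/
theorem Cov.exists_cover (h : Cov E B N) (hN : N ≠ ∞) (hE : MeasurableSet E)
    (hB : MeasurableSet B) (h1 : (1 : G n) ∈ B) : ∃ s : Finset (G n), (∀ a ∈ s, a ∈ E) ∧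
      (s.card : ℝ≥0∞) ≤ N ∧ ∀ b ∈ E, ∃ a ∈ s, a⁻¹ * b ∈ B ∨ b⁻¹ * a ∈ B := by
  classical
  let p : Finset (G n) → Prop := fun s =>
    (∀ a ∈ s, a ∈ E) ∧ ∀ a ∈ s, ∀ b ∈ s, a⁻¹ * b ∈ B → a = b
  obtain ⟨M, hM⟩ := ENNReal.exists_nat_gt hN
  have bd : ∀ s, p s → s.card ≤ M := fun s k => by
    exact_mod_cast ((h.card_le hE hB k.1 k.2).trans hM.le)
  obtain ⟨s, hs, mx⟩ := Set.Finite.exists_maximalFor' Finset.card {s | p s}
    ((finite_Iic M).subset (by rintro _ ⟨s, k, rfl⟩; exact bd s k)) ⟨∅, by simp [p]⟩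
  refine ⟨s, hs.1, h.card_le hE hB hs.1 hs.2, fun b hb => ?_⟩
  by_contra k
  push Not at k
  have nb : b ∉ s := fun k' => (k b k').1 (by simpa using h1)
  have : p (insert b s) := ⟨fun a ha => (Finset.mem_insert.1 ha).elim (· ▸ hb) (hs.1 a),
    fun a ha c hc u => by
      rcases Finset.mem_insert.1 ha with e1 | h1 <;> rcases Finset.mem_insert.1 hc with e2 | h2
      exacts [e1.trans e2.symm, ((k c h2).2 (e1 ▸ u)).elim, ((k a h1).1 (e2 ▸ u)).elim,
        hs.2 a h1 c h2 u]⟩
  have := mx this (by rw [Finset.card_insert_of_notMem nb]; omega)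
  rw [Finset.card_insert_of_notMem nb] at this
  omega

lemma ind_congr {α β : Type*} {s : Set α} {t : Set β} {f : α → ℝ≥0∞} {g : β → ℝ≥0∞} {a : α} {b : β}
    (h : a ∈ s ↔ b ∈ t) (e : f a = g b) : s.indicator f a = t.indicator g b := by
  by_cases z : a ∈ s
  · rw [indicator_of_mem z, indicator_of_mem (h.1 z), e]
  · rw [indicator_of_notMem z, indicator_of_notMem (mt h.2 z)]

variable [IsProbabilityMeasure μ]

/-- **ratios on an event** -/
theorem ratio_ev {V : Set (X n)} (hV : MeasurableSet V) (hE : MeasurableSet E)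
    (hB : MeasurableSet B) (h : ∀ y, Cov {g | g⁻¹ ∈ E ∧ tr g y ∈ V} B N) :
    ∫⁻ x in V, loc μ x E / loc μ x B ∂μ ≤ N := by
  have m : MeasurableSet (V ×ˢ E) := hV.prod hE
  have k := mtp (μ := μ) (k := fun x g => (V ×ˢ E).indicator (fun p => (loc μ p.1 B)⁻¹) (x, g))
    (((meas_loc hB).inv.comp measurable_fst).indicator m)
  rw [← lintegral_indicator hV]
  refine (lintegral_congr fun x => ?_).trans_le (k.trans_le ((lintegral_mono fun y => ?_).trans_eq
    ((lintegral_const N).trans (by simp))))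
  · by_cases z : x ∈ V
    · rw [indicator_of_mem z, div_eq_mul_inv, mul_comm, ← lintegral_indicator_const hE]
      exact lintegral_congr fun g => ind_congr (and_iff_right z).symm rfl
    · simp only [indicator, mem_prod, z, false_and, if_false, lintegral_zero]
  · refine le_trans (le_of_eq ?_) (h y (loc μ y) inferInstance)
    rw [← lintegral_indicator (s := {g | g⁻¹ ∈ E ∧ tr g y ∈ V}) ((measurable_inv hE).inter
      ((measurable_tr_uncurry.comp measurable_prodMk_left) hV))]
    exact lintegral_congr fun g => ind_congr and_comm (congrArg _ (loc_tr _ _ _ _))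

theorem ratio (hE : MeasurableSet E) (hB : MeasurableSet B) (h : Cov E⁻¹ B N) :
    ∫⁻ x, loc μ x E / loc μ x B ∂μ ≤ N := by
  simpa using ratio_ev (μ := μ) .univ hE hB fun y => h.mono (fun g k => k.1) le_rfl le_rfl

/-- **submodularity** -/
theorem subm (hP : MeasurableSet P) (hQ : MeasurableSet Q) (hS : MeasurableSet S)
    (hR : MeasurableSet R) (hT : MeasurableSet T) (h1 : ∀ a ∈ P, ∀ b ∈ Q, a⁻¹ * b ∈ T)
    (h2 : ∀ a ∈ P, ∀ b ∈ T, a * b ∈ R) (h : ∀ z, Cov {g | g⁻¹ ∈ P ∧ g⁻¹ * z ∈ Q} S N) :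
    ∫⁻ x, loc μ x P * (loc μ x Q * (loc μ x S)⁻¹ * (loc μ x R)⁻¹) ∂μ ≤ N := by
  have k := mtp (μ := μ) (k := fun x g => (Prod.snd ⁻¹' P).indicator
    (fun p : X n × G n => loc μ p.1 Q * (loc μ p.1 S)⁻¹ * (loc μ p.1 R)⁻¹) (x, g))
    (((((meas_loc hQ).mul (meas_loc hS).inv).mul (meas_loc hR).inv).comp
      measurable_fst).indicator (measurable_snd hP))
  refine (lintegral_congr fun x => ?_).trans_le (k.trans_le ((lintegral_mono fun y => ?_).trans_eq
    ((lintegral_const N).trans (by simp))))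
  · rw [mul_comm, ← lintegral_indicator_const hP]; rfl
  set ν := loc μ y
  have w : MeasurableSet {p : G n × G n | p.1⁻¹ ∈ P ∧ p.1⁻¹ * p.2 ∈ Q} :=
    (measurable_fst.inv hP).inter ((measurable_fst.inv.mul measurable_snd) hQ)
  have mm : Measurable fun q => {p : G n × G n | p.1⁻¹ ∈ P ∧ p.1⁻¹ * p.2 ∈ Q}.indicator
      (fun p => (ν (p.1 • S))⁻¹) q := ((meas_smul ν hS).inv.comp measurable_fst).indicator w
  calc _ ≤ ∫⁻ g, (∫⁻ z, {p : G n × G n | p.1⁻¹ ∈ P ∧ p.1⁻¹ * p.2 ∈ Q}.indicator
          (fun p => (ν (p.1 • S))⁻¹) (g, z) ∂ν) * (ν T)⁻¹ ∂ν := lintegral_mono fun g => by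
        by_cases z : g⁻¹ ∈ P
        · rw [indicator_of_mem (show (tr g y, g⁻¹) ∈ Prod.snd ⁻¹' P from z)]
          simp only [loc_tr]
          refine mul_le_mul' (le_of_eq ?_) (ENNReal.inv_le_inv.2 (measure_mono fun b hb =>
            mem_smul_set_iff_inv_smul_mem.2 (h2 _ z b hb)))
          rw [mul_comm, ← lintegral_indicator_const (hQ.const_smul g)]
          exact lintegral_congr fun a => ind_congr
            (mem_smul_set_iff_inv_smul_mem.trans (and_iff_right z).symm) rfl
        · rw [indicator_of_notMem (show (tr g y, g⁻¹) ∉ Prod.snd ⁻¹' P from z)]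
          exact zero_le
    _ = (∫⁻ z, ∫⁻ g, {p : G n × G n | p.1⁻¹ ∈ P ∧ p.1⁻¹ * p.2 ∈ Q}.indicator
          (fun p => (ν (p.1 • S))⁻¹) (g, z) ∂ν ∂ν) * (ν T)⁻¹ := by
        rw [lintegral_mul_const _ mm.lintegral_prod_right']
        exact congrArg (· * _) (lintegral_lintegral_swap mm.aemeasurable)
    _ ≤ (∫⁻ z, T.indicator (fun _ => N) z ∂ν) * (ν T)⁻¹ := mul_le_mul_left (lintegral_mono fun z => by
        by_cases u : z ∈ T
        · rw [indicator_of_mem u]
          exact (lintegral_indicator (measurable_prodMk_right w) _).trans_le (h z ν inferInstance)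
        · refine le_trans (le_of_eq ((lintegral_congr fun g => indicator_of_notMem (fun k => u ?_) _).trans
            lintegral_zero)) zero_le
          simpa using h1 _ k.1 _ k.2) _
    _ ≤ N := by
        rw [lintegral_indicator_const hT, mul_assoc]
        exact mul_le_of_le_one_right' (ENNReal.mul_inv_le_one _)

end

end Vale.Agent.P007M
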