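import Vale.Agent.P007M.Ifc
import Vale.Agent.P007.Bdl.B17

/-! The interface of the arithmetic part: the entropy bound for packet measures. -/

set_option autoImplicit false

open MeasureTheory

namespace Vale.Agent.P007M

open Vale.Agent.P007 Vale.Agent.P007.Fib

variable {n : ℕ}

/-- every element of the order outside `ℤ` has two conjugates at distance at least `|Disc O|^γ` -/
def Lam (γ : ℝ) (D : Datum n) : Prop :=
  ∀ a ∈ RE D, (∀ z : ℤ, a ≠ fun _ => (z : ℝ)) → ∃ j k, (D.disc : ℝ) ^ γ ≤ |a j - a k|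

/-- the bound for the masses of the Bowen boxes of length `τ` around the points of `Ω` -/
def EntB (μ : Measure (X n)) (Ω : Set (X n)) (B c₀ τ : ℝ) : Prop :=
  ∀ S : Finset (Fin n), S.Nonempty → S ≠ Finset.univ →
    ∀ x ∈ Ω, ∀ E : Set (G n), MeasurableSet ((tr · x) '' E) →
      (∀ h ∈ E, ∀ j k, |h.1 j k| ≤ B ∧ |(h⁻¹).1 j k| ≤ B * Real.exp (-crs S τ j k)) →
      μ.real ((tr · x) '' E) ≤ Real.exp (-(c₀ * τ))

/-- the entropy bound for the packet measures of the orders with `Lam γ` -/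
def EntStmt (n : ℕ) : Prop := ∃ c₀ : ℝ, 0 < c₀ ∧ ∀ γ : ℝ, 0 < γ → ∃ η : ℝ, 0 < η ∧
  ∀ (Ω : Set (X n)) (ε B : ℝ), IsCompact Ω → 0 < ε → 1 ≤ B →
    ∃ D₀ : ℕ, ∀ D : Datum n, D₀ ≤ D.disc → Lam γ D → ∀ τ : ℝ, ε * Real.log (D.disc : ℝ) ≤ τ →
      τ ≤ η * Real.log (D.disc : ℝ) → EntB D.packetMeas Ω B c₀ τ

end Vale.Agent.P007M
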