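import Vale.Agent.P007M.EntI
import Vale.Agent.P007M.IfcA
import Vale.Agent.P007M.Ari

/-!
# The entropy bound for packet measures
-/

set_option linter.all false

noncomputable section

open MeasureTheory Matrix NumberField Filter Topology
open scoped ENNReal

namespace Vale.Agent.P007M

open Vale.Agent.P007 Vale.Agent.P007.Fib Vale.Agent.P007.N

variable {n : ℕ}

/-- every element of the order is constant on the fibres of `p`, or has two conjugates in one fibre
at distance at least `|Disc O|^γ` -/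
def LamR {ι : Type*} (p : Fin n → ι) (γ : ℝ) (D : Datum n) : Prop := ∀ a ∈ RE D,
  (∀ j k, p j = p k → a j = a k) ∨ ∃ j k, p j = p k ∧ (D.disc : ℝ) ^ γ ≤ |a j - a k|

theorem Lam.lamR {γ : ℝ} {D : Datum n} (h : Lam γ D) : LamR (fun _ => ()) γ D := fun a ha => by
  by_cases e : ∃ z : ℤ, a = fun _ => (z : ℝ)
  · obtain ⟨z, rfl⟩ := e
    exact .inl fun _ _ _ => rfl
  · obtain ⟨j, k, h⟩ := h a ha (not_exists.1 e)
    exact .inr ⟨j, k, rfl, h⟩

theorem exists_one_le (D : Datum n) {x : Fin n → ℝ} (hx : x ∈ RE D) (h0 : x ≠ 0) :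
    ∃ j, 1 ≤ |x j| := by
  obtain ⟨a, -, rfl⟩ := (mem_RE D).1 hx
  by_contra h
  push Not at h
  have h1 := InfinitePlace.one_le_of_lt_one (w := Stab.place D ⟨0, D.pos⟩) (a := a)
    (fun e => h0 (by rw [e]; simp)) fun z _ => by
      obtain ⟨j, rfl⟩ := (Stab.place_bijective D).2 z
      exact (Stab.place_apply D j _).trans_lt (h j)
  exact (h _).not_ge (h1.trans_eq (Stab.place_apply D _ _))

theorem log_small (A R : ℝ) (m : ℕ) {a : ℝ} (ha : 0 < a) (hA : 0 < A) (hR : 1 ≤ R) :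
    ∃ D₀ : ℕ, ∀ d : ℕ, D₀ ≤ d → R ≤ d ∧ A * Real.log (R * √(d : ℝ)) ^ m ≤ (d : ℝ) ^ a := by
  obtain ⟨x₀, h⟩ := eventually_atTop.1
    ((isLittleO_log_rpow_rpow_atTop (m : ℝ) ha).bound (inv_pos.2 hA))
  obtain ⟨D₀, hD⟩ := exists_nat_ge (max x₀ (R ^ 2))
  refine ⟨D₀, fun d hd => ?_⟩
  have h1 : max x₀ (R ^ 2) ≤ (d : ℝ) := hD.trans (by exact_mod_cast hd)
  have h2 : R ^ 2 ≤ d := (le_max_right _ _).trans h1
  have h3 : R ≤ √(d : ℝ) := Real.le_sqrt_of_sq_le h2
  have h4 : R * √(d : ℝ) ≤ d := (mul_le_mul_of_nonneg_right h3 (Real.sqrt_nonneg _)).trans_eq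
    (Real.mul_self_sqrt (Nat.cast_nonneg _))
  have h5 : 1 ≤ R * √(d : ℝ) := one_le_mul_of_one_le_of_one_le hR (hR.trans h3)
  have h6 := h d ((le_max_left _ _).trans h1)
  rw [Real.rpow_natCast, Real.norm_of_nonneg (pow_nonneg (Real.log_nonneg (h5.trans h4)) _),
    Real.norm_of_nonneg (by positivity), inv_mul_eq_div, le_div_iff₀' hA] at h6
  refine ⟨by nlinarith, le_trans (mul_le_mul_of_nonneg_left (pow_le_pow_left₀ (Real.log_nonneg h5)
    (Real.log_le_log (by linarith) h4) _) hA.le) h6⟩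

theorem fibre_sum {h : G n} {r : Fin n → Fin n} (hb : ∀ j k, r j ≠ r k → h.1 j k = 0)
    (v w : Fin n → ℝ) (i : Fin n) : ∑ j with r j = i, ((v ᵥ* h.1) * ((h⁻¹).1 *ᵥ w)) j =
      (fun a => if r a = i then v a else 0) ⬝ᵥ w := by
  have key : ∀ y : Fin n → ℝ, (y ᵥ* h.1) ⬝ᵥ ((h⁻¹).1 *ᵥ w) = y ⬝ᵥ w := fun y => by
    rw [dotProduct_mulVec, vecMul_vecMul, coe_mul_inv, vecMul_one]
  rw [← key, Finset.sum_filter]
  refine Finset.sum_congr rfl fun j _ => ?_
  change _ = (∑ a, (if r a = i then v a else 0) * h.1 a j) * _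
  split_ifs with e
  · change (∑ a, v a * h.1 a j) * _ = _
    congr 1
    refine Finset.sum_congr rfl fun a _ => ?_
    split_ifs with e'
    · rfl
    · simp [hb a j (e ▸ e')]
  · rw [Finset.sum_eq_zero, zero_mul]
    intro a _
    split_ifs with e'
    · simp [hb a j (e' ▸ Ne.symm e)]
    · simp

/-- **The entropy bound**, relative form: the blocks are the fibres of `p`, no block is in `S`. -/
theorem entR (hn : 3 ≤ n) (hc : CntM n) {γ ε B : ℝ} (hγ : 0 < γ) (hε : 0 < ε) (hB : 1 ≤ B) :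
    ∃ D₀ : ℕ, ∀ D : Datum n, D₀ ≤ D.disc → ∀ {ι : Type} (p : Fin n → ι), LamR p γ D →
      ∀ S : Finset (Fin n), S.Nonempty → (∀ j ∈ S, ∃ k ∉ S, p k = p j) → ∀ τ : ℝ,
        ε * Real.log (D.disc : ℝ) ≤ τ → τ ≤ γ * Real.log (D.disc : ℝ) →
        ∀ (g₀ : G n) (E : Set (G n)) (A : Set (X n)), MeasurableSet A →
          (∀ x ∈ A, InvPt (RE D) x → ∃ h ∈ E, x = pt (g₀ * h)) →
          (∀ h ∈ E, ∀ j k, |h.1 j k| ≤ B ∧ |(h⁻¹).1 j k| ≤ B * Real.exp (-crs S τ j k) ∧
            (p j ≠ p k → h.1 j k = 0)) →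
          D.packetMeas.real A ≤ Real.exp (-(1 / (40 * n ^ 2) * τ)) := by
  classical
  have n3 : (3 : ℝ) ≤ n := by exact_mod_cast hn
  set e : ℝ := ε / (160 * n ^ 2) with he
  have e0 : 0 < e := by positivity
  set Q : ℝ := (2 * n * B) ^ 2 with hQ
  have Q4 : 4 ≤ Q := by nlinarith [mul_le_mul n3 hB zero_le_one (by linarith)]
  set R : ℝ := (2 * n * B + 1) ^ n with hR
  have R1 : 1 ≤ R := one_le_pow₀ (le_add_of_nonneg_left (by positivity))
  obtain ⟨D₁, h₁⟩ := hc e (γ + 1 + R) e0 (by positivity)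
  obtain ⟨C, D₂, hC, h₂⟩ := vol_inv_le n hn e0
  obtain ⟨D₃, h₃⟩ := log_small (C * (Q ^ n + 1) * 2 ^ n) R (n - 1) (a := 2 * e) (by positivity)
    (by positivity) R1
  obtain ⟨D₄, h₄⟩ := exists_nat_ge Q
  refine ⟨max (max D₁ D₂) (max D₃ D₄), fun D hD ι p hL S hS hS' τ t1 t2 g₀ E A hA hAE hE => ?_⟩
  simp only [max_le_iff] at hD
  set d : ℝ := (D.disc : ℝ) with hd
  have dQ : Q ≤ d := h₄.trans (Nat.cast_le.2 hD.2.2)
  have d1 : 1 ≤ d := by linarith
  have t0 : 0 ≤ τ := le_trans (mul_nonneg hε.le (Real.log_nonneg d1)) t1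
  have t3 : Real.exp τ ≤ d ^ γ := by
    rw [Real.rpow_def_of_pos (by linarith), mul_comm]
    exact Real.exp_le_exp.2 t2
  -- the representatives of the blocks
  have hr : ∀ c : ι, ∃ k, (∃ j, p j = c) → k ∉ S ∧ p k = c := fun c => by
    by_cases h : ∃ j, p j = c
    · obtain ⟨j, rfl⟩ := h
      by_cases hj : j ∈ S
      · exact (hS' j hj).imp fun k h _ => h
      · exact ⟨j, fun _ => ⟨hj, rfl⟩⟩
    · exact ⟨hS.choose, fun h' => (h h').elim⟩
  choose r' hr' using hr
  set r : Fin n → Fin n := fun j => r' (p j) with hrd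
  have r1 : ∀ j, r j ∉ S := fun j => (hr' _ ⟨j, rfl⟩).1
  have r2 : ∀ j, p (r j) = p j := fun j => (hr' _ ⟨j, rfl⟩).2
  have r3 : ∀ j k, p j = p k → r j = r k := fun j k h => congrArg r' h
  have r4 : ∀ j, r (r j) = r j := fun j => r3 _ _ (r2 j)
  -- the exponents
  set s : ℝ := (S.card : ℝ) / n with hs
  have s1 : 1 / n ≤ s := div_le_div_of_nonneg_right (by exact_mod_cast hS.card_pos) (by linarith)
  have s0 : 0 ≤ s := by positivity
  have s2 : s ≤ 1 := (div_le_one (by linarith)).2 (by exact_mod_cast card_finset_fin_le S)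
  set u : Fin n → ℝ := fun j => τ * s - if j ∈ S then τ else 0 with hu
  have u0 : ∑ j, u j = 0 := by
    simp only [hu, hs, Finset.sum_sub_distrib, Finset.sum_ite_mem, Finset.univ_inter,
      Finset.sum_const, Finset.card_univ, Fintype.card_fin, nsmul_eq_mul]
    field_simp
    ring
  have u1 : ∀ j, -τ ≤ u j ∧ u j ≤ τ := fun j => by
    simp only [hu]
    split_ifs <;> constructor <;> nlinarith
  have u2 : ∀ j k, -crs S τ j k ≤ u j - u k := fun j k => by
    simp only [hu, crs]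
    by_cases a : j ∈ S <;> by_cases b : k ∈ S <;> simp [a, b, t0]
  obtain ⟨v₀, w₀, m, -, -, -, -, -, -, -, hbox⟩ := ent_box D (by omega) g₀ u u0
  obtain ⟨T, hT, hT'⟩ := h₁ D hD.1.1 r (fun j => Q * Real.exp (u j))
    (fun i => (fun a => if r a = i then v₀ a else 0) ⬝ᵥ w₀) (Real.exp (τ / (2 * n))) r4
    (fun j => ⟨by positivity, by
      refine (mul_le_mul dQ ((Real.exp_le_exp.2 (u1 j).2).trans t3) (by positivity)
        (by positivity)).trans ?_
      rw [mul_comm, ← Real.rpow_add_one (by positivity)]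
      exact Real.rpow_le_rpow_of_exponent_le d1 (by linarith)⟩)
    (Real.one_le_exp (by positivity)) fun x hx x0 => by
      rcases hL x hx with h | ⟨j, k, h1, h2⟩
      · obtain ⟨j, hj⟩ := exists_one_le D hx x0
        exact ⟨r j, .inl ⟨r4 j, (h _ _ (r2 j)).symm ▸ hj⟩⟩
      · have h3 : ∀ l, Real.exp τ / 2 ≤ |x l - x (r l)| →
            1 ≤ |x l - x (r l)| * (Q * Real.exp (u l)) := fun l hl => by
          refine le_trans ?_ (mul_le_mul hl (mul_le_mul Q4 (Real.exp_le_exp.2 (u1 l).1)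
            (by positivity) (by positivity)) (by positivity) (abs_nonneg _))
          rw [Real.exp_neg]
          field_simp
          norm_num
        have h4 := abs_sub_le (x j) (x (r j)) (x k)
        rw [abs_sub_comm (x (r j))] at h4
        by_cases h5 : Real.exp τ / 2 ≤ |x j - x (r j)|
        · exact ⟨j, .inr (h3 j h5)⟩
        · exact ⟨k, .inr (h3 k (by rw [← r3 j k h1]; linarith))⟩
  have hP : ∏ j with r j ≠ j, Q * Real.exp (u j) ≤ Q ^ n * Real.exp (-(τ / n)) := by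
    rw [Finset.prod_mul_distrib, Finset.prod_const, ← Real.exp_sum]
    refine mul_le_mul (pow_le_pow_right₀ (by linarith) (card_finset_fin_le _))
      (Real.exp_le_exp.2 ?_) (by positivity) (by positivity)
    have h1 := Finset.sum_filter_add_sum_filter_not Finset.univ (fun j => r j = j) u
    have h2 : ∀ j, r j = j → u j = τ * s := fun j hj => by
      simp only [hu, if_neg (hj ▸ r1 j), sub_zero]
    have h3 := Finset.single_le_sum (s := Finset.univ.filter fun j => r j = j) (f := u)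
      (fun j hj => by rw [h2 j (Finset.mem_filter.1 hj).2]; positivity)
      (Finset.mem_filter.2 ⟨Finset.mem_univ (r hS.choose), r4 _⟩)
    rw [h2 _ (r4 _)] at h3
    have h4 := mul_le_mul_of_nonneg_left s1 t0
    rw [mul_one_div] at h4
    linarith
  have hT2 : (T.card : ℝ) ≤ d ^ (1 / 2 + e) * ((Q ^ n + 1) * Real.exp (-(τ / (20 * n ^ 2)))) := by
    refine hT.trans (mul_le_mul_of_nonneg_left ?_ (by positivity))
    rw [add_mul, one_mul, ← Real.exp_mul]
    refine add_le_add ((mul_le_mul_of_nonneg_left hP (by positivity)).trans ?_) (le_of_eq ?_)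
    · rw [mul_left_comm, ← Real.exp_add]
      refine mul_le_mul_of_nonneg_left (Real.exp_le_exp.2 ?_) (by positivity)
      have h1 : τ / (20 * n ^ 2) ≤ τ / (2 * n) :=
        div_le_div_of_nonneg_left t0 (by positivity) (by nlinarith)
      have h2 : τ / n = 2 * (τ / (2 * n)) := by field_simp
      linarith
    · congr 1
      field_simp
      ring
  have hμ := hbox B E A T (by linarith) hA (fun h hh j k => ⟨(hE h hh j k).1, (hE h hh j k).2.1.trans
    (mul_le_mul_of_nonneg_left (Real.exp_le_exp.2 (u2 j k)) (by linarith))⟩) hAE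
    fun h hh _ M ν _ e1 e2 e3 e4 e5 _ => hT' M ν (e2.trans (mul_le_mul_of_nonneg_right
      (by linarith) (Real.sqrt_nonneg _))) e3 e4 e5 fun i => e1 ▸ fibre_sum
        (fun j k h' => (hE h hh j k).2.2 fun e => h' (r3 j k e)) v₀ w₀ i
  have hl : 0 ≤ Real.log (R * √d) ^ (n - 1) :=
    pow_nonneg (Real.log_nonneg (one_le_mul_of_one_le_of_one_le R1 (one_le_sqrt D))) _
  refine ENNReal.toReal_le_of_le_ofReal (by positivity) (hμ.trans
    ((mul_le_mul_left (h₂ D hD.1.2) _).trans ?_))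
  rw [← ENNReal.ofReal_mul (by positivity)]
  refine ENNReal.ofReal_le_ofReal ?_
  have d0 : 0 < d := by linarith
  calc C * d ^ (e - 1 / 2) * (T.card * 2 ^ n * Real.log (R * √d) ^ (n - 1))
      ≤ C * d ^ (e - 1 / 2) * (d ^ (1 / 2 + e) * ((Q ^ n + 1) * Real.exp (-(τ / (20 * n ^ 2)))) *
          2 ^ n * Real.log (R * √d) ^ (n - 1)) := by gcongr
    _ = d ^ (2 * e) * (C * (Q ^ n + 1) * 2 ^ n * Real.log (R * √d) ^ (n - 1)) *
          Real.exp (-(τ / (20 * n ^ 2))) := by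
        rw [show 2 * e = (e - 1 / 2) + (1 / 2 + e) by ring, Real.rpow_add d0 (e - 1 / 2)]
        ring
    _ ≤ d ^ (2 * e) * d ^ (2 * e) * Real.exp (-(τ / (20 * n ^ 2))) := by
        gcongr
        exact (h₃ _ hD.2.1).2
    _ ≤ _ := by
        rw [← Real.rpow_add d0, Real.rpow_def_of_pos d0, ← Real.exp_add]
        refine Real.exp_le_exp.2 ?_
        have h1 : Real.log d * (2 * e + 2 * e) = 1 / (40 * n ^ 2) * (ε * Real.log d) := by
          rw [he]
          field_simp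
          ring
        have h2 : τ / (20 * n ^ 2) = 2 * (1 / (40 * n ^ 2) * τ) := by
          field_simp
          ring
        have h3 := mul_le_mul_of_nonneg_left t1 (show (0 : ℝ) ≤ 1 / (40 * n ^ 2) by positivity)
        linarith

/-- **The entropy bound.** -/
theorem ent_of (hn : 3 ≤ n) (hc : CntM n) : EntStmt n := by
  refine ⟨1 / (40 * n ^ 2), by positivity, fun γ hγ => ⟨γ, hγ, fun Ω ε B _ hε hB => ?_⟩⟩
  obtain ⟨D₀, h⟩ := entR hn hc hγ hε hB
  refine ⟨D₀, fun D hD hL τ t1 t2 S hS hS' x _ E hA hE => ?_⟩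
  obtain ⟨g, rfl⟩ := pt_surjective x
  refine h D hD _ hL.lamR S hS (fun j _ => ?_) τ t1 t2 g E _ hA ?_
    fun h hh j k => ⟨(hE h hh j k).1, (hE h hh j k).2, fun e => (e rfl).elim⟩
  · simpa [Finset.eq_univ_iff_forall] using hS'
  · rintro _ ⟨h, hh, rfl⟩ -
    exact ⟨h, hh, rfl⟩

end Vale.Agent.P007M
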