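import Vale.Agent.P007.Bdl.B16

/-!
# Unfolding with a condition on the ideal; the measure of a box
-/

set_option linter.all false

noncomputable section

open MeasureTheory Matrix NumberField Filter Topology Module
open scoped ENNReal nonZeroDivisors

namespace Vale.Agent.P007M

open Vale.Agent.P007 Vale.Agent.P007.R Vale.Agent.P007.Fib Vale.Agent.P007.N

variable {n : ℕ}

/-- `ν` is in the dual lattice of `M`. -/
def Du (M : Submodule ℤ (Fin n → ℝ)) (ν : Fin n → ℝ) : Prop := ∀ v ∈ M, ∃ z : ℤ, v ⬝ᵥ ν = z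

/-- The unfolding formula with a weight which depends on the ideal. -/
theorem unfold2 (D : Datum n) (φ : Submodule ℤ (Fin n → ℝ) → (Fin n → ℝ) → ℝ≥0∞)
    (hφ : ∀ M, Measurable (φ M)) :
    ∑' S : D.packet, ∫⁻ x, (∑' v : NZ x, φ (vmul v.1⁻¹ (Lx x)) v.1) ∂(orbMeas S.1) =
      ∑' M : MM D, ∑ w : Fin n → ℤˣ, ∫⁻ u : Fin (n - 1) → ℝ, φ M.1
        ((fun j => ((idx D M : ℝ) / √(D.disc : ℝ)) ^ ((n : ℝ)⁻¹) * ((w j : ℤ) : ℝ)) * ev u) := by
  obtain ⟨W⟩ := nonempty_OD D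
  have h1 : ∀ S : D.packet, ∫⁻ x, (∑' v : NZ x, φ (vmul v.1⁻¹ (Lx x)) v.1) ∂(orbMeas S.1) =
      ∑' v : NZ (W.x S), FI D W (φ (cl D W ⟨S, v⟩).1.1) ⟨S, v⟩ := by
    intro S
    rw [W.meas S, lintegral_map_section (W.sec S)]
    have h0 : ∀ u, ∑' v : NZ (tr (aexp u) (W.x S)), φ (vmul v.1⁻¹ (Lx (tr (aexp u) (W.x S)))) v.1 =
        ∑' v : NZ (W.x S), φ (vmul v.1⁻¹ (Lx (W.x S))) (v.1 * ev u) := fun u => by
      rw [← (nzEquiv (W.x S) u).tsum_eq]
      refine tsum_congr fun v => ?_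
      change φ (vmul (v.1 * ev u)⁻¹ _) (v.1 * ev u) = _
      rw [Lx_tr, vmul_vmul, mul_inv_rev', ev_inv, mul_assoc, ← ev_add, neg_add_cancel, ev_zero,
        mul_one]
    simp only [h0]
    exact lintegral_tsum fun v =>
      ((hφ _).comp (measurable_const.mul continuous_ev.measurable)).aemeasurable
  simp only [h1]
  rw [← ENNReal.tsum_sigma' (fun τ : TT D W => FI D W (φ (cl D W τ).1.1) τ)]
  rw [← (Equiv.sigmaFiberEquiv (cl D W)).tsum_eq, ENNReal.tsum_sigma']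
  have h2 : ∀ q : MM D × (Fin n → ℤˣ), ∑' τ : {τ : TT D W // cl D W τ = q},
      FI D W (φ (cl D W ((Equiv.sigmaFiberEquiv (cl D W)) ⟨q, τ⟩)).1.1)
        ((Equiv.sigmaFiberEquiv (cl D W)) ⟨q, τ⟩) = ∫⁻ u : Fin (n - 1) → ℝ, φ q.1.1
          ((fun j => ((idx D q.1 : ℝ) / √(D.disc : ℝ)) ^ ((n : ℝ)⁻¹) * ((q.2 j : ℤ) : ℝ)) * ev u) := by
    intro q
    obtain ⟨τ₀, rfl⟩ := exists_fiber D W q
    have h3 := sum_fiber D W (φ (cl D W τ₀).1.1) τ₀
    rw [nm_eq D W τ₀] at h3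
    refine Eq.trans (tsum_congr fun τ => ?_) h3
    change FI D W (φ (cl D W τ.1).1.1) τ.1 = _
    rw [τ.2]
  simp only [h2]
  rw [ENNReal.tsum_prod (f := fun (M : MM D) (w : Fin n → ℤˣ) => ∫⁻ u : Fin (n - 1) → ℝ, φ M.1
    ((fun j => ((idx D M : ℝ) / √(D.disc : ℝ)) ^ ((n : ℝ)⁻¹) * ((w j : ℤ) : ℝ)) * ev u))]
  simp only [tsum_fintype]

theorem one_le_idx (D : Datum n) (M : MM D) : 1 ≤ idx D M := by
  obtain ⟨W⟩ := nonempty_OD D
  obtain ⟨τ, h⟩ := exists_fiber D W (M, 1)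
  have h1 := nm_pos (coord_ne D (W.inv τ.1) τ.2)
  rw [nm_eq D W τ, h] at h1
  exact Nat.pos_of_ne_zero fun e => by simp [e] at h1

theorem one_le_sqrt (D : Datum n) : (1 : ℝ) ≤ √(D.disc : ℝ) := by
  have h := Real.sqrt_pos.1 (disc_pos D)
  exact Real.one_le_sqrt.2 (by exact_mod_cast Nat.cast_pos.1 h)

/-- The module `v⁻¹ Λ`. -/
def mmOf (D : Datum n) {x : X n} (hx : InvPt (RE D) x) (v : NZ x) : MM D :=
  ⟨vmul v.1⁻¹ (Lx x), (inv_Lx D hx).vmul (by
    rw [mul_comm]; exact mul_inv_vec (coord_ne D hx v)),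
    vmul_inv_mem (coord_ne D hx v) (mem_Lx.mpr v.2.1)⟩

/-- The measure of a set of lattices with a bounded vector `v` such that `v⁻¹ Λ ∈ T`. -/
theorem unf_le (D : Datum n) (hn : 2 ≤ n) {A : Set (X n)} (hA : MeasurableSet A) {R : ℝ}
    (hR : 1 ≤ R) (T : Finset (MM D)) (h : ∀ x ∈ A, ∀ hx : InvPt (RE D) x, ∃ v : NZ x,
      (∀ j, |v.1 j| < R) ∧
        ((idx D (mmOf D hx v) : ℝ) ≤ R ^ n * √(D.disc : ℝ) → mmOf D hx v ∈ T)) :
    D.packetMeas A ≤ (vol D)⁻¹ *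
      ENNReal.ofReal (T.card * 2 ^ n * Real.log (R ^ n * √(D.disc : ℝ)) ^ (n - 1)) := by
  classical
  set V : Set (Fin n → ℝ) := {v | ∀ i, |v i| < R} with hV
  have hVo : IsOpen V := by
    rw [hV, Set.setOf_forall]
    exact isOpen_iInter_of_finite fun i => isOpen_lt (continuous_apply i).abs continuous_const
  let φ : Submodule ℤ (Fin n → ℝ) → (Fin n → ℝ) → ℝ≥0∞ := fun M =>
    if ∃ M' : MM D, ((idx D M' : ℝ) ≤ R ^ n * √(D.disc : ℝ) → M' ∈ T) ∧ M'.1 = M then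
      V.indicator 1 else 0
  have hφ : ∀ M, Measurable (φ M) := fun M => by
    simp only [φ]
    split_ifs
    exacts [measurable_one.indicator hVo.measurableSet, measurable_zero]
  have hs := one_le_sqrt D
  have hRn : 1 ≤ R ^ n := one_le_pow₀ hR
  have hL : 0 ≤ Real.log (R ^ n * √(D.disc : ℝ)) := Real.log_nonneg (one_le_mul_of_one_le_of_one_le hRn hs)
  unfold Datum.packetMeas
  rw [Measure.smul_apply, Measure.sum_apply _ hA, smul_eq_mul]
  refine mul_le_mul_right ?_ _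
  obtain ⟨W⟩ := nonempty_OD D
  calc ∑' S : D.packet, orbMeas S.1 A
      ≤ ∑' S : D.packet, ∫⁻ x, (∑' v : NZ x, φ (vmul v.1⁻¹ (Lx x)) v.1) ∂(orbMeas S.1) := by
        refine ENNReal.tsum_le_tsum fun S => ?_
        rw [← lintegral_indicator_one hA, W.meas S, lintegral_map_section (W.sec S),
          lintegral_map_section (W.sec S)]
        refine lintegral_mono fun u => ?_
        by_cases hx : tr (aexp u) (W.x S) ∈ A
        · obtain ⟨v, h1, h2⟩ := h _ hx ((W.inv S).tr u)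
          rw [Set.indicator_of_mem hx]
          refine le_trans ?_ (ENNReal.le_tsum v)
          simp only [φ]
          rw [if_pos ⟨_, h2, rfl⟩, Set.indicator_of_mem (show v.1 ∈ V from h1)]
          rfl
        · rw [Set.indicator_of_notMem hx]
          exact zero_le
    _ ≤ ∑' M : MM D, if M ∈ T then
          ENNReal.ofReal (2 ^ n * Real.log (R ^ n * √(D.disc : ℝ)) ^ (n - 1)) else 0 := by
        rw [unfold2 D φ hφ]
        refine ENNReal.tsum_le_tsum fun M => ?_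
        have h1 : (1 : ℝ) ≤ idx D M := by exact_mod_cast one_le_idx D M
        have ht : 0 < (idx D M : ℝ) / √(D.disc : ℝ) := by positivity
        by_cases hM : M ∈ T
        · rw [if_pos hM]
          refine (Finset.sum_le_card_nsmul _ _
            (ENNReal.ofReal (Real.log (R ^ n * √(D.disc : ℝ)) ^ (n - 1))) fun w _ => ?_).trans ?_
          · simp only [φ]
            rw [if_pos ⟨M, fun _ => hM, rfl⟩]
            refine (inner_bound hn (by linarith) ht w).trans ?_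
            split_ifs with h2
            · refine ENNReal.ofReal_le_ofReal (pow_le_pow_left₀ (Real.log_nonneg ?_)
                (Real.log_le_log (by positivity) ?_) _)
              · exact (one_le_div ht).2 h2.le
              · rw [div_div_eq_mul_div]
                exact div_le_self (by positivity) h1
            · exact zero_le
          · rw [Finset.card_univ, Fintype.card_fun, Fintype.card_fin, Fintype.card_units_int,
              nsmul_eq_mul, ENNReal.ofReal_mul (by positivity), ENNReal.ofReal_pow (by norm_num) n]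
            simp
        · rw [if_neg hM]
          refine le_of_eq (Finset.sum_eq_zero fun w _ => ?_)
          simp only [φ]
          split_ifs with h2
          · obtain ⟨M', h2, h3⟩ := h2
            obtain rfl : M' = M := Subtype.ext h3
            refine le_antisymm ((inner_bound hn (by linarith) ht w).trans_eq (if_neg fun h4 => ?_))
              zero_le
            exact hM (h2 ((div_lt_iff₀ (by positivity)).1 h4).le)
          · simp
    _ = _ := by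
        rw [tsum_eq_sum (s := T) (fun m hm => if_neg hm), Finset.sum_congr rfl fun m hm => if_pos hm,
          Finset.sum_const, nsmul_eq_mul, mul_assoc, ENNReal.ofReal_mul (Nat.cast_nonneg _),
          ENNReal.ofReal_natCast]

/-- Minkowski for a lattice and, with weights, for its dual. -/
theorem exists_vw (hn : 0 < n) (g : G n) (u : Fin n → ℝ) (hu : ∑ j, u j = 0) :
    ∃ v w : Fin n → ℝ, v ≠ 0 ∧ w ≠ 0 ∧ v ∈ latS g ∧ Du (latS g) w ∧ (∀ j, |v j| ≤ 2) ∧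
      ∀ j, |w j| ≤ 2 * Real.exp (u j) := by
  obtain ⟨k, rfl⟩ : ∃ k, n = k + 1 := ⟨n - 1, by omega⟩
  have inj : ∀ (A : Matrix (Fin (k + 1)) (Fin (k + 1)) ℝ) (m : Fin (k + 1) → ℤ), A.det = 1 → m ≠ 0 →
      (fun i => (m i : ℝ)) ᵥ* A ≠ 0 := fun A m hA hm e => hm (funext fun i => by
    have := congrFun (Matrix.eq_zero_of_vecMul_eq_zero (hA.trans_ne one_ne_zero) e) i
    simpa using this)
  obtain ⟨m, hm, h1⟩ := Red.exists_short g.1 (g.2.trans_ne one_ne_zero) (by rw [g.2, abs_one])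
  have hd : ((g⁻¹).1ᵀ * diagonal fun j => Real.exp (-u j)).det = 1 := by
    rw [det_mul, det_transpose, (g⁻¹).2, det_diagonal, ← Real.exp_sum, Finset.sum_neg_distrib, hu]
    simp
  obtain ⟨m', hm', h2⟩ := Red.exists_short _ (hd.trans_ne one_ne_zero) (by rw [hd, abs_one])
  refine ⟨_, (fun i => (m' i : ℝ)) ᵥ* (g⁻¹).1ᵀ, inj _ m g.2 hm,
    inj _ m' (by rw [det_transpose, (g⁻¹).2]) hm', ⟨m, rfl⟩, ?_,
    fun j => (norm_le_pi_norm _ j).trans h1, fun j => ?_⟩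
  · rintro _ ⟨c, rfl⟩
    refine ⟨c ⬝ᵥ m', ?_⟩
    rw [vecMul_transpose, dotProduct_mulVec, vecMul_vecMul, coe_mul_inv, vecMul_one]
    simp [dotProduct]
  · have h3 := (norm_le_pi_norm _ j).trans h2
    rw [← vecMul_vecMul, vecMul_diagonal, Real.norm_eq_abs, abs_mul, Real.abs_exp, Real.exp_neg,
      ← div_eq_mul_inv, div_le_iff₀ (Real.exp_pos _)] at h3
    exact h3

/-- **The measure of a box** is bounded by the number of the ideals whose dual contains a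
nonzero `ν` in the box `e^u` with a given trace. -/
theorem ent_box (D : Datum n) (hn : 2 ≤ n) (g₀ : G n) (u : Fin n → ℝ) (hu : ∑ j, u j = 0) :
    ∃ (v₀ w₀ : Fin n → ℝ) (m : ℤ), v₀ ≠ 0 ∧ w₀ ≠ 0 ∧ v₀ ∈ latS g₀ ∧ Du (latS g₀) w₀ ∧
      (∀ j, |v₀ j| ≤ 2) ∧ (∀ j, |w₀ j| ≤ 2 * Real.exp (u j)) ∧ v₀ ⬝ᵥ w₀ = m ∧
      ∀ (C : ℝ) (E : Set (G n)) (A : Set (X n)) (T : Finset (MM D)), 0 ≤ C → MeasurableSet A →
        (∀ h ∈ E, ∀ j k, |h.1 j k| ≤ C ∧ |(h⁻¹).1 j k| ≤ C * Real.exp (u j - u k)) →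
        (∀ x ∈ A, InvPt (RE D) x → ∃ h ∈ E, x = pt (g₀ * h)) →
        (∀ h ∈ E, InvPt (RE D) (pt (g₀ * h)) → ∀ (M : MM D) (ν : Fin n → ℝ),
          M.1 = vmul (v₀ ᵥ* h.1)⁻¹ (latS (g₀ * h)) → ν = (v₀ ᵥ* h.1) * ((h⁻¹).1 *ᵥ w₀) →
          (idx D M : ℝ) ≤ (2 * n * C + 1) ^ n * √(D.disc : ℝ) →
          Du M.1 ν → ν ≠ 0 → (∀ j, |ν j| ≤ (2 * n * C) ^ 2 * Real.exp (u j)) → ∑ j, ν j = m →
          M ∈ T) →
        D.packetMeas A ≤ (vol D)⁻¹ * ENNReal.ofReal (T.card * 2 ^ n *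
          Real.log ((2 * n * C + 1) ^ n * √(D.disc : ℝ)) ^ (n - 1)) := by
  obtain ⟨v₀, w₀, a1, a2, a3, a4, a5, a6⟩ := exists_vw D.pos g₀ u hu
  obtain ⟨m, hm⟩ := a4 v₀ a3
  refine ⟨v₀, w₀, m, a1, a2, a3, a4, a5, a6, hm, fun C E A T hC hA hE hAE hT => ?_⟩
  refine unf_le D hn hA (le_add_of_nonneg_left (by positivity)) T fun x hxA hx => ?_
  obtain ⟨h, hh, rfl⟩ := hAE x hxA hx
  have key : ∀ y : Fin n → ℝ, (y ᵥ* h.1) ⬝ᵥ ((h⁻¹).1 *ᵥ w₀) = y ⬝ᵥ w₀ := fun y => by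
    rw [dotProduct_mulVec, vecMul_vecMul, coe_mul_inv, vecMul_one]
  have hmem : ∀ y, y ∈ latS (g₀ * h) ↔ ∃ y₀ ∈ latS g₀, y₀ ᵥ* h.1 = y := fun y => by
    rw [mem_latS, Stab.lat_mul]
    rfl
  have b1 : ∀ k, |(v₀ ᵥ* h.1) k| ≤ 2 * n * C := fun k => by
    change |∑ j, v₀ j * h.1 j k| ≤ _
    refine (Finset.abs_sum_le_sum_abs _ _).trans ((Finset.sum_le_card_nsmul _ _ (2 * C)
      fun j _ => ?_).trans (le_of_eq ?_))
    · rw [abs_mul]
      exact mul_le_mul (a5 j) (hE h hh j k).1 (abs_nonneg _) two_pos.le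
    · simp only [Finset.card_univ, Fintype.card_fin, nsmul_eq_mul]
      ring
  have b2 : ∀ j, |((h⁻¹).1 *ᵥ w₀) j| ≤ 2 * n * C * Real.exp (u j) := fun j => by
    change |∑ k, (h⁻¹).1 j k * w₀ k| ≤ _
    refine (Finset.abs_sum_le_sum_abs _ _).trans ((Finset.sum_le_card_nsmul _ _
      (2 * C * Real.exp (u j)) fun k _ => ?_).trans (le_of_eq ?_))
    · rw [abs_mul]
      refine (mul_le_mul (hE h hh j k).2 (a6 k) (abs_nonneg _) (by positivity)).trans (le_of_eq ?_)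
      rw [Real.exp_sub]
      field_simp
    · simp only [Finset.card_univ, Fintype.card_fin, nsmul_eq_mul]
      ring
  let v : NZ (pt (g₀ * h)) := ⟨v₀ ᵥ* h.1, by
    rw [latx_pt]; exact (hmem _).2 ⟨v₀, a3, rfl⟩, fun e =>
    a1 (Matrix.eq_zero_of_vecMul_eq_zero (h.2.trans_ne one_ne_zero) e)⟩
  have hv : ∀ j, (v₀ ᵥ* h.1) j ≠ 0 := coord_ne D hx v
  have hM : (mmOf D hx v).1 = vmul (v₀ ᵥ* h.1)⁻¹ (latS (g₀ * h)) :=
    congrArg (vmul (v₀ ᵥ* h.1)⁻¹) (Lx_pt _)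
  refine ⟨v, fun j => (b1 j).trans_lt (lt_add_one _), fun hi =>
    hT h hh hx _ _ hM rfl hi ?_ ?_ ?_ ?_⟩
  · rw [hM]
    intro y₂ hy₂
    obtain ⟨y₁, hy₁, rfl⟩ := mem_vmul.1 hy₂
    obtain ⟨y, hy, rfl⟩ := (hmem y₁).1 hy₁
    obtain ⟨z, hz⟩ := a4 y hy
    refine ⟨z, ?_⟩
    rw [← hz, ← key y]
    refine Finset.sum_congr rfl fun j _ => ?_
    have := hv j
    simp only [Pi.mul_apply, Pi.inv_apply]
    field_simp
  · intro e
    refine a2 (Matrix.eq_zero_of_mulVec_eq_zero (M := (h⁻¹).1) ((h⁻¹).2.trans_ne one_ne_zero)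
      (funext fun j => ?_))
    exact (mul_eq_zero.1 (congrFun e j)).resolve_left (hv j)
  · intro j
    rw [Pi.mul_apply, abs_mul, sq, mul_assoc (2 * n * C)]
    exact mul_le_mul (b1 j) (b2 j) (abs_nonneg _) (by positivity)
  · rw [← hm, ← key v₀]
    rfl

end Vale.Agent.P007M
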