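import Vale.Agent.P007M.Ent
import Vale.Agent.P007M.CntM

/-!
# P007 / M : the entropy statement
-/

namespace Vale.Agent.P007M

theorem entStmt {n : ℕ} (hn : 3 ≤ n) : EntStmt n := ent_of hn (cntM (by omega))

end Vale.Agent.P007M
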