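import Vale.Agent.P007M.IfcA
import Vale.Agent.P007.S11.MainAll

/-! Equidistribution from the entropy bound and the rigidity statement. -/

set_option autoImplicit false

open MeasureTheory Filter Topology NumberField
open scoped ENNReal

namespace Vale.Agent.P007M

open Vale.Agent.P007 Vale.Agent.P007.Fib Vale.Agent.P007.R

variable {n : ℕ}

/-- rigidity: invariant measures with the entropy bounds give small mass to a neighbourhood of the
lattices with real multiplication by `p` -/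
def MainStmt (n : ℕ) : Prop := ∀ p : Fin n → ℝ, H11.IsMult p → ∀ c₀ a : ℝ, 0 < c₀ → 0 < a →
  ∃ ε₀ : ℝ, 0 < ε₀ ∧ ∀ Ω : Set (X n), IsCompact Ω → ∃ V : Set (X n), IsOpen V ∧ Yd p ⊆ V ∧
    ∃ B Λ τ₀ : ℝ, 1 ≤ B ∧ 1 ≤ Λ ∧ ∀ (μ : Measure (X n)) [IsProbabilityMeasure μ], AInv μ →
      μ.real Ωᶜ ≤ ε₀ → ∀ τ₁ : ℝ, τ₀ ≤ τ₁ → (∀ τ, τ₁ ≤ τ → τ ≤ Λ * τ₁ → EntB μ Ω B c₀ τ) →
        μ.real V ≤ a

theorem ainv_packet (D : Datum n) : AInv D.packetMeas := fun β => by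
  obtain ⟨u, hu⟩ := N.exists_aexp_da D.pos β
  rw [← hu]
  exact packetMeas_map D u

/-- equidistribution for the orders with `Lam γ` -/
theorem equi_datum (hn3 : 3 ≤ n) (hkey : S11.KeyStmt n) (hmain : MainStmt n) (hent : EntStmt n)
    (D : ℕ → Datum n) (hdisc : Tendsto (fun i => (D i).disc) atTop atTop) {γ : ℝ} (hγ : 0 < γ)
    (hL : ∀ᶠ i in atTop, Lam γ (D i)) {m : Measure (X n)} (hm : IsInvProb m) :
    WeakTo (fun i => (D i).packetMeas) m := by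
  refine (S11.O3.criterion_fam hn3 hkey D hdisc hm).2 fun p hp L hL' _ ε hε => ?_
  obtain ⟨c₀, hc₀, hent⟩ := hent
  obtain ⟨η, hη, hent⟩ := hent γ hγ
  obtain ⟨a, ha0, ha⟩ : ∃ a : ℝ, 0 < a ∧ ENNReal.ofReal a ≤ ε := by
    rcases eq_or_ne ε ⊤ with rfl | h
    · exact ⟨1, one_pos, le_top⟩
    · exact ⟨ε.toReal, ENNReal.toReal_pos hε.ne' h, (ENNReal.ofReal_toReal h).le⟩
  obtain ⟨ε₀, hε₀, hmain⟩ := hmain p hp c₀ a hc₀ ha0
  obtain ⟨Ω, hΩ, htight⟩ := S11.O3.tightness_fam hn3 hkey D hdisc (ENNReal.ofReal ε₀)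
    (ENNReal.ofReal_pos.2 hε₀)
  obtain ⟨V, hV, hYV, B, Λ, τ₀, hB, hΛ, hmain⟩ := hmain Ω hΩ
  have hΛ0 : 0 < Λ := by linarith
  obtain ⟨D₀, hent⟩ := hent Ω (η / Λ) B hΩ (by positivity) hB
  refine ⟨V, hV, hL'.trans hYV, ?_⟩
  have hlog : Tendsto (fun i => η / Λ * Real.log ((D i).disc : ℝ)) atTop atTop :=
    (Real.tendsto_log_atTop.comp (tendsto_natCast_atTop_atTop.comp hdisc)).const_mul_atTop
      (by positivity)
  filter_upwards [htight, hL, hdisc.eventually_ge_atTop D₀, hlog.eventually_ge_atTop τ₀]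
    with i h1 h2 h3 h4
  have := packetMeas_prob (D i)
  have h5 : (D i).packetMeas.real V ≤ a := by
    refine hmain _ (ainv_packet (D i)) (ENNReal.toReal_le_of_le_ofReal hε₀.le h1) _ h4
      fun τ e1 e2 => hent (D i) h3 h2 τ e1 (e2.trans_eq ?_)
    field_simp
  refine le_trans ?_ ha
  rw [← ENNReal.ofReal_toReal (measure_ne_top (D i).packetMeas V)]
  exact ENNReal.ofReal_le_ofReal h5

end Vale.Agent.P007M
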