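import Vale.Agent.P007M.Main
import Vale.Agent.P007M.Ent
import Vale.Agent.P007M.CntM
import Vale.Agent.P007.S11.Final

/-! Equidistribution in terms of the definitions of the final statement. -/

set_option autoImplicit false

open MeasureTheory Filter Topology NumberField

namespace Vale.Agent.P007M

open Vale.Agent.P007.F

variable {n : ℕ} {K : ℕ → Type} [∀ i, Field (K i)] [∀ i, NumberField (K i)]
  {O : ∀ i, Subring (𝓞 (K i))} {σ : ∀ i, Fin n ≃ (K i →+* ℝ)} {μ : ℕ → Measure (X n)}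
  {m : Measure (X n)}

theorem equi_spread (hn3 : 3 ≤ n) (hmain : MainStmt n)
    (h : ∀ i, PacketMeas (K i) (O i) (σ i) (μ i))
    (hd : Tendsto (fun i => disc (K i) (O i)) atTop atTop) (hm : IsInvProb m) {γ : ℝ} (hγ : 0 < γ)
    (hL : ∀ᶠ i in atTop, ∀ a ∈ O i, (∀ z : ℤ, a ≠ z) →
      ∃ j k, (disc (K i) (O i) : ℝ) ^ γ ≤ |σ i j a - σ i k a|) : WeakTo μ m := by
  rw [seq_eq h]
  refine equi_datum hn3 (Vale.Agent.P007.S11.keyStmt n hn3) hmain (ent_of hn3 (cntM (by omega)))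
    (fun i => Vale.Agent.P007.T.mkD (isDatum (h i).1)) hd hγ (hL.mono fun i hi a ha hz => ?_) hm
  obtain ⟨r, hr, rfl⟩ := (Vale.Agent.P007.Fib.mem_RE _).1 ha
  refine hi r hr fun z e => hz z ?_
  funext j
  have e' : σ i j (((z : 𝓞 (K i)) : K i)) = z := by simp
  rw [e]
  exact e'

theorem equi_prim (hn3 : 3 ≤ n) (hmain : MainStmt n)
    (h : ∀ i, PacketMeas (K i) (O i) (σ i) (μ i))
    (hd : Tendsto (fun i => disc (K i) (O i)) atTop atTop) (hm : IsInvProb m)
    (hp : ∀ i, ∀ E : IntermediateField ℚ (K i), E = ⊥ ∨ E = ⊤) : WeakTo μ m := by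
  rw [seq_eq h]
  have h3 : (3 : ℝ) ≤ n := by exact_mod_cast hn3
  have h4 : (0 : ℝ) < n - 1 := by linarith
  exact equi_datum hn3 (Vale.Agent.P007.S11.keyStmt n hn3) hmain (ent_of hn3 (cntM (by omega)))
    (fun i => Vale.Agent.P007.T.mkD (isDatum (h i).1)) hd (γ := 1 / ((n : ℝ) * (n - 1)))
    (by positivity) (Eventually.of_forall fun i a ha hz =>
      (lam_one _ (by omega) (hp i) ha).resolve_left fun ⟨z, e⟩ => hz z e) hm

end Vale.Agent.P007M
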