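import Vale.Agent.P007M.Reg
import Mathlib.Tactic

/-!
# P007M: the information theoretic part of the Heisenberg lemma
-/

open MeasureTheory Finset

namespace Vale.Agent.P007M.HInf

open Vale.Agent.P007M.Reg

noncomputable section

variable {n : ℕ}

/-- Heisenberg arrays -/
def Q (d θ : ℝ) (j i k : Fin n) (x y z : ℝ) : Th n :=
  up (up (bs d j i x θ) i k y) j k z

variable {d θ r R Λ C C' x y z : ℝ} {j i k p q : Fin n}

section arr

variable (hji : j ≠ i) (hik : i ≠ k) (hjk : j ≠ k)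
include hji hik hjk

theorem Q1 : Q d θ j i k x y z j i = x := by
  have _ := hjk
  rw [Q, up_ne fun e => hik e.2, up_ne fun e => hji e.1, bs_self]

omit hik hjk in
theorem Q2 : Q d θ j i k x y z i k = y := by
  rw [Q, up_ne fun e => hji e.1.symm, up_self]

omit hji hik hjk in
theorem Q3 : Q d θ j i k x y z j k = z := up_self

theorem Qd : Q d θ j i k x y z p p = d := by
  rw [Q, up_ne fun e => hjk (e.1.symm.trans e.2), up_ne fun e => hik (e.1.symm.trans e.2),
    bs_diag hji]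

omit hji hik hjk in
theorem Qo (h : p ≠ q) (h1 : ¬(p = j ∧ q = i)) (h2 : ¬(p = i ∧ q = k)) (h3 : ¬(p = j ∧ q = k)) :
    Q d θ j i k x y z p q = θ := by
  rw [Q, up_ne h3, up_ne h2, bs_ne h h1]

theorem Qc (h : p ≠ q) : Q d θ j i k x y z p q = θ ∨
    (p = j ∧ q = i ∧ Q d θ j i k x y z p q = x) ∨ (p = i ∧ q = k ∧ Q d θ j i k x y z p q = y) ∨
    (p = j ∧ q = k ∧ Q d θ j i k x y z p q = z) := by
  by_cases h1 : p = j ∧ q = i
  · exact .inr (.inl ⟨h1.1, h1.2, by rw [h1.1, h1.2, Q1 hji hik hjk]⟩)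
  by_cases h2 : p = i ∧ q = k
  · exact .inr (.inr (.inl ⟨h2.1, h2.2, by rw [h2.1, h2.2, Q2 hji]⟩))
  by_cases h3 : p = j ∧ q = k
  · exact .inr (.inr (.inr ⟨h3.1, h3.2, by rw [h3.1, h3.2, Q3]⟩))
  exact .inl (Qo h h1 h2 h3)

theorem Qext {t : Th n} (h0 : ∀ p, t p p = d) (h1 : t j i = x) (h2 : t i k = y) (h3 : t j k = z)
    (h4 : ∀ p q, p ≠ q → ¬(p = j ∧ q = i) → ¬(p = i ∧ q = k) → ¬(p = j ∧ q = k) → t p q = θ) :
    t = Q d θ j i k x y z := by
  funext p q
  by_cases e : p = q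
  · rw [e, h0, Qd hji hik hjk]
  by_cases e1 : p = j ∧ q = i
  · rw [e1.1, e1.2, h1, Q1 hji hik hjk]
  by_cases e2 : p = i ∧ q = k
  · rw [e2.1, e2.2, h2, Q2 hji]
  by_cases e3 : p = j ∧ q = k
  · rw [e3.1, e3.2, h3, Q3]
  rw [h4 p q e e1 e2 e3, Qo e e1 e2 e3]

theorem up1 (b : ℝ) : up (Q d θ j i k x y z) j i b = Q d θ j i k b y z :=
  Qext hji hik hjk (fun p => by rw [up_ne fun e => hji (e.1.symm.trans e.2), Qd hji hik hjk])
    up_self (by rw [up_ne fun e => hji e.1.symm, Q2 hji]) (by rw [up_ne fun e => hik e.2.symm, Q3])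
    fun p q e e1 e2 e3 => by rw [up_ne e1, Qo e e1 e2 e3]

theorem up2 (b : ℝ) : up (Q d θ j i k x y z) i k b = Q d θ j i k x b z :=
  Qext hji hik hjk (fun p => by rw [up_ne fun e => hik (e.1.symm.trans e.2), Qd hji hik hjk])
    (by rw [up_ne fun e => hji e.1, Q1 hji hik hjk]) up_self (by rw [up_ne fun e => hji e.1, Q3])
    fun p q e e1 e2 e3 => by rw [up_ne e2, Qo e e1 e2 e3]

omit hji hik hjk in
theorem up3 (b : ℝ) : up (Q d θ j i k x y z) j k b = Q d θ j i k x y b := up_up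

theorem Qmono {x' y' z' : ℝ} (h1 : x ≤ x') (h2 : y ≤ y') (h3 : z ≤ z') :
    Q d θ j i k x y z ≤ Q d θ j i k x' y' z' :=
  have _ := hji
  have _ := hik
  have _ := hjk
  up_mono (up_mono (up_mono le_rfl h1) h2) h3

theorem Qsup {x' y' z' : ℝ} : Q d θ j i k x y z ⊔ Q d θ j i k x' y' z' =
    Q d θ j i k (max x x') (max y y') (max z z') :=
  Qext hji hik hjk (fun p => by simp [Qd hji hik hjk]) (by simp [Q1 hji hik hjk])
    (by simp [Q2 hji]) (by simp [Q3]) fun p q e e1 e2 e3 => by simp [Qo e e1 e2 e3]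

theorem valQ (d0 : 0 ≤ d) (dθ : d ≤ θ) (x0 : 0 ≤ x) (y0 : 0 ≤ y) (z0 : 0 ≤ z) (xθ : x ≤ θ)
    (yθ : y ≤ θ) (zθ : z ≤ θ) (h : z ≤ x + y) : Val d (Q d θ j i k x y z) := by
  refine ⟨fun p => Qd hji hik hjk, fun p l q => ?_⟩
  by_cases e2 : p = l
  · rw [← e2, Qd hji hik hjk]
    linarith
  by_cases e3 : l = q
  · rw [e3, Qd hji hik hjk]
    linarith
  have e4 : Q d θ j i k x y z p q ≤ θ := by
    by_cases e1 : p = q
    · rw [e1, Qd hji hik hjk]; exact dθ
    · rcases Qc (d := d) (θ := θ) (x := x) (y := y) (z := z) hji hik hjk e1 with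
        b | ⟨-, -, b⟩ | ⟨-, -, b⟩ | ⟨-, -, b⟩ <;> linarith
  rcases Qc (d := d) (θ := θ) (x := x) (y := y) (z := z) hji hik hjk e2 with
      b | ⟨b1, b2, b⟩ | ⟨b1, b2, b⟩ | ⟨b1, b2, b⟩ <;>
    rcases Qc (d := d) (θ := θ) (x := x) (y := y) (z := z) hji hik hjk e3 with
      c | ⟨c1, c2, c⟩ | ⟨c1, c2, c⟩ | ⟨c1, c2, c⟩
  all_goals first
    | linarith
    | exact absurd (c1.symm.trans b2) hji
    | exact absurd (c1.symm.trans b2) hjk
    | exact absurd (c1.symm.trans b2) hik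
    | (rw [b, c, b1, c2, Q3]; exact h)

theorem inQ {u : Fin n → ℝ} {W a : ℝ} {a1 a2 : Fin n} (d0 : 0 ≤ d) (dr : d ≤ r)
    (v : Val d (Q d θ j i k x y z)) (hu : ∀ p q, u p - u q ≤ W) (h1 : r + W ≤ θ) (h2 : θ + W ≤ R)
    (hl : Q d θ j i k x y z a1 a2 + (u a1 - u a2) = a)
    (b1 : ¬(j = a1 ∧ i = a2) → r ≤ x + (u j - u i) ∧ x + (u j - u i) ≤ R)
    (b2 : ¬(i = a1 ∧ k = a2) → r ≤ y + (u i - u k) ∧ y + (u i - u k) ≤ R)
    (b3 : ¬(j = a1 ∧ k = a2) → r ≤ z + (u j - u k) ∧ z + (u j - u k) ≤ R) :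
    In d r R a1 a2 a (Q d θ j i k x y z + dl u) := by
  refine ⟨d0, dr, v.shift u, hl, fun p q e e' => ?_⟩
  simp only [Pi.add_apply, dl]
  rcases Qc (d := d) (θ := θ) (x := x) (y := y) (z := z) hji hik hjk e with
      b | ⟨c1, c2, b⟩ | ⟨c1, c2, b⟩ | ⟨c1, c2, b⟩
  · rw [b]
    exact ⟨by linarith [hu q p], by linarith [hu p q]⟩
  · rw [b]; subst c1 c2; exact b1 e'
  · rw [b]; subst c1 c2; exact b2 e'
  · rw [b]; subst c1 c2; exact b3 e'

end arr

theorem dl_add (t : Th n) (u v : Fin n → ℝ) : t + dl u + dl v = t + dl (u + v) := by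
  funext p q
  simp only [Pi.add_apply, dl]
  ring

variable {X : Type*} [MeasurableSpace X] {μ : Measure X} {f : Th n → X → ℝ}

/-- two arrays which are shifted into the regime by the same element -/
theorem cmp (g : Rg μ f d r R Λ C) {u : Fin n → ℝ} {S : X → X} (A : Act μ f d u S) (hjk : j ≠ k)
    {l : ℝ} {t t' : Th n} (hl : 0 ≤ l) (hΛ : l ≤ Λ) (hr : Λ ≤ 2 * r)
    (i : In d r R j k 0 (t + dl u)) (i' : In d r R j k 0 (t' + dl u)) :
    Integrable (fun x => J f t j k (t j k + l) x - J f t' j k (t' j k + l) x) μ ∧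
      ∫ x, |J f t j k (t j k + l) x - J f t' j k (t' j k + l) x| ∂μ ≤ 2 * C := by
  obtain ⟨a1, a2⟩ := g.eqv A hjk hl le_rfl (by linarith) hr i i
  obtain ⟨b1, b2⟩ := g.eqv A hjk hl le_rfl (by linarith) hr i' i
  refine ⟨(a1.sub b1).congr (ae_of_all _ fun x => by simp), ?_⟩
  refine (integral_mono_of_nonneg (ae_of_all _ fun x => abs_nonneg _) (a1.abs.add b1.abs)
    (ae_of_all _ fun x => ?_)).trans ?_
  · exact (abs_sub_le _ _ _).trans_eq (congrArg _ (abs_sub_comm _ _))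
  · refine (integral_add a1.abs b1.abs).trans_le ?_
    linarith

/-- the mean information is invariant under shifts -/
theorem mean_shift (h : Info μ f d C') {u : Fin n → ℝ} {S : X → X} (A : Act μ f d u S)
    {t t' : Th n} (v : Val d t) (v' : Val d t') (e : t ≤ t') :
    ∫ x, f (t' + dl u) x - f (t + dl u) x ∂μ = ∫ x, f t' x - f t x ∂μ := by
  have i := h.int _ _ (v.shift u) (v'.shift u) (add_le_add_left e _)
  conv_lhs => rw [← A.mp.map_eq]
  rw [integral_map A.mp.measurable.aemeasurable (by rw [A.mp.map_eq]; exact i.aestronglyMeasurable)]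
  refine integral_congr_ae ?_
  filter_upwards [A.eqv _ v, A.eqv _ v'] with x e1 e2
  rw [e1, e2]

theorem sing_le {w W : ℝ} (a p q : Fin n) (h : |w| ≤ W) :
    (Pi.single a w : Fin n → ℝ) p - (Pi.single a w : Fin n → ℝ) q ≤ W := by
  have h0 := (abs_nonneg w).trans h
  rw [abs_le] at h
  by_cases e1 : p = a <;> by_cases e2 : q = a <;> simp [e1, e2] <;>
    linarith [h.1, h.2]

/-- the thin slab in the entry `ji` carries little information on the two other entries -/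
theorem tele (h : Info μ f d C') (g : Rg μ f d r R Λ C) (hA : ∀ u, ∃ S, Act μ f d u S)
    (hji : j ≠ i) (hik : i ≠ k) (hjk : j ≠ k) (d0 : 0 ≤ d) (dr : d ≤ r) (hΛ0 : 0 < Λ)
    (hΛ : Λ ≤ r) (h1 : 6 * r ≤ θ) (h2 : θ + 5 * r ≤ R) {s : ℝ} (s0 : 0 ≤ s) (hs : s ≤ Λ) :
    ∃ w : ℝ, 0 ≤ w ∧ w + s ≤ 3 * r ∧
      ∫ x, f (Q d θ j i k (2 * r) w w) x - f (Q d θ j i k 0 w w) x ∂μ -
        ∫ x, f (Q d θ j i k (2 * r) (w + s) (w + s)) x - f (Q d θ j i k 0 (w + s) (w + s)) x ∂μ ≤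
        2 * C := by
  have r0 : 0 < r := hΛ0.trans_le hΛ
  set K : ℕ := ⌈2 * r / Λ⌉₊ with hK
  have K1 : 2 * r / Λ ≤ K := Nat.le_ceil _
  have K2 : (K : ℝ) < 2 * r / Λ + 1 := Nat.ceil_lt_add_one (by positivity)
  have K0 : (0 : ℝ) < K := lt_of_lt_of_le (by positivity) K1
  have K3 : K * Λ ≤ 3 * r := by
    have := mul_le_mul_of_nonneg_right K2.le hΛ0.le
    rw [add_mul, div_mul_cancel₀ _ hΛ0.ne'] at this
    linarith
  have K4 : K * s ≤ 3 * r := (mul_le_mul_of_nonneg_left hs K0.le).trans K3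
  set l : ℝ := 2 * r / K with hl
  have l0 : 0 ≤ l := by positivity
  have l1 : l ≤ Λ := by
    rw [hl, div_le_iff₀ K0]
    rw [div_le_iff₀ hΛ0] at K1
    linarith
  have l2 : K * l = 2 * r := by rw [hl]; field_simp
  have v : ∀ a w : ℝ, 0 ≤ a → a ≤ 2 * r → 0 ≤ w → w ≤ 3 * r → Val d (Q d θ j i k a w w) :=
    fun a w a0 a1 w0 w1 => valQ hji hik hjk d0 (by linarith) a0 w0 w0 (by linarith) (by linarith)
      (by linarith) (by linarith)
  set F : ℝ → ℝ → ℝ := fun a w => ∫ x, f (Q d θ j i k a w w) x - f (Q d θ j i k 0 w w) x ∂μ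
    with hF
  have step : ∀ m ∈ range K, (F ((m + 1 : ℕ) * l) 0 - F ((m + 1 : ℕ) * l) (K * s)) -
      (F (m * l) 0 - F (m * l) (K * s)) ≤ 2 * C := by
    intro m hm
    have m1 : ((m + 1 : ℕ) : ℝ) ≤ K := Nat.cast_le.2 (mem_range.1 hm)
    have m0 : (0 : ℝ) ≤ m * l := by positivity
    have m2 : ((m + 1 : ℕ) : ℝ) * l = m * l + l := by push_cast; ring
    have m3 : m * l + l ≤ 2 * r := by
      rw [← m2, ← l2]; exact mul_le_mul_of_nonneg_right m1 l0
    set u : Fin n → ℝ := Pi.single j (-(m * l)) + Pi.single k (-(3 * r)) with hu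
    have uj : u j = -(m * l) := by simp [hu, hjk]
    have ui : u i = 0 := by simp [hu, hji.symm, hik]
    have uk : u k = -(3 * r) := by simp [hu, hjk.symm]
    have hW : ∀ p q, u p - u q ≤ 5 * r := fun p q => by
      have a1 := sing_le (w := -(m * l)) (W := 2 * r) j p q (by rw [abs_neg, abs_of_nonneg m0]; linarith)
      have a2 := sing_le (w := -(3 * r)) (W := 3 * r) k p q
        (by rw [abs_neg, abs_of_nonneg (by linarith)])
      simp only [hu, Pi.add_apply]
      linarith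
    obtain ⟨S, A⟩ := hA u
    have i0 : ∀ w : ℝ, 0 ≤ w → w ≤ 3 * r → In d r R j i 0 (Q d θ j i k (m * l) w w + dl u) :=
      fun w w0 w1 => inQ hji hik hjk d0 dr (v _ _ m0 (by linarith) w0 w1) hW (by linarith) h2
        (by rw [Q1 hji hik hjk, uj, ui]; ring) (fun e => absurd ⟨rfl, rfl⟩ e)
        (fun _ => by rw [ui, uk]; constructor <;> linarith)
        (fun _ => by rw [uj, uk]; constructor <;> linarith)
    obtain ⟨c1, c2⟩ := cmp g A hji l0 l1 (by linarith) (i0 0 le_rfl (by linarith))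
      (i0 (K * s) (by positivity) K4)
    simp only [J, Q1 hji hik hjk, up1 hji hik hjk] at c1 c2
    have e : ∀ w : ℝ, 0 ≤ w → w ≤ 3 * r → F (m * l + l) w - F (m * l) w =
        ∫ x, f (Q d θ j i k (m * l + l) w w) x - f (Q d θ j i k (m * l) w w) x ∂μ := by
      intro w w0 w1
      have v0 := v 0 w le_rfl (by linarith) w0 w1
      rw [hF, ← integral_sub
        (h.int _ _ v0 (v _ w (by linarith) m3 w0 w1) (Qmono hji hik hjk (by linarith) le_rfl le_rfl))
        (h.int _ _ v0 (v _ w m0 (by linarith) w0 w1) (Qmono hji hik hjk m0 le_rfl le_rfl))]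
      exact integral_congr_ae (ae_of_all _ fun x => by ring)
    have i1 : ∀ w : ℝ, 0 ≤ w → w ≤ 3 * r → Integrable
        (fun x => f (Q d θ j i k (m * l + l) w w) x - f (Q d θ j i k (m * l) w w) x) μ :=
      fun w w0 w1 => h.int _ _ (v _ w m0 (by linarith) w0 w1) (v _ w (by linarith) m3 w0 w1)
        (Qmono hji hik hjk (by linarith) le_rfl le_rfl)
    have e1 := e 0 le_rfl (by linarith)
    have e2 := e (K * s) (by positivity) K4
    have e3 := integral_sub (i1 0 le_rfl (by linarith)) (i1 (K * s) (by positivity) K4)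
    have e4 := integral_mono c1 c1.abs fun x => le_abs_self _
    rw [m2]
    linarith
  have tot : F (2 * r) 0 - F (2 * r) (K * s) ≤ K * (2 * C) := by
    have a := sum_le_card_nsmul _ _ _ step
    rw [sum_range_sub (fun m : ℕ => F (m * l) 0 - F (m * l) (K * s)), card_range, nsmul_eq_mul,
      l2] at a
    simpa [hF] using a
  obtain ⟨m, hm, e⟩ : ∃ m ∈ range K, F (2 * r) (m * s) - F (2 * r) ((m + 1 : ℕ) * s) ≤ 2 * C := by
    refine exists_le_of_sum_le ⟨0, mem_range.2 (Nat.cast_pos.1 K0)⟩ ?_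
    rw [sum_range_sub' (fun m : ℕ => F (2 * r) (m * s)), sum_const, card_range, nsmul_eq_mul]
    simpa using tot
  have m1 : ((m + 1 : ℕ) : ℝ) ≤ K := Nat.cast_le.2 (mem_range.1 hm)
  have m2 : ((m + 1 : ℕ) : ℝ) * s = m * s + s := by push_cast; ring
  refine ⟨m * s, by positivity, ?_, ?_⟩
  · rw [← m2]; exact (mul_le_mul_of_nonneg_right m1 s0).trans K4
  · rw [m2] at e; exact e

/-- normalised Heisenberg arrays -/
def P (d θ w : ℝ) (j i k : Fin n) (x y z : ℝ) : Th n :=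
  Q d θ j i k x (y + w) (z + w) + dl (Pi.single k w)

section arrP

variable {w : ℝ} (hji : j ≠ i) (hik : i ≠ k) (hjk : j ≠ k)
include hji hik hjk

theorem P1 : P d θ w j i k x y z j i = x := by
  simp [P, dl, Q1 hji hik hjk, hik, hjk]

theorem P2 : P d θ w j i k x y z i k = y := by
  have _ := hjk
  simp [P, dl, Q2 hji, hik]

theorem P3 : P d θ w j i k x y z j k = z := by
  have _ := hji
  have _ := hik
  simp [P, dl, Q3, hjk]

theorem Pd : P d θ w j i k x y z p p = d := by simp [P, dl, Qd hji hik hjk]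

theorem Po (h1 : ¬(p = j ∧ q = i)) (h2 : ¬(p = i ∧ q = k)) (h3 : ¬(p = j ∧ q = k))
    (x' y' z' : ℝ) : P d θ w j i k x y z p q = P d θ w j i k x' y' z' p q := by
  by_cases e : p = q
  · rw [e, Pd hji hik hjk, Pd hji hik hjk]
  · simp only [P, Pi.add_apply, Qo e h1 h2 h3]

theorem Pge {s : ℝ} (w0 : 0 ≤ w) (hd : s ≤ d) (hs : s + w ≤ θ) (h1 : ¬(p = j ∧ q = i))
    (h2 : ¬(p = i ∧ q = k)) (h3 : ¬(p = j ∧ q = k)) : s ≤ P d θ w j i k x y z p q := by
  by_cases e : p = q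
  · rw [e, Pd hji hik hjk]; exact hd
  · have := sing_le (w := w) (W := w) k q p (abs_of_nonneg w0).le
    simp only [P, Pi.add_apply, Qo e h1 h2 h3, dl]
    linarith

theorem upP1 (b : ℝ) : up (P d θ w j i k x y z) j i b = P d θ w j i k b y z := by
  rw [P, P, ← up1 (x := x) hji hik hjk b, up_shift]
  simp [hik, hjk]

theorem upP2 (b : ℝ) : up (P d θ w j i k x y z) i k b = P d θ w j i k x b z := by
  rw [P, P, ← up2 (y := y + w) hji hik hjk (b + w), up_shift]
  simp [hik]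

theorem upP3 (b : ℝ) : up (P d θ w j i k x y z) j k b = P d θ w j i k x y b := by
  have _ := hji
  have _ := hik
  rw [P, P, ← up3 (z := z + w) (b + w), up_shift]
  simp [hjk]

theorem Pmono {x' y' z' : ℝ} (h1 : x ≤ x') (h2 : y ≤ y') (h3 : z ≤ z') :
    P d θ w j i k x y z ≤ P d θ w j i k x' y' z' :=
  add_le_add_left (Qmono hji hik hjk h1 (by linarith) (by linarith)) _

theorem Psup {x' y' z' : ℝ} : P d θ w j i k x y z ⊔ P d θ w j i k x' y' z' =
    P d θ w j i k (max x x') (max y y') (max z z') := by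
  rw [P, P, P, ← max_add_add_right, ← max_add_add_right, ← Qsup hji hik hjk, sup_add]

theorem valP (d0 : 0 ≤ d) (dθ : d ≤ θ) (w0 : 0 ≤ w) (x0 : 0 ≤ x) (y0 : 0 ≤ y) (z0 : 0 ≤ z)
    (xθ : x ≤ θ) (yθ : y + w ≤ θ) (zθ : z + w ≤ θ) (h : z ≤ x + y) :
    Val d (P d θ w j i k x y z) :=
  (valQ hji hik hjk d0 dθ x0 (by linarith) (by linarith) xθ yθ zθ (by linarith)).shift _

end arrP

/-- the four comparisons -/
theorem inf (h : Info μ f d C') (g : Rg μ f d r R Λ C) (hA : ∀ u, ∃ S, Act μ f d u S)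
    (hji : j ≠ i) (hik : i ≠ k) (hjk : j ≠ k) (d0 : 0 ≤ d) (dr : d ≤ r) (hΛ0 : 0 < Λ)
    (hΛ : Λ ≤ r) (h1 : 6 * r ≤ θ) (h2 : θ + 5 * r ≤ R) {s l₁ l₂ : ℝ} (s0 : 0 ≤ s) (hs : s ≤ Λ)
    (l10 : 0 ≤ l₁) (l1 : l₁ ≤ Λ) (l20 : 0 ≤ l₂) (l2 : l₂ ≤ Λ) :
    ∃ w : ℝ, 0 ≤ w ∧ w + s ≤ 3 * r ∧
      (Integrable (fun x => f (P d θ w j i k (2 * r) 0 0) x + f (P d θ w j i k 0 s s) x -
          f (P d θ w j i k 0 0 0) x - f (P d θ w j i k (2 * r) s s) x) μ ∧
        ∫ x, |f (P d θ w j i k (2 * r) 0 0) x + f (P d θ w j i k 0 s s) x -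
          f (P d θ w j i k 0 0 0) x - f (P d θ w j i k (2 * r) s s) x| ∂μ ≤ 2 * C + 2 * C') ∧
      (Integrable (fun x => f (P d θ w j i k (2 * r) 0 s) x - f (P d θ w j i k (2 * r) 0 0) x -
          I f d θ j k s x) μ ∧
        ∫ x, |f (P d θ w j i k (2 * r) 0 s) x - f (P d θ w j i k (2 * r) 0 0) x -
          I f d θ j k s x| ∂μ ≤ 2 * C) ∧
      (Integrable (fun x => f (P d θ w j i k l₁ 0 0) x - f (P d θ w j i k 0 0 0) x -
          I f d θ j i l₁ x) μ ∧
        ∫ x, |f (P d θ w j i k l₁ 0 0) x - f (P d θ w j i k 0 0 0) x -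
          I f d θ j i l₁ x| ∂μ ≤ 2 * C) ∧
      (Integrable (fun x => f (P d θ w j i k 0 l₂ 0) x - f (P d θ w j i k 0 0 0) x -
          I f d θ i k l₂ x) μ ∧
        ∫ x, |f (P d θ w j i k 0 l₂ 0) x - f (P d θ w j i k 0 0 0) x -
          I f d θ i k l₂ x| ∂μ ≤ 2 * C) := by
  have r0 : 0 < r := hΛ0.trans_le hΛ
  obtain ⟨w, w0, w1, hw⟩ := tele h g hA hji hik hjk d0 dr hΛ0 hΛ h1 h2 s0 hs
  have dθ : d ≤ θ := by linarith
  have key : ∀ (a b c : Fin n) (y : ℝ) (t : Th n) (l : ℝ), a ≠ b → c ≠ a → c ≠ b → |y| ≤ r →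
      0 ≤ l → l ≤ Λ → t a b = 0 → In d r R a b 0 (t + dl (Pi.single c y)) →
      Integrable (fun x => f (up t a b l) x - f t x - I f d θ a b l x) μ ∧
        ∫ x, |f (up t a b l) x - f t x - I f d θ a b l x| ∂μ ≤ 2 * C := by
    intro a b c y t l hab ca cb hy l0 l1 t0 i0
    obtain ⟨S, A⟩ := hA (Pi.single c y)
    have i1 := in_bs_shift (d := d) (r := r) (R := R) (r' := θ) (W := r) (a := 0)
      (u := Pi.single c y) hab d0 dr le_rfl (by linarith) (fun p q => sing_le c p q hy)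
      (by linarith) (by linarith)
    rw [Pi.single_eq_of_ne ca.symm, Pi.single_eq_of_ne cb.symm, sub_zero, add_zero] at i1
    have := cmp g A hab l0 l1 (by linarith) i0 i1
    simpa only [J, t0, zero_add, bs_self, up_bs, I] using this
  have hW : ∀ (c : Fin n) (y : ℝ), |y| ≤ r → ∀ p q,
      (Pi.single k w + Pi.single c y : Fin n → ℝ) p -
        (Pi.single k w + Pi.single c y : Fin n → ℝ) q ≤ 4 * r := fun c y hy p q => by
    have a1 := sing_le (w := w) (W := 3 * r) k p q (by rw [abs_of_nonneg w0]; linarith)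
    have a2 := sing_le c p q hy
    simp only [Pi.add_apply]
    linarith
  have ar : |r| ≤ r := (abs_of_pos r0).le
  have ar' : |-r| ≤ r := by rw [abs_neg]; exact ar
  have vQ : ∀ x : ℝ, 0 ≤ x → x ≤ 2 * r → Val d (Q d θ j i k x (0 + w) (0 + w)) := fun x x0 x1 =>
    valQ hji hik hjk d0 dθ x0 (by linarith) (by linarith) (by linarith) (by linarith)
      (by linarith) (by linarith)
  refine ⟨w, w0, w1, ?_, ?_, ?_, ?_⟩
  · have v0 : Val d (P d θ w j i k 0 0 0) := valP hji hik hjk d0 dθ w0 le_rfl le_rfl le_rfl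
      (by linarith) (by linarith) (by linarith) (by linarith)
    have vA : Val d (P d θ w j i k (2 * r) 0 0) := valP hji hik hjk d0 dθ w0 (by linarith) le_rfl
      le_rfl (by linarith) (by linarith) (by linarith) (by linarith)
    have vB : Val d (P d θ w j i k 0 s s) := valP hji hik hjk d0 dθ w0 le_rfl s0 s0
      (by linarith) (by linarith) (by linarith) (by linarith)
    have vI : Val d (P d θ w j i k (2 * r) s s) := valP hji hik hjk d0 dθ w0 (by linarith) s0 s0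
      (by linarith) (by linarith) (by linarith) (by linarith)
    have a1 := h.int _ _ v0 vA (Pmono hji hik hjk (by linarith) le_rfl le_rfl)
    have a2 := h.int _ _ vB vI (Pmono hji hik hjk (by linarith) le_rfl le_rfl)
    have a3 := h.sub _ _ _ v0 vA vB (Pmono hji hik hjk (by linarith) le_rfl le_rfl)
      (Pmono hji hik hjk le_rfl s0 s0)
    rw [Psup hji hik hjk, max_eq_left (by linarith : (0 : ℝ) ≤ 2 * r), max_eq_right s0] at a3
    obtain ⟨S, A⟩ := hA (Pi.single k w)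
    have vQ' : ∀ x : ℝ, 0 ≤ x → x ≤ 2 * r → Val d (Q d θ j i k x (s + w) (s + w)) := fun x x0 x1 =>
      valQ hji hik hjk d0 dθ x0 (by linarith) (by linarith) (by linarith) (by linarith)
        (by linarith) (by linarith)
    have b1 := mean_shift h A (vQ 0 le_rfl (by linarith)) (vQ (2 * r) (by linarith) le_rfl)
      (Qmono hji hik hjk (by linarith) le_rfl le_rfl)
    have b2 := mean_shift h A (vQ' 0 le_rfl (by linarith)) (vQ' (2 * r) (by linarith) le_rfl)
      (Qmono hji hik hjk (by linarith) le_rfl le_rfl)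
    rw [zero_add] at b1
    rw [add_comm w s, ← b1, ← b2] at hw
    have a4 : Integrable (fun x => f (P d θ w j i k (2 * r) s s) x + f (P d θ w j i k 0 0 0) x -
        f (P d θ w j i k (2 * r) 0 0) x - f (P d θ w j i k 0 s s) x) μ :=
      (a2.sub a1).congr (ae_of_all _ fun x => by simp only [Pi.sub_apply]; ring)
    refine ⟨a4.neg.congr (ae_of_all _ fun x => by simp only [Pi.neg_apply]; ring), ?_⟩
    have a5 := int_abs a4
    have a6 : ∫ x, f (P d θ w j i k (2 * r) s s) x + f (P d θ w j i k 0 0 0) x -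
        f (P d θ w j i k (2 * r) 0 0) x - f (P d θ w j i k 0 s s) x ∂μ =
        ∫ x, f (P d θ w j i k (2 * r) s s) x - f (P d θ w j i k 0 s s) x ∂μ -
          ∫ x, f (P d θ w j i k (2 * r) 0 0) x - f (P d θ w j i k 0 0 0) x ∂μ := by
      rw [← integral_sub a2 a1]
      exact integral_congr_ae (ae_of_all _ fun x => by ring)
    have a7 : ∫ x, |f (P d θ w j i k (2 * r) 0 0) x + f (P d θ w j i k 0 s s) x -
          f (P d θ w j i k 0 0 0) x - f (P d θ w j i k (2 * r) s s) x| ∂μ =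
        ∫ x, |f (P d θ w j i k (2 * r) s s) x + f (P d θ w j i k 0 0 0) x -
          f (P d θ w j i k (2 * r) 0 0) x - f (P d θ w j i k 0 s s) x| ∂μ :=
      integral_congr_ae (ae_of_all _ fun x => by
        simp only
        rw [← abs_neg]
        congr 1
        ring)
    simp only [P, zero_add] at a3 a5 a6 a7 ⊢
    linarith
  · have := key j k i r (P d θ w j i k (2 * r) 0 0) s hjk hji.symm hik ar s0 hs
      (P3 hji hik hjk) (by
        rw [P, dl_add]
        exact inQ hji hik hjk d0 dr (vQ _ (by linarith) le_rfl) (hW i r ar) (by linarith)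
          (by linarith) (by simp [Q3, hjk, hji, hik.symm])
          (fun _ => by simp [hjk, hji, hik]; constructor <;> linarith)
          (fun _ => by simp [hik, hik.symm]; linarith) (fun e => absurd ⟨rfl, rfl⟩ e))
    rwa [upP3 hji hik hjk] at this
  · have := key j i k (-r) (P d θ w j i k 0 0 0) l₁ hji hjk.symm hik.symm ar' l10 l1
      (P1 hji hik hjk) (by
        rw [P, dl_add]
        exact inQ hji hik hjk d0 dr (vQ _ le_rfl (by linarith)) (hW k (-r) ar') (by linarith)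
          (by linarith) (by simp [Q1 hji hik hjk, hjk, hik]) (fun e => absurd ⟨rfl, rfl⟩ e)
          (fun _ => by simp [hik]; linarith) (fun _ => by simp [hjk]; linarith))
    rwa [upP1 hji hik hjk] at this
  · have := key i k j r (P d θ w j i k 0 0 0) l₂ hik hji hjk ar l20 l2
      (P2 hji hik hjk) (by
        rw [P, dl_add]
        exact inQ hji hik hjk d0 dr (vQ _ le_rfl (by linarith)) (hW j r ar) (by linarith)
          (by linarith) (by simp [Q2 hji, hjk.symm, hik, hji.symm])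
          (fun _ => by simp [hjk, hik, hji.symm]; linarith) (fun e => absurd ⟨rfl, rfl⟩ e)
          (fun _ => by simp [hjk, hjk.symm]; linarith))
    rwa [upP2 hji hik hjk] at this

end

end Vale.Agent.P007M.HInf
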