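import Vale.Agent.P007.MathlibUsed

/-!
The abstract measure theoretic part of the Heisenberg lemma: one Cauchy-Schwarz step over
cherries `(u, v), (u', v)`.
-/

open MeasureTheory Set
open scoped ENNReal

namespace Vale.Agent.P007M.HAbs

variable {Y : Type*} [MeasurableSpace Y]

theorem step1 (ν : Measure Y) [SFinite ν] {Gd : Set Y} {A B : Y → Set Y} {w : Y → ℝ≥0∞}
    {R : Set (Y × Y)} {m K N : ℝ≥0∞} (hGd : MeasurableSet Gd) (hR : MeasurableSet R)
    (hA : MeasurableSet {p : Y × Y | p.2 ∈ A p.1}) (hB : MeasurableSet {p : Y × Y | p.2 ∈ B p.1})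
    (hw : Measurable w) (hin : ∀ g ∈ Gd, ∀ u ∈ A g, ∀ v ∈ B g, (u, v) ∈ R)
    (hcov : ∀ u v, ∫⁻ g in Gd ∩ {g | u ∈ A g ∧ v ∈ B g}, (w g)⁻¹ ∂ν ≤ N)
    (hmi : ∀ g ∈ Gd, m ≤ K * ((w g)⁻¹ * (ν (A g) * ν (B g)))) :
    ν Gd * m ≤ K * (N * (ν.prod ν) R) := by
  set S : Set (Y × (Y × Y)) := {q | q.1 ∈ Gd ∧ q.2.1 ∈ A q.1 ∧ q.2.2 ∈ B q.1} with hS
  have hSm : MeasurableSet S := by
    refine (measurable_fst hGd).inter (MeasurableSet.inter ?_ ?_)
    · exact (measurable_fst.prodMk measurable_snd.fst) hA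
    · exact (measurable_fst.prodMk measurable_snd.snd) hB
  set F : Y → Y × Y → ℝ≥0∞ := fun g p => S.indicator (fun q => (w q.1)⁻¹) (g, p) with hF
  have hFm : Measurable (Function.uncurry F) :=
    (hw.comp measurable_fst).inv.indicator hSm
  have h1 : ∀ g, Gd.indicator (fun _ => m) g ≤ K * ∫⁻ p, F g p ∂(ν.prod ν) := by
    intro g
    by_cases hg : g ∈ Gd
    · rw [indicator_of_mem hg]
      refine (hmi g hg).trans (mul_le_mul_right (le_of_eq ?_) _)
      have hAg : MeasurableSet (A g) := measurable_prodMk_left hA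
      have hBg : MeasurableSet (B g) := measurable_prodMk_left hB
      have h2 : F g = (A g ×ˢ B g).indicator (fun _ => (w g)⁻¹) := by
        funext p
        by_cases hp : p ∈ A g ×ˢ B g
        · rw [indicator_of_mem hp]
          exact indicator_of_mem (show (g, p) ∈ S from ⟨hg, hp.1, hp.2⟩) _
        · rw [indicator_of_notMem hp]
          exact indicator_of_notMem (fun h : (g, p) ∈ S => hp ⟨h.2.1, h.2.2⟩) _
      rw [h2, lintegral_indicator_const (hAg.prod hBg), Measure.prod_prod]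
    · rw [indicator_of_notMem hg]
      exact zero_le
  have h3 : ∀ p, ∫⁻ g, F g p ∂ν ≤ R.indicator (fun _ => N) p := by
    intro p
    have hm : MeasurableSet (Gd ∩ {g | p.1 ∈ A g ∧ p.2 ∈ B g}) :=
      measurable_prodMk_right (y := p) hSm
    have h2 : (fun g => F g p) =
        (Gd ∩ {g | p.1 ∈ A g ∧ p.2 ∈ B g}).indicator (fun g => (w g)⁻¹) := by
      funext g
      by_cases hp : g ∈ Gd ∩ {g | p.1 ∈ A g ∧ p.2 ∈ B g}
      · rw [indicator_of_mem hp]
        exact indicator_of_mem (show (g, p) ∈ S from hp) _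
      · rw [indicator_of_notMem hp]
        exact indicator_of_notMem (fun h : (g, p) ∈ S => hp h) _
    by_cases hp : p ∈ R
    · rw [indicator_of_mem hp, h2, lintegral_indicator hm]
      exact hcov p.1 p.2
    · rw [indicator_of_notMem hp, h2]
      have h4 : Gd ∩ {g | p.1 ∈ A g ∧ p.2 ∈ B g} = ∅ :=
        eq_empty_of_forall_notMem fun g hg => hp (hin g hg.1 _ hg.2.1 _ hg.2.2)
      rw [h4]
      simp
  calc ν Gd * m = ∫⁻ g, Gd.indicator (fun _ => m) g ∂ν := by
        rw [lintegral_indicator_const hGd, mul_comm]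
    _ ≤ ∫⁻ g, K * ∫⁻ p, F g p ∂(ν.prod ν) ∂ν := lintegral_mono h1
    _ = K * ∫⁻ g, ∫⁻ p, F g p ∂(ν.prod ν) ∂ν :=
        lintegral_const_mul _ (hFm.lintegral_prod_right)
    _ = K * ∫⁻ p, ∫⁻ g, F g p ∂ν ∂(ν.prod ν) := by
        rw [lintegral_lintegral_swap hFm.aemeasurable]
    _ ≤ K * ∫⁻ p, R.indicator (fun _ => N) p ∂(ν.prod ν) :=
        mul_le_mul_right (lintegral_mono h3) _
    _ = K * (N * (ν.prod ν) R) := by rw [lintegral_indicator_const hR]

theorem step2 (ν : Measure Y) [SFinite ν] {W : Set Y} {R Nr : Set (Y × Y)} {m κ κ' : ℝ≥0∞}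
    (hW : MeasurableSet W) (hR : MeasurableSet R) (hNr : MeasurableSet Nr) (hm : ν W ≤ m)
    (hRW : ∀ p ∈ R, p.1 ∈ W ∧ p.2 ∈ W)
    (hnear : ∀ u v, (u, v) ∈ R → ν {u' | u' ∈ W ∧ (u, u') ∈ Nr} ≤ κ * m)
    (hfar : ∀ u u', (u, u') ∉ Nr → ν {v | (u, v) ∈ R ∧ (u', v) ∈ R} ≤ κ' * m) :
    ∫⁻ v, ν {u | (u, v) ∈ R} * ν {u | (u, v) ∈ R} ∂ν ≤ (κ + κ') * (m * m * m) := by
  set S : Set (Y × (Y × Y)) := {q | (q.2.1, q.1) ∈ R ∧ (q.2.2, q.1) ∈ R} with hS
  set T : Set (Y × (Y × Y)) := {q | q.2 ∈ Nr} with hT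
  have hSm : MeasurableSet S :=
    ((measurable_snd.fst.prodMk measurable_fst) hR).inter
      ((measurable_snd.snd.prodMk measurable_fst) hR)
  have hTm : MeasurableSet T := measurable_snd hNr
  have h1 : ∫⁻ v, ν {u | (u, v) ∈ R} * ν {u | (u, v) ∈ R} ∂ν = (ν.prod (ν.prod ν)) S := by
    rw [Measure.prod_apply hSm]
    refine lintegral_congr fun v => ?_
    rw [← Measure.prod_prod]
    rfl
  have h2 : (ν.prod (ν.prod ν)) (S ∩ T) ≤ κ * (m * m * m) := by
    rw [Measure.prod_apply (hSm.inter hTm)]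
    have h3 : ∀ v, (ν.prod ν) (Prod.mk v ⁻¹' (S ∩ T)) ≤ W.indicator (fun _ => κ * m * m) v := by
      intro v
      by_cases hv : v ∈ W
      · rw [indicator_of_mem hv, Measure.prod_apply (measurable_prodMk_left (hSm.inter hTm))]
        have h4 : ∀ u, ν (Prod.mk u ⁻¹' (Prod.mk v ⁻¹' (S ∩ T))) ≤
            W.indicator (fun _ => κ * m) u := by
          intro u
          by_cases hu : (u, v) ∈ R
          · rw [indicator_of_mem (hRW _ hu).1]
            refine le_trans (measure_mono fun u' hu' => ?_) (hnear u v hu)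
            exact ⟨(hRW _ hu'.1.2).1, hu'.2⟩
          · have h5 : Prod.mk u ⁻¹' (Prod.mk v ⁻¹' (S ∩ T)) = ∅ :=
              eq_empty_of_forall_notMem fun u' hu' => hu hu'.1.1
            rw [h5, measure_empty]
            exact zero_le
        refine (lintegral_mono h4).trans ?_
        rw [lintegral_indicator_const hW]
        exact mul_le_mul_right hm _
      · have h5 : Prod.mk v ⁻¹' (S ∩ T) = ∅ :=
          eq_empty_of_forall_notMem fun p hp => hv (hRW _ hp.1.1).2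
        rw [h5, measure_empty]
        exact zero_le
    refine (lintegral_mono h3).trans ?_
    rw [lintegral_indicator_const hW]
    calc κ * m * m * ν W ≤ κ * m * m * m := mul_le_mul_right hm _
      _ = κ * (m * m * m) := by ring
  have h3 : (ν.prod (ν.prod ν)) (S \ T) ≤ κ' * (m * m * m) := by
    rw [Measure.prod_apply_symm (hSm.diff hTm)]
    have h4 : ∀ p : Y × Y, ν ((fun v => (v, p)) ⁻¹' (S \ T)) ≤
        (W ×ˢ W).indicator (fun _ => κ' * m) p := by
      intro p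
      by_cases hp : p ∈ W ×ˢ W
      · rw [indicator_of_mem hp]
        by_cases hN : p ∈ Nr
        · have h5 : (fun v => (v, p)) ⁻¹' (S \ T) = ∅ :=
            eq_empty_of_forall_notMem fun v hv => hv.2 hN
          rw [h5, measure_empty]
          exact zero_le
        · exact le_trans (measure_mono fun v hv => hv.1) (hfar p.1 p.2 hN)
      · have h5 : (fun v => (v, p)) ⁻¹' (S \ T) = ∅ :=
          eq_empty_of_forall_notMem fun v hv => hp ⟨(hRW _ hv.1.1).1, (hRW _ hv.1.2).1⟩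
        rw [h5, measure_empty]
        exact zero_le
    refine (lintegral_mono h4).trans ?_
    rw [lintegral_indicator_const (hW.prod hW), Measure.prod_prod]
    calc κ' * m * (ν W * ν W) ≤ κ' * m * (m * m) := mul_le_mul_right (mul_le_mul' hm hm) _
      _ = κ' * (m * m * m) := by ring
  rw [h1, ← measure_inter_add_sdiff S hTm, add_mul]
  exact add_le_add h2 h3

/-- The cherry inequality. -/
theorem cherry (ν : Measure Y) [SFinite ν] {Gd W : Set Y} {A B : Y → Set Y} {w : Y → ℝ≥0∞}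
    {R Nr : Set (Y × Y)} {m K N κ κ' δ : ℝ≥0∞} (hGd : MeasurableSet Gd) (hW : MeasurableSet W)
    (hR : MeasurableSet R) (hNr : MeasurableSet Nr)
    (hA : MeasurableSet {p : Y × Y | p.2 ∈ A p.1}) (hB : MeasurableSet {p : Y × Y | p.2 ∈ B p.1})
    (hw : Measurable w) (hm : ν W ≤ m) (hm0 : m ≠ 0) (hmt : m ≠ ⊤) (hδ0 : δ ≠ 0) (hδt : δ ≠ ⊤)
    (hδ : κ + κ' ≤ δ * δ) (hRW : ∀ p ∈ R, p.1 ∈ W ∧ p.2 ∈ W)
    (hin : ∀ g ∈ Gd, ∀ u ∈ A g, ∀ v ∈ B g, (u, v) ∈ R)
    (hcov : ∀ u v, ∫⁻ g in Gd ∩ {g | u ∈ A g ∧ v ∈ B g}, (w g)⁻¹ ∂ν ≤ N)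
    (hmi : ∀ g ∈ Gd, m ≤ K * ((w g)⁻¹ * (ν (A g) * ν (B g))))
    (hnear : ∀ u v, (u, v) ∈ R → ν {u' | u' ∈ W ∧ (u, u') ∈ Nr} ≤ κ * m)
    (hfar : ∀ u u', (u, u') ∉ Nr → ν {v | (u, v) ∈ R ∧ (u', v) ∈ R} ≤ κ' * m) :
    ν Gd ≤ K * N * (2 * δ) * m := by
  have h1 := step1 ν hGd hR hA hB hw hin hcov hmi
  have h2 := step2 ν hW hR hNr hm hRW hnear hfar
  set r : Y → ℝ≥0∞ := fun v => ν {u | (u, v) ∈ R} with hr
  have hrm : Measurable r := measurable_measure_prodMk_right hR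
  have hdm0 : δ * m ≠ 0 := mul_ne_zero hδ0 hm0
  have hdmt : δ * m ≠ ⊤ := ENNReal.mul_ne_top hδt hmt
  have h3 : ∀ v, r v ≤ W.indicator (fun _ => δ * m) v + (δ * m)⁻¹ * (r v * r v) := by
    intro v
    by_cases hv : v ∈ W
    · rw [indicator_of_mem hv]
      rcases le_total (r v) (δ * m) with h | h
      · exact h.trans le_self_add
      · refine le_trans ?_ le_add_self
        calc r v = (δ * m)⁻¹ * (δ * m * r v) := by
              rw [← mul_assoc, ENNReal.inv_mul_cancel hdm0 hdmt, one_mul]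
          _ ≤ (δ * m)⁻¹ * (r v * r v) := mul_le_mul_right (mul_le_mul_left h _) _
    · have h5 : {u | (u, v) ∈ R} = ∅ :=
        eq_empty_of_forall_notMem fun u hu => hv (hRW _ hu).2
      have h6 : r v = 0 := by
        simp only [hr, h5, measure_empty]
      rw [h6]
      exact zero_le
  have h4 : (ν.prod ν) R ≤ 2 * δ * m * m := by
    rw [Measure.prod_apply_symm hR]
    refine (lintegral_mono h3).trans ?_
    rw [lintegral_add_left (measurable_const.indicator hW), lintegral_indicator_const hW,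
      lintegral_const_mul _ (f := fun v => r v * r v) (hrm.mul hrm)]
    have h5 : (δ * m)⁻¹ * ∫⁻ v, r v * r v ∂ν ≤ δ * m * m := by
      calc (δ * m)⁻¹ * ∫⁻ v, r v * r v ∂ν ≤ (δ * m)⁻¹ * ((δ * δ) * (m * m * m)) :=
            mul_le_mul_right (h2.trans (mul_le_mul_left hδ _)) _
        _ = (δ * m)⁻¹ * (δ * m) * (δ * m * m) := by ring
        _ = δ * m * m := by rw [ENNReal.inv_mul_cancel hdm0 hdmt, one_mul]
    calc δ * m * ν W + (δ * m)⁻¹ * ∫⁻ v, r v * r v ∂ν ≤ δ * m * m + δ * m * m :=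
          add_le_add (mul_le_mul_right hm _) h5
      _ = 2 * δ * m * m := by ring
  have h5 : ν Gd * m ≤ K * N * (2 * δ) * m * m := by
    refine h1.trans ?_
    calc K * (N * (ν.prod ν) R) ≤ K * (N * (2 * δ * m * m)) :=
          mul_le_mul_right (mul_le_mul_right h4 _) _
      _ = K * N * (2 * δ) * m * m := by ring
  exact (ENNReal.mul_le_mul_iff_left hm0 hmt).mp h5

end Vale.Agent.P007M.HAbs
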