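import Vale.Agent.P007.MathlibUsed

/-!
Entries of products of matrices close to a Heisenberg group.
-/

open Matrix

namespace Vale.Agent.P007M.HGeo

variable {n : ℕ}

/-- `g` is within `r` of the identity, and within `r * e` off the entries `ji`, `ik`, `jk`. -/
structure Th (j i k : Fin n) (r e : ℝ) (g : Matrix (Fin n) (Fin n) ℝ) : Prop where
  thick : ∀ a b, |(g - 1) a b| ≤ r
  thin : ∀ a b, ¬ (a = j ∧ b = i) → ¬ (a = i ∧ b = k) → ¬ (a = j ∧ b = k) → |(g - 1) a b| ≤ r * e

theorem sub_one_mul (g h : Matrix (Fin n) (Fin n) ℝ) (a b : Fin n) :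
    (g * h - 1) a b = (g - 1) a b + (h - 1) a b + ∑ c, (g - 1) a c * (h - 1) c b := by
  have h1 : g * h - 1 = (g - 1) + (h - 1) + (g - 1) * (h - 1) := by noncomm_ring
  rw [h1, Matrix.add_apply, Matrix.add_apply, Matrix.mul_apply]

theorem off {g : Matrix (Fin n) (Fin n) ℝ} {a b : Fin n} (hab : a ≠ b) : (g - 1) a b = g a b := by
  rw [Matrix.sub_apply, Matrix.one_apply_ne hab, sub_zero]

theorem sum_le {f : Fin n → ℝ} {x : ℝ} (h : ∀ c, |f c| ≤ x) : |∑ c, f c| ≤ n * x := by
  refine (Finset.abs_sum_le_sum_abs _ _).trans ?_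
  refine (Finset.sum_le_sum fun c _ => h c).trans ?_
  simp

variable {j i k : Fin n} {r e : ℝ} {g h : Matrix (Fin n) (Fin n) ℝ}

theorem Th.r_nonneg (hg : Th j i k r e g) : 0 ≤ r := (abs_nonneg _).trans (hg.thick j j)

theorem term_l (hg : Th j i k r e g) (hh : Th j i k r e h) {a b c : Fin n}
    (h1 : |(g - 1) a c| ≤ r * e) : |(g - 1) a c * (h - 1) c b| ≤ r * r * e := by
  rw [abs_mul]
  have h0 := hg.r_nonneg
  calc |(g - 1) a c| * |(h - 1) c b| ≤ r * e * r :=
        mul_le_mul h1 (hh.thick c b) (abs_nonneg _) ((abs_nonneg _).trans h1)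
    _ = r * r * e := by ring

theorem term_r (hg : Th j i k r e g) {a b c : Fin n}
    (h1 : |(h - 1) c b| ≤ r * e) : |(g - 1) a c * (h - 1) c b| ≤ r * r * e := by
  rw [abs_mul]
  calc |(g - 1) a c| * |(h - 1) c b| ≤ r * (r * e) :=
        mul_le_mul (hg.thick a c) h1 (abs_nonneg _) hg.r_nonneg
    _ = r * r * e := by ring

theorem entry_a (hji : j ≠ i) (hik : i ≠ k) (hjk : j ≠ k) (hg : Th j i k r e g)
    (hh : Th j i k r e h) : |(g * h) j i - g j i - h j i| ≤ n * (r * r * e) := by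
  have h1 := sub_one_mul g h j i
  rw [off hji, off hji, off hji] at h1
  have h2 : (g * h) j i - g j i - h j i = ∑ c, (g - 1) j c * (h - 1) c i := by linarith
  rw [h2]
  refine sum_le fun c => ?_
  by_cases hc : c = j
  · exact term_l hg hh (hg.thin _ _ (fun x => hji (hc ▸ x.2)) (fun x => hji x.1)
      (fun x => hjk (hc ▸ x.2)))
  · exact term_r hg (hh.thin _ _ (fun x => hc x.1) (fun x => hik x.2) (fun x => hik x.2))

theorem entry_b (hji : j ≠ i) (hik : i ≠ k) (hjk : j ≠ k) (hg : Th j i k r e g)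
    (hh : Th j i k r e h) : |(g * h) i k - g i k - h i k| ≤ n * (r * r * e) := by
  have h1 := sub_one_mul g h i k
  rw [off hik, off hik, off hik] at h1
  have h2 : (g * h) i k - g i k - h i k = ∑ c, (g - 1) i c * (h - 1) c k := by linarith
  rw [h2]
  refine sum_le fun c => ?_
  by_cases hc : c = k
  · exact term_r hg (hh.thin _ _ (fun x => hik x.2.symm) (fun x => hik (hc ▸ x.1).symm)
      (fun x => hjk (hc ▸ x.1).symm))
  · exact term_l hg hh (hg.thin _ _ (fun x => hji x.1.symm) (fun x => hc x.2)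
      (fun x => hc x.2))

theorem entry_c (hji : j ≠ i) (hik : i ≠ k) (hjk : j ≠ k) (he : 0 ≤ e) (hg : Th j i k r e g)
    (hh : Th j i k r e h) :
    |(g * h) j k - g j k - h j k - g j i * h i k| ≤ n * (r * r * e) := by
  have h1 := sub_one_mul g h j k
  rw [off hjk, off hjk, off hjk] at h1
  have h2 : (g * h) j k - g j k - h j k - g j i * h i k =
      ∑ c, if c = i then 0 else (g - 1) j c * (h - 1) c k := by
    have h3 : ∑ c, (g - 1) j c * (h - 1) c k =
        (∑ c, if c = i then 0 else (g - 1) j c * (h - 1) c k) + g j i * h i k := by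
      have h4 : g j i * h i k = ∑ c, if c = i then (g - 1) j c * (h - 1) c k else 0 := by
        rw [Finset.sum_ite_eq' Finset.univ i, if_pos (Finset.mem_univ _), off hji, off hik]
      rw [h4, ← Finset.sum_add_distrib]
      refine Finset.sum_congr rfl fun c _ => ?_
      split_ifs <;> simp
    linarith
  rw [h2]
  refine sum_le fun c => ?_
  have h0 := hg.r_nonneg
  split_ifs with hc
  · rw [abs_zero]; positivity
  · by_cases hc' : c = k
    · exact term_r hg (hh.thin _ _ (fun x => hik x.2.symm) (fun x => hc x.1)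
        (fun x => hjk (hc' ▸ x.1).symm))
    · exact term_l hg hh (hg.thin _ _ (fun x => hc x.2) (fun x => hc' x.2) (fun x => hc' x.2))

/-- the quantity which is constant along the lines in direction `ik` -/
def dd (j i k : Fin n) (g : Matrix (Fin n) (Fin n) ℝ) : ℝ := g j k - g j i * g i k

theorem abs_mul_le {x y X Y : ℝ} (hx : |x| ≤ X) (hy : |y| ≤ Y) : |x * y| ≤ X * Y := by
  rw [abs_mul]
  exact mul_le_mul hx hy (abs_nonneg _) ((abs_nonneg _).trans hx)

/-- along a line in direction `ik` -/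
theorem line_d (hji : j ≠ i) (hik : i ≠ k) (hjk : j ≠ k) (he : 0 ≤ e) {η : ℝ}
    (hg : Th j i k r e g) (hh : Th j i k r e h) (hz : Th j i k r e (g * h)) (hr : r ≤ 1 / 4)
    (hη : n * (r * r * e) ≤ η) (ha : |h j i| ≤ η) (hc : |h j k| ≤ η) :
    |dd j i k (g * h) - dd j i k g| ≤ 3 * η := by
  have h1 := entry_a hji hik hjk hg hh
  have h2 := entry_b hji hik hjk hg hh
  have h3 := entry_c hji hik hjk he hg hh
  have h4 : |g j i| ≤ 1 / 4 := (off (g := g) hji ▸ hg.thick j i).trans hr
  have h5 : |(g * h) i k| ≤ 1 / 4 := (off (g := g * h) hik ▸ hz.thick i k).trans hr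
  have h6 : |(g * h) j i - g j i| ≤ 2 * η := by
    have := abs_add_le ((g * h) j i - g j i - h j i) (h j i)
    rw [sub_add_cancel] at this
    linarith
  have h7 := abs_mul_le h6 h5
  have h8 := abs_mul_le h4 (h2.trans hη)
  have h9 : dd j i k (g * h) - dd j i k g =
      ((g * h) j k - g j k - h j k - g j i * h i k) + h j k -
        ((g * h) j i - g j i) * (g * h) i k - g j i * ((g * h) i k - g i k - h i k) := by
    unfold dd; ring
  rw [h9]
  have hη0 : 0 ≤ η := (abs_nonneg _).trans ha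
  rw [abs_le] at h3 h7 h8 hc ⊢
  constructor <;> linarith [h3.1, h3.2, h7.1, h7.2, h8.1, h8.2, hc.1, hc.2]

/-- the first entry is constant on a plane -/
theorem plane_a (hji : j ≠ i) (hik : i ≠ k) (hjk : j ≠ k) {η : ℝ}
    (hg : Th j i k r e g) (hh : Th j i k r e h) (hη : n * (r * r * e) ≤ η) (ha : |h j i| ≤ η) :
    |(g * h) j i - g j i| ≤ 2 * η := by
  have h1 := entry_a hji hik hjk hg hh
  have := abs_add_le ((g * h) j i - g j i - h j i) (h j i)
  rw [sub_add_cancel] at this
  linarith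

theorem plane_b (hji : j ≠ i) (hik : i ≠ k) (hjk : j ≠ k) {η : ℝ}
    (hg : Th j i k r e g) (hh : Th j i k r e h) (hη : n * (r * r * e) ≤ η) (hb : |h i k| ≤ η) :
    |(g * h) i k - g i k| ≤ 2 * η := by
  have h1 := entry_b hji hik hjk hg hh
  have := abs_add_le ((g * h) i k - g i k - h i k) (h i k)
  rw [sub_add_cancel] at this
  linarith

/-- one leg of a cherry: `u = g h`, `v = g h'` -/
theorem leg (hji : j ≠ i) (hik : i ≠ k) (hjk : j ≠ k) (he : 0 ≤ e) {η : ℝ}
    {h' : Matrix (Fin n) (Fin n) ℝ} (hg : Th j i k r e g) (hh : Th j i k r e h)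
    (hh' : Th j i k r e h') (hv : Th j i k r e (g * h')) (hr : r ≤ 1 / 4)
    (hη : n * (r * r * e) ≤ η) (ha : |h j i| ≤ η) (hb : |h' i k| ≤ η) (hc : |h' j k| ≤ η) :
    |dd j i k g - ((g * h') j k - (g * h) j i * (g * h') i k)| ≤ 4 * η := by
  have h1 := plane_a hji hik hjk hg hh hη ha
  have h2 := plane_b hji hik hjk hg hh' hη hb
  have h3 := entry_c hji hik hjk he hg hh'
  have h4 : |g j i| ≤ 1 / 4 := (off (g := g) hji ▸ hg.thick j i).trans hr
  have h5 : |(g * h') i k| ≤ 1 / 4 := (off (g := g * h') hik ▸ hv.thick i k).trans hr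
  have h7 := abs_mul_le h1 h5
  have h8 := abs_mul_le h4 h2
  have h10 := abs_mul_le h4 hb
  have h9 : dd j i k g - ((g * h') j k - (g * h) j i * (g * h') i k) =
      -((g * h') j k - g j k - h' j k - g j i * h' i k) - h' j k - g j i * h' i k +
        ((g * h) j i - g j i) * (g * h') i k + g j i * ((g * h') i k - g i k) := by
    unfold dd; ring
  rw [h9]
  have hη0 : 0 ≤ η := (abs_nonneg _).trans ha
  rw [abs_le] at h3 h7 h8 h10 hc ⊢
  constructor <;> linarith [h3.1, h3.2, h7.1, h7.2, h8.1, h8.2, hc.1, hc.2, h10.1, h10.2]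

end Vale.Agent.P007M.HGeo
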