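import Vale.Agent.P007M.Box
import Vale.Agent.P007M.HAbs
import Vale.Agent.P007M.HGeo

/-!
# P007M: the local form of the Heisenberg lemma
-/

open MeasureTheory Set Real
open scoped ENNReal Pointwise

namespace Vale.Agent.P007M.HLoc

open Vale.Agent.P007 Vale.Agent.P007.Koopman Vale.Agent.P007M.HGeo

theorem count {Y : Type*} [MeasurableSpace Y] (ν : Measure Y) {U : Set Y} (hU : MeasurableSet U)
    {φ : Y → ℤ} (hφ : Measurable φ) {Γ : Set ℤ} {H : ℝ≥0∞} (h0 : ν U ≠ 0) (ht : ν U ≠ ∞)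
    (h : ∀ γ ∈ Γ, ∃ L ⊆ U, (∀ z ∈ L, |φ z - γ| ≤ 1) ∧ ν U ≤ H * ν L) :
    ∑' γ, Γ.indicator (1 : ℤ → ℝ≥0∞) γ ≤ 3 * H := by
  set c : ℤ → ℝ≥0∞ := fun γ => ν (U ∩ φ ⁻¹' {γ}) with hc
  have h1 : ∑' γ, c γ ≤ ν U := by
    rw [← measure_iUnion (fun a b hab => Set.disjoint_left.2 fun z h1 h2 => hab
      ((mem_singleton_iff.1 h1.2).symm.trans h2.2))
      (fun γ => hU.inter (hφ (measurableSet_singleton γ)))]
    exact measure_mono (iUnion_subset fun γ => inter_subset_left)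
  have h2 : ∀ γ, Γ.indicator (1 : ℤ → ℝ≥0∞) γ * ν U ≤ H * (c (γ - 1) + c γ + c (γ + 1)) := by
    intro γ
    by_cases hγ : γ ∈ Γ
    · obtain ⟨L, hL, h3, h4⟩ := h γ hγ
      rw [indicator_of_mem hγ, Pi.one_apply, one_mul]
      refine h4.trans (mul_le_mul_right ?_ _)
      refine le_trans (measure_mono (fun z hz => ?_ : L ⊆ (U ∩ φ ⁻¹' {γ - 1}) ∪ (U ∩ φ ⁻¹' {γ}) ∪
        (U ∩ φ ⁻¹' {γ + 1}))) ((measure_union_le _ _).trans
          (add_le_add_left (measure_union_le _ _) _))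
      have h5 := abs_le.1 (h3 z hz)
      simp only [mem_union, mem_inter_iff, mem_preimage, mem_singleton_iff, hL hz, true_and]
      omega
    · rw [indicator_of_notMem hγ, zero_mul]
      exact zero_le
  have h3 : ∑' γ, c (γ - 1) = ∑' γ, c γ := (Equiv.subRight (1 : ℤ)).tsum_eq c
  have h4 : ∑' γ, c (γ + 1) = ∑' γ, c γ := (Equiv.addRight (1 : ℤ)).tsum_eq c
  refine (ENNReal.mul_le_mul_iff_left h0 ht).1 ?_
  rw [← ENNReal.tsum_mul_right]
  refine (ENNReal.tsum_le_tsum h2).trans ?_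
  rw [ENNReal.tsum_mul_left, ENNReal.tsum_add, ENNReal.tsum_add, h3, h4]
  calc H * (∑' γ, c γ + ∑' γ, c γ + ∑' γ, c γ) ≤ H * (ν U + ν U + ν U) := by gcongr
    _ = 3 * H * ν U := by ring

variable {n : ℕ} {j i k : Fin n} {s ρ c x y z : ℝ} {P : ℝ → ℝ → ℝ → Fin n → Fin n → ℝ}
  {g h : G n}

/-- a family of arrays in which three entries vary and the other entries are at least `s` -/
structure Fam (j i k : Fin n) (s : ℝ) (P : ℝ → ℝ → ℝ → Fin n → Fin n → ℝ) : Prop where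
  ji : j ≠ i
  ik : i ≠ k
  jk : j ≠ k
  s0 : 0 ≤ s
  e1 : ∀ x y z, P x y z j i = x
  e2 : ∀ x y z, P x y z i k = y
  e3 : ∀ x y z, P x y z j k = z
  eo : ∀ x y z p q, ¬(p = j ∧ q = i) → ¬(p = i ∧ q = k) → ¬(p = j ∧ q = k) →
    P x y z p q = P 0 0 0 p q
  ge : ∀ p q, ¬(p = j ∧ q = i) → ¬(p = i ∧ q = k) → ¬(p = j ∧ q = k) → s ≤ P 0 0 0 p q

namespace Fam

variable (F : Fam j i k s P)
include F

theorem le {x' y' z' : ℝ} (h1 : x ≤ x') (h2 : y ≤ y') (h3 : z ≤ z') : P x y z ≤ P x' y' z' := by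
  intro p q
  by_cases e1 : p = j ∧ q = i
  · rw [e1.1, e1.2, F.e1, F.e1]; exact h1
  by_cases e2 : p = i ∧ q = k
  · rw [e2.1, e2.2, F.e2, F.e2]; exact h2
  by_cases e3 : p = j ∧ q = k
  · rw [e3.1, e3.2, F.e3, F.e3]; exact h3
  rw [F.eo x y z p q e1 e2 e3, F.eo x' y' z' p q e1 e2 e3]

theorem a (hg : g ∈ bx c (P x y z)) : |g.1 j i| < c * exp (-x) := by
  have := hg j i
  rwa [off F.ji, F.e1] at this

theorem b (hg : g ∈ bx c (P x y z)) : |g.1 i k| < c * exp (-y) := by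
  have := hg i k
  rwa [off F.ik, F.e2] at this

theorem c' (hg : g ∈ bx c (P x y z)) : |g.1 j k| < c * exp (-z) := by
  have := hg j k
  rwa [off F.jk, F.e3] at this

theorem mk' (hg : g ∈ bx c (P 0 0 0)) (h1 : |g.1 j i| < c * exp (-x))
    (h2 : |g.1 i k| < c * exp (-y)) (h3 : |g.1 j k| < c * exp (-z)) : g ∈ bx c (P x y z) := by
  intro p q
  by_cases e1 : p = j ∧ q = i
  · rw [e1.1, e1.2, F.e1, off F.ji]; exact h1
  by_cases e2 : p = i ∧ q = k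
  · rw [e2.1, e2.2, F.e2, off F.ik]; exact h2
  by_cases e3 : p = j ∧ q = k
  · rw [e3.1, e3.2, F.e3, off F.jk]; exact h3
  rw [F.eo x y z p q e1 e2 e3]
  exact hg p q

theorem th {r : ℝ} (hc : 0 ≤ c) (hr : c ≤ r) (hg : g ∈ bx c (P 0 0 0)) :
    Th j i k r (exp (-s)) g.1 := by
  have h1 : ∀ p q, ¬(p = j ∧ q = i) → ¬(p = i ∧ q = k) → ¬(p = j ∧ q = k) →
      |(g.1 - 1) p q| ≤ r * exp (-s) := fun p q e1 e2 e3 =>
    (hg p q).le.trans (mul_le_mul hr (exp_le_exp.2 (neg_le_neg (F.ge p q e1 e2 e3)))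
      (exp_pos _).le (hc.trans hr))
  refine ⟨fun p q => ?_, h1⟩
  have h2 : ∀ p q, P 0 0 0 p q = 0 → |(g.1 - 1) p q| ≤ r := fun p q e => by
    have := (hg p q).le
    rw [e, neg_zero, exp_zero, mul_one] at this
    exact this.trans hr
  by_cases e1 : p = j ∧ q = i
  · exact h2 p q (by rw [e1.1, e1.2, F.e1])
  by_cases e2 : p = i ∧ q = k
  · exact h2 p q (by rw [e2.1, e2.2, F.e2])
  by_cases e3 : p = j ∧ q = k
  · exact h2 p q (by rw [e3.1, e3.2, F.e3])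
  exact (h1 p q e1 e2 e3).trans (mul_le_of_le_one_right (hc.trans hr)
    (exp_le_one_iff.2 (neg_nonpos.2 F.s0)))

end Fam

theorem mem_sm {B : Set (G n)} {u : G n} : u ∈ g • B ↔ g⁻¹ * u ∈ B :=
  mem_smul_set_iff_inv_smul_mem

theorem mul' {t : Fin n → Fin n → ℝ} (v : Valid t) (ρ0 : 0 < ρ) (ρ1 : 256 * n * ρ ≤ 1)
    {p q : ℝ} (hp : 0 < p) (hq : 0 < q) (e : p * q ≤ 256) (hg : g ∈ bx (p * ρ) t)
    (hh : h ∈ bx (q * ρ) t) : g * h ∈ bx ((p + q + 1) * ρ) t := by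
  refine mul_bx' v ρ0 hp hq ?_ hg hh
  have := mul_nonneg (Nat.cast_nonneg (α := ℝ) n) ρ0.le
  nlinarith

theorem one' {t : Fin n → Fin n → ℝ} (hg : g ∈ bx ρ t) : g ∈ bx (1 * ρ) t := by rwa [one_mul]

theorem cont_ent (p q : Fin n) : Continuous fun g : G n => g.1 p q :=
  continuous_subtype_val.matrix_elem p q

theorem cell_lt {a b e : ℝ} (he : 0 < e) (h : ⌊a / e⌋ = ⌊b / e⌋) : |a - b| ≤ e := by
  have h1 := Int.abs_sub_lt_one_of_floor_eq_floor h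
  rw [← sub_div, abs_div, abs_of_pos he, div_lt_one he] at h1
  exact h1.le

theorem cell_le {a b e : ℝ} (he : 0 < e) (h : |a - b| ≤ e) : |⌊a / e⌋ - ⌊b / e⌋| ≤ 1 := by
  have h1 : |a / e - b / e| ≤ 1 := by
    rw [← sub_div, abs_div, abs_of_pos he, div_le_one he]; exact h
  rw [abs_le] at h1 ⊢
  have h2 : ⌊a / e⌋ ≤ ⌊b / e + 1⌋ := Int.floor_mono (by linarith)
  have h3 : ⌊b / e⌋ ≤ ⌊a / e + 1⌋ := Int.floor_mono (by linarith)
  rw [Int.floor_add_one] at h2 h3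
  omega

/-- **The local Heisenberg lemma.** -/
theorem hloc (F : Fam j i k s P) (ν : Measure (G n)) [SFinite ν] {T l₁ l₂ : ℝ} (ρ0 : 0 < ρ)
    (ρ1 : 256 * n * ρ ≤ 1) (sT : s ≤ T) (l1 : l₁ ≤ s) (l2 : l₂ ≤ s)
    (hs : 24 * exp (-s) ≤ ρ * exp (-l₁) * exp (-l₂)) (v0 : Valid (P 0 0 0)) (vA : Valid (P T 0 0))
    (vB : Valid (P 0 s s)) (vI : Valid (P T s s)) {Gd : Set (G n)} (hGd : MeasurableSet Gd)
    (hG : ∀ g ∈ Gd, g⁻¹ ∈ bx ρ (P 0 0 0)) {K H κ δ : ℝ≥0∞} (mt : ν (bx (4 * ρ) (P 0 0 0)) ≠ ∞)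
    (Ht : H ≠ ∞) (δ0 : δ ≠ 0) (δt : δ ≠ ∞) (hδ : κ + 9 * H * H * κ ≤ δ * δ)
    (pos : ∀ g ∈ Gd, ν (g • bx ρ (P T s s)) ≠ 0)
    (mi : ∀ g ∈ Gd, ν (g • bx ρ (P T s s)) * ν (g • bx ρ (P 0 0 0)) ≤
      K * (ν (g • bx ρ (P T 0 0)) * ν (g • bx ρ (P 0 s s))))
    (d0 : ∀ g ∈ Gd, ν (g • bx (16 * ρ) (P 0 0 0)) ≤ K * ν (g • bx ρ (P 0 0 0)))
    (dA : ∀ g ∈ Gd, ν (g • bx (16 * ρ) (P T 0 0)) ≤ H * ν (g • bx ρ (P T 0 s)))
    (s1 : ∀ g ∈ Gd, ν (g • bx (16 * ρ) (P l₁ 0 0)) ≤ κ * ν (g • bx ρ (P 0 0 0)))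
    (s2 : ∀ g ∈ Gd, ν (g • bx (16 * ρ) (P 0 l₂ 0)) ≤ κ * ν (g • bx ρ (P 0 0 0))) :
    ν Gd ≤ K * K * ENNReal.ofReal (24 ^ (n * n)) * (2 * δ) * ν (bx (4 * ρ) (P 0 0 0)) := by
  have s0 := F.s0
  have T0 : 0 ≤ T := s0.trans sT
  have n1 : (1 : ℝ) ≤ n := Nat.one_le_cast.2 j.pos
  have nρ := mul_nonneg (Nat.cast_nonneg (α := ℝ) n) ρ0.le
  have r4 : 16 * ρ ≤ 1 / 4 := by nlinarith
  set e := exp (-s) with he
  have e0 : 0 < e := exp_pos _
  set η := ρ * e with hη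
  have η0 : 0 < η := mul_pos ρ0 e0
  have hη' : n * (16 * ρ * (16 * ρ) * e) ≤ η := by
    have : n * (16 * ρ * (16 * ρ) * e) = 256 * n * ρ * η := by rw [hη]; ring
    rw [this]
    exact mul_le_of_le_one_left η0.le ρ1
  have eT : ρ * exp (-T) ≤ η := mul_le_mul_of_nonneg_left (exp_le_exp.2 (neg_le_neg sT)) ρ0.le
  have e1 : η ≤ ρ * exp (-l₁) := mul_le_mul_of_nonneg_left (exp_le_exp.2 (neg_le_neg l1)) ρ0.le
  have e2 : η ≤ ρ * exp (-l₂) := mul_le_mul_of_nonneg_left (exp_le_exp.2 (neg_le_neg l2)) ρ0.le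
  set W := bx (4 * ρ) (P 0 0 0) with hW
  have sub0 : ∀ {x y z c : ℝ} {h : G n}, 0 ≤ x → 0 ≤ y → 0 ≤ z → 0 ≤ c → h ∈ bx c (P x y z) →
      h ∈ bx c (P 0 0 0) := fun x0 y0 z0 c0 hh => bx_mono c0 le_rfl (F.le x0 y0 z0) hh
  have th : ∀ {p : ℝ} {h : G n}, 0 ≤ p → p ≤ 16 → h ∈ bx (p * ρ) (P 0 0 0) →
      Th j i k (16 * ρ) e h.1 := fun p0 p1 hh =>
    F.th (mul_nonneg p0 ρ0.le) (mul_le_mul_of_nonneg_right p1 ρ0.le) hh
  have g2 : ∀ g ∈ Gd, g ∈ bx (2 * ρ) (P 0 0 0) := fun g hg =>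
    inv_inv g ▸ inv_bx v0 ρ0 (by linarith) (hG g hg)
  have inW : ∀ g ∈ Gd, ∀ u, g⁻¹ * u ∈ bx ρ (P 0 0 0) → u ∈ W := fun g hg u hu => by
    have := mul' v0 ρ0 ρ1 two_pos one_pos (by norm_num) (g2 g hg) (one' hu)
    rwa [mul_inv_cancel_left, show (2 + 1 + 1 : ℝ) = 4 by norm_num] at this
  have ofW : ∀ g ∈ Gd, ∀ u ∈ W, g⁻¹ * u ∈ bx (6 * ρ) (P 0 0 0) := fun g hg u hu => by
    have := mul' v0 ρ0 ρ1 one_pos four_pos (by norm_num) (one' (hG g hg)) hu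
    rwa [show (1 + 4 + 1 : ℝ) = 6 by norm_num] at this
  have big : ∀ {h : G n}, h ∈ bx (6 * ρ) (P 0 0 0) → h ∈ bx (16 * ρ) (P 0 0 0) := fun hh =>
    bx_mono (by linarith) (by linarith) le_rfl hh
  have leW : ∀ g ∈ Gd, ∀ {x y z : ℝ}, 0 ≤ x → 0 ≤ y → 0 ≤ z → ν (g • bx ρ (P x y z)) ≤ ν W :=
    fun g hg x y z x0 y0 z0 => measure_mono fun u hu =>
      inW g hg u (sub0 x0 y0 z0 ρ0.le (mem_sm.1 hu))
  have co : ∀ g u : G n, g.1 * (g⁻¹ * u).1 = u.1 := fun g u => by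
    rw [← coe_mul_G, mul_inv_cancel_left]
  rcases Gd.eq_empty_or_nonempty with rfl | ⟨g₁, hg₁⟩
  · simp
  have m0 : ν W ≠ 0 := fun h => pos g₁ hg₁ (le_zero_iff.1 (h ▸ leW g₁ hg₁ T0 s0 s0))
  set A := bx ρ (P T 0 0) with hA
  set B := bx ρ (P 0 s s) with hB
  set R : Set (G n × G n) := {p | ∃ g ∈ Gd, p.1 ∈ g • A ∧ p.2 ∈ g • B} with hR
  have Ro : IsOpen R := by
    have : R = ⋃ g ∈ Gd, (g • A) ×ˢ (g • B) := by
      ext p; simp only [hR, mem_ofPred_eq, mem_iUnion, mem_prod, exists_prop]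
    rw [this]
    exact isOpen_biUnion fun g _ => (open_bx.smul g).prod (open_bx.smul g)
  have ms : ∀ {B : Set (G n)}, MeasurableSet B →
      MeasurableSet {p : G n × G n | p.2 ∈ p.1 • B} := fun hB => by
    simp only [mem_sm]
    exact (measurable_fst.inv.mul measurable_snd) hB
  -- the number of heavy lines in a plane
  set φ : G n → ℤ := fun z => ⌊dd j i k z.1 / (4 * η)⌋ with hφ
  have φm : Measurable φ :=
    (((cont_ent j k).sub ((cont_ent j i).mul (cont_ent i k))).measurable.div_const _).floor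
  set Γ : G n → Set ℤ := fun u => {γ | ∃ g ∈ Gd, u ∈ g • A ∧ φ g = γ} with hΓ
  have cnt : ∀ u, ∑' γ, (Γ u).indicator (1 : ℤ → ℝ≥0∞) γ ≤ 3 * H := by
    intro u
    rcases (Γ u).eq_empty_or_nonempty with h | ⟨γ₀, g₀, hg₀, hu₀, -⟩
    · simp [h]
    have a1 : ∀ g ∈ Gd, u ∈ g • A → g • bx ρ (P T 0 s) ⊆ u • bx (4 * ρ) (P T 0 0) := by
      intro g hg hu z hz
      have := mul' vA ρ0 ρ1 two_pos one_pos (by norm_num)
        (inv_bx vA ρ0 (by linarith) (mem_sm.1 hu))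
        (one' (bx_mono ρ0.le le_rfl (F.le le_rfl le_rfl s0) (mem_sm.1 hz)))
      rwa [show (g⁻¹ * u)⁻¹ * (g⁻¹ * z) = u⁻¹ * z by group,
        show (2 + 1 + 1 : ℝ) = 4 by norm_num, ← mem_sm] at this
    have a2 : ∀ g ∈ Gd, u ∈ g • A → ν (u • bx (4 * ρ) (P T 0 0)) ≤ H * ν (g • bx ρ (P T 0 s)) := by
      intro g hg hu
      refine le_trans (measure_mono fun z hz => ?_) (dA g hg)
      have := mul' vA ρ0 ρ1 one_pos four_pos (by norm_num) (one' (mem_sm.1 hu)) (mem_sm.1 hz)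
      rw [show g⁻¹ * u * (u⁻¹ * z) = g⁻¹ * z by group] at this
      exact mem_sm.2 (bx_mono (by linarith) (by linarith) le_rfl this)
    refine count ν (meas_bx.const_smul u) φm (U := u • bx (4 * ρ) (P T 0 0)) ?_ ?_ ?_
    · exact fun h => pos g₀ hg₀ (measure_mono_null ((smul_set_mono
        (bx_mono ρ0.le le_rfl (F.le le_rfl s0 le_rfl))).trans (a1 g₀ hg₀ hu₀)) h)
    · exact ne_top_of_le_ne_top (ENNReal.mul_ne_top Ht mt)
        ((a2 g₀ hg₀ hu₀).trans (mul_le_mul_right (leW g₀ hg₀ T0 le_rfl s0) _))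
    · rintro γ ⟨g, hg, hu, rfl⟩
      refine ⟨_, a1 g hg hu, fun z hz => cell_le (by positivity) ?_, a2 g hg hu⟩
      have hz' := mem_sm.1 hz
      have hz0 := sub0 T0 le_rfl s0 ρ0.le hz'
      have := line_d F.ji F.ik F.jk e0.le (η := η) (th two_pos.le (by norm_num) (g2 g hg))
        (th one_pos.le (by norm_num) (one' hz0))
        (by rw [co]; exact th four_pos.le (by norm_num) (inW g hg z hz0)) r4 hη'
        ((F.a hz').le.trans eT) (F.c' hz').le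
      rw [co] at this
      linarith
  have legs : ∀ g ∈ Gd, ∀ u ∈ g • A, ∀ v ∈ g • B,
      |dd j i k g.1 - (v.1 j k - u.1 j i * v.1 i k)| ≤ 4 * η := by
    intro g hg u hu v hv
    have hu' := mem_sm.1 hu
    have hv' := mem_sm.1 hv
    have hv0 := sub0 le_rfl s0 s0 ρ0.le hv'
    have := leg F.ji F.ik F.jk e0.le (η := η) (th two_pos.le (by norm_num) (g2 g hg))
      (th one_pos.le (by norm_num) (one' (sub0 T0 le_rfl le_rfl ρ0.le hu')))
      (th one_pos.le (by norm_num) (one' hv0))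
      (by rw [co]; exact th four_pos.le (by norm_num) (inW g hg v hv0)) r4 hη'
      ((F.a hu').le.trans eT) (F.b hv').le (F.c' hv').le
    rwa [co, co] at this
  refine HAbs.cherry ν (W := W) (A := fun g => g • A) (B := fun g => g • B)
    (w := fun g => ν (g • bx ρ (P T s s))) (R := R)
    (Nr := {p | |p.1.1 j i - p.2.1 j i| ≤ ρ * exp (-l₁)}) (κ := κ) (κ' := 9 * H * H * κ)
    hGd meas_bx Ro.measurableSet ?_ (ms meas_bx) (ms meas_bx) (meas_smul ν meas_bx) le_rfl m0 mt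
    δ0 δt hδ ?_ (fun g hg u hu v hv => ⟨g, hg, hu, hv⟩) (fun u v => ?_) (fun g hg => ?_) ?_ ?_
  · exact (isClosed_le (((cont_ent j i).comp continuous_fst).sub
      ((cont_ent j i).comp continuous_snd)).abs continuous_const).measurableSet
  · rintro p ⟨g, hg, hu, hv⟩
    exact ⟨inW g hg _ (sub0 T0 le_rfl le_rfl ρ0.le (mem_sm.1 hu)),
      inW g hg _ (sub0 le_rfl s0 s0 ρ0.le (mem_sm.1 hv))⟩
  · have q : ∀ {t : Fin n → Fin n → ℝ} {a b u : G n}, Valid t → u ∈ a • bx ρ t → u ∈ b • bx ρ t →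
        a⁻¹ * b ∈ bx (4 * ρ) t := fun {t a b u} v ha hb => by
      have := mul' v ρ0 ρ1 one_pos two_pos (by norm_num) (one' (mem_sm.1 ha))
        (inv_bx v ρ0 (by linarith) (mem_sm.1 hb))
      rwa [show a⁻¹ * u * (b⁻¹ * u)⁻¹ = a⁻¹ * b by group,
        show (1 + 2 + 1 : ℝ) = 4 by norm_num] at this
    refine (((cov_bx (ρ := 4 * ρ) vI vI le_rfl ρ0 (by linarith) (by linarith)).mono
      le_rfl le_rfl (le_of_eq ?_)).of_diff fun a ha b hb => ?_) ν inferInstance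
    · simp only [sub_self, Finset.sum_const_zero, exp_zero, mul_one]
      congr 2; field_simp; norm_num
    · have a1 := q vA ha.2.1 hb.2.1
      have a2 := q vB ha.2.2 hb.2.2
      exact F.mk' (sub0 T0 le_rfl le_rfl (by linarith) a1) (F.a a1) (F.b a2) (F.c' a2)
  · have wt : ν (g • bx ρ (P T s s)) ≠ ∞ := ne_top_of_le_ne_top mt (leW g hg T0 s0 s0)
    have a1 : ν W ≤ K * ν (g • bx ρ (P 0 0 0)) :=
      le_trans (measure_mono fun u hu => mem_sm.2 (big (ofW g hg u hu))) (d0 g hg)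
    calc ν W ≤ K * ((ν (g • bx ρ (P T s s)))⁻¹ *
          (ν (g • bx ρ (P T s s)) * ν (g • bx ρ (P 0 0 0)))) := by
          rwa [← mul_assoc _ (ν _), ENNReal.inv_mul_cancel (pos g hg) wt, one_mul]
      _ ≤ K * ((ν (g • bx ρ (P T s s)))⁻¹ * (K * (ν (g • A) * ν (g • B)))) :=
          mul_le_mul_right (mul_le_mul_right (mi g hg) _) _
      _ = K * K * ((ν (g • bx ρ (P T s s)))⁻¹ * (ν (g • A) * ν (g • B))) := by ring
  · rintro u v ⟨g, hg, hu, -⟩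
    refine le_trans (measure_mono fun u' hu' => mem_sm.2 ?_)
      ((s1 g hg).trans (mul_le_mul_right (leW g hg le_rfl le_rfl le_rfl) _))
    have a0 := ofW g hg u' hu'.1
    have hu1 := mem_sm.1 hu
    have a1 := entry_a F.ji F.ik F.jk (th two_pos.le (by norm_num) (g2 g hg))
      (th (by norm_num) (by norm_num) a0)
    have a2 := plane_a F.ji F.ik F.jk (η := η) (th two_pos.le (by norm_num) (g2 g hg))
      (th one_pos.le (by norm_num) (one' (sub0 T0 le_rfl le_rfl ρ0.le hu1))) hη'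
      ((F.a hu1).le.trans eT)
    rw [co] at a1 a2
    have a3 : |u.1 j i - u'.1 j i| ≤ ρ * exp (-l₁) := hu'.2
    refine F.mk' (big a0) ?_ (F.b (big a0)) (F.c' (big a0))
    rw [abs_le] at a1 a2 a3
    rw [abs_lt]
    constructor <;> linarith [a1.1, a1.2, a2.1, a2.2, a3.1, a3.2]
  · intro u u' hN
    have hN' : ρ * exp (-l₁) < |u.1 j i - u'.1 j i| := not_le.1 hN
    set pc : ℤ × ℤ → Set (G n) := fun p => {v | ∃ g ∈ Gd, ∃ g' ∈ Gd, u ∈ g • A ∧ v ∈ g • B ∧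
      u' ∈ g' • A ∧ v ∈ g' • B ∧ φ g = p.1 ∧ φ g' = p.2} with hpc
    have a1 : {v | (u, v) ∈ R ∧ (u', v) ∈ R} ⊆ ⋃ p, pc p := by
      rintro v ⟨⟨g, hg, b1, b2⟩, g', hg', b3, b4⟩
      exact mem_iUnion.2 ⟨(φ g, φ g'), g, hg, g', hg', b1, b2, b3, b4, rfl, rfl⟩
    have a2 : ∀ p, ν (pc p) ≤ (Γ u).indicator (1 : ℤ → ℝ≥0∞) p.1 *
        ((Γ u').indicator (1 : ℤ → ℝ≥0∞) p.2 * (κ * ν W)) := by
      intro p
      rcases (pc p).eq_empty_or_nonempty with h | ⟨v₀, g₀, hg₀, g₀', hg₀', b1, b2, b3, b4, b5, b6⟩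
      · simp [h]
      rw [indicator_of_mem (show p.1 ∈ Γ u from ⟨g₀, hg₀, b1, b5⟩),
        indicator_of_mem (show p.2 ∈ Γ u' from ⟨g₀', hg₀', b3, b6⟩), Pi.one_apply, Pi.one_apply,
        one_mul, one_mul]
      refine le_trans (measure_mono ?_)
        ((s2 g₀ hg₀).trans (mul_le_mul_right (leW g₀ hg₀ le_rfl le_rfl le_rfl) _))
      rintro v ⟨g, hg, g', hg', c1, c2, c3, c4, c5, c6⟩
      have d1 := abs_le.1 (legs g hg u c1 v c2)
      have d2 := abs_le.1 (legs g' hg' u' c3 v c4)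
      have d3 := abs_le.1 (legs g₀ hg₀ u b1 v₀ b2)
      have d4 := abs_le.1 (legs g₀' hg₀' u' b3 v₀ b4)
      have d5 := abs_le.1 (cell_lt (by positivity) (c5.trans b5.symm))
      have d6 := abs_le.1 (cell_lt (by positivity) (c6.trans b6.symm))
      have d7 : |u.1 j i - u'.1 j i| * |v.1 i k - v₀.1 i k| ≤ 24 * η := by
        rw [← abs_mul, abs_le]
        constructor <;> linarith [d1.1, d1.2, d2.1, d2.2, d3.1, d3.2, d4.1, d4.2, d5.1, d5.2,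
          d6.1, d6.2]
      have d8 : |v.1 i k - v₀.1 i k| ≤ ρ * exp (-l₂) := by
        have p1 : 0 < ρ * exp (-l₁) := by positivity
        refine le_of_mul_le_mul_left ((mul_le_mul_of_nonneg_right hN'.le (abs_nonneg _)).trans
          (d7.trans ?_)) p1
        have := mul_le_mul_of_nonneg_left hs ρ0.le
        rw [hη]
        linarith
      have a0 := ofW g₀ hg₀ v (inW g hg v (sub0 le_rfl s0 s0 ρ0.le (mem_sm.1 c2)))
      have hv1 := mem_sm.1 b2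
      have f1 := entry_b F.ji F.ik F.jk (th two_pos.le (by norm_num) (g2 g₀ hg₀))
        (th (by norm_num) (by norm_num) a0)
      have f2 := plane_b F.ji F.ik F.jk (η := η) (th two_pos.le (by norm_num) (g2 g₀ hg₀))
        (th one_pos.le (by norm_num) (one' (sub0 le_rfl s0 s0 ρ0.le hv1))) hη' (F.b hv1).le
      rw [co] at f1 f2
      refine mem_sm.2 (F.mk' (big a0) (F.a (big a0)) ?_ (F.c' (big a0)))
      rw [abs_le] at f1 f2 d8
      rw [abs_lt]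
      constructor <;> linarith [f1.1, f1.2, f2.1, f2.2, d8.1, d8.2]
    refine (measure_mono a1).trans ((measure_iUnion_le _).trans
      ((ENNReal.tsum_le_tsum a2).trans ?_))
    rw [ENNReal.tsum_prod']
    simp only [ENNReal.tsum_mul_left, ENNReal.tsum_mul_right]
    calc _ ≤ 3 * H * (3 * H * (κ * ν W)) := by
          gcongr
          exacts [cnt u, cnt u']
      _ = 9 * H * H * κ * ν W := by ring

end Vale.Agent.P007M.HLoc
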