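import Vale.Agent.P007M.Core
import Vale.Agent.P007M.HLoc
import Vale.Agent.P007M.HInf
import Vale.Agent.P007M.HDef

/-!
# P007M: the Heisenberg lemma
-/

open MeasureTheory Set Real
open scoped ENNReal Pointwise

namespace Vale.Agent.P007M

open Vale.Agent.P007 Vale.Agent.P007.Koopman Vale.Agent.P007.R Reg HLoc HInf

namespace HeisAux

variable {n : ℕ} {μ : Measure (X n)} [IsProbabilityMeasure μ]

theorem mass {V : Set (X n)} {B : Set (G n)} {N : ℝ≥0∞} (hV : MeasurableSet V)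
    (hB : MeasurableSet B) (h0 : ∀ x ∈ V, loc μ x B ≠ 0) (ht : ∀ x, loc μ x B ≠ ∞)
    (h : ∀ y, ∫⁻ g in {g | g⁻¹ ∈ B ∧ tr g y ∈ V}, (loc μ y (g • B))⁻¹ ∂loc μ y ≤ N) : μ V ≤ N := by
  have m : MeasurableSet (V ×ˢ B) := hV.prod hB
  have k := mtp (μ := μ) (k := fun x g => (V ×ˢ B).indicator (fun p => (loc μ p.1 B)⁻¹) (x, g))
    (((meas_loc hB).inv.comp measurable_fst).indicator m)
  rw [← lintegral_indicator_one hV]
  refine (lintegral_congr fun x => ?_).trans_le (k.trans_le ((lintegral_mono fun y => ?_).trans_eq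
    ((lintegral_const N).trans (by simp))))
  · by_cases z : x ∈ V
    · rw [indicator_of_mem z, Pi.one_apply, ← ENNReal.inv_mul_cancel (h0 x z) (ht x),
        ← lintegral_indicator_const hB]
      exact lintegral_congr fun g => ind_congr (and_iff_right z).symm rfl
    · simp only [indicator, mem_prod, z, false_and, if_false, lintegral_zero]
  · refine le_trans (le_of_eq ?_) (h y)
    rw [← lintegral_indicator (s := {g | g⁻¹ ∈ B ∧ tr g y ∈ V}) ((measurable_inv hB).inter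
      ((measurable_tr_uncurry.comp measurable_prodMk_left) hV))]
    exact lintegral_congr fun g => ind_congr and_comm (congrArg _ (loc_tr _ _ _ _))

theorem good {j i k : Fin n} {s ρ T l₁ l₂ M q : ℝ} {P : ℝ → ℝ → ℝ → Fin n → Fin n → ℝ}
    (F : Fam j i k s P) (ρ0 : 0 < ρ) (ρ1 : 256 * n * ρ ≤ 1) (sT : s ≤ T) (l1 : l₁ ≤ s)
    (l2 : l₂ ≤ s) (hs : 24 * exp (-s) ≤ ρ * exp (-l₁) * exp (-l₂)) (v0 : Valid (P 0 0 0))
    (vA : Valid (P T 0 0)) (vB : Valid (P 0 s s)) (vI : Valid (P T s s)) (M0 : 0 ≤ M) (q0 : 0 ≤ q)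
    {V : Set (X n)} (hV : MeasurableSet V) (h : ∀ x ∈ V, Pos μ x ∧
      fi μ ρ (P T 0 0) x + fi μ ρ (P 0 s s) x - fi μ ρ (P 0 0 0) x - fi μ ρ (P T s s) x ≤ M ∧
      fi μ ρ (P 0 0 0) x - fi μ (16 * ρ) (P 0 0 0) x ≤ M ∧
      fi μ ρ (P T 0 s) x - fi μ (16 * ρ) (P T 0 0) x ≤ q / 4 + 2 * M ∧
      q - 2 * M ≤ fi μ (16 * ρ) (P l₁ 0 0) x - fi μ ρ (P 0 0 0) x ∧
      q - 2 * M ≤ fi μ (16 * ρ) (P 0 l₂ 0) x - fi μ ρ (P 0 0 0) x) :
    μ.real V ≤ 8 * 24 ^ (n * n) * exp (6 * M - q / 4) := by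
  have ρ2 : 0 < 16 * ρ := by positivity
  refine ENNReal.toReal_le_of_le_ofReal (by positivity)
    (mass hV (B := bx ρ (P 0 0 0)) meas_bx (fun x hx => (h x hx).1 ρ ρ0 _)
      (fun x => loc_bx_ne_top x _ _) fun y => ?_)
  set Gd : Set (G n) := {g | g⁻¹ ∈ bx ρ (P 0 0 0) ∧ tr g y ∈ V} with hGd
  have Gm : MeasurableSet Gd :=
    (measurable_inv meas_bx).inter ((measurable_tr_uncurry.comp measurable_prodMk_left) hV)
  have d0 : ∀ g ∈ Gd, loc μ y (g • bx (16 * ρ) (P 0 0 0)) ≤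
      ENNReal.ofReal (exp M) * loc μ y (g • bx ρ (P 0 0 0)) := fun g hg => by
    obtain ⟨p, -, a, -⟩ := h _ hg.2
    rw [← loc_tr, ← loc_tr, ← neg_neg M]
    exact (p.le_iff ρ0 ρ2 _).1 (by linarith)
  have a1 := hloc F (loc μ y) ρ0 ρ1 sT l1 l2 hs v0 vA vB vI Gm (fun g hg => hg.1)
    (K := ENNReal.ofReal (exp M)) (H := ENNReal.ofReal (exp (q / 4 + 2 * M)))
    (κ := ENNReal.ofReal (exp (-(q - 2 * M)))) (δ := ENNReal.ofReal (4 * exp (3 * M - q / 4)))
    (loc_bx_ne_top y _ _) ENNReal.ofReal_ne_top (ENNReal.ofReal_pos.2 (by positivity)).ne'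
    ENNReal.ofReal_ne_top ?_ (fun g hg => by rw [← loc_tr]; exact (h _ hg.2).1 ρ ρ0 _)
    (fun g hg => ?_) d0 (fun g hg => ?_) (fun g hg => ?_) (fun g hg => ?_)
  · have mt := loc_bx_ne_top (μ := μ) y (4 * ρ) (P 0 0 0)
    have a2 : ∀ g ∈ Gd, (loc μ y (g • bx ρ (P 0 0 0)))⁻¹ ≤
        ENNReal.ofReal (exp M) * (loc μ y (bx (4 * ρ) (P 0 0 0)))⁻¹ := by
      intro g hg
      have a3 : loc μ y (bx (4 * ρ) (P 0 0 0)) ≤
          ENNReal.ofReal (exp M) * loc μ y (g • bx ρ (P 0 0 0)) := by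
        refine le_trans (measure_mono fun u hu => mem_sm.2 ?_) (d0 g hg)
        exact bx_mono (by linarith) (by linarith) le_rfl
          (mul' v0 ρ0 ρ1 one_pos four_pos (by norm_num) (one' hg.1) hu)
      have e0 : ENNReal.ofReal (exp M) ≠ 0 := (ENNReal.ofReal_pos.2 (exp_pos _)).ne'
      have a4 := ENNReal.inv_le_inv.2 a3
      rw [ENNReal.mul_inv (.inl e0) (.inl ENNReal.ofReal_ne_top)] at a4
      calc _ = ENNReal.ofReal (exp M) * ((ENNReal.ofReal (exp M))⁻¹ *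
            (loc μ y (g • bx ρ (P 0 0 0)))⁻¹) := by
            rw [← mul_assoc, ENNReal.mul_inv_cancel e0 ENNReal.ofReal_ne_top, one_mul]
        _ ≤ _ := mul_le_mul_right a4 _
    refine (setLIntegral_mono' Gm a2).trans ?_
    rw [setLIntegral_const]
    refine (mul_le_mul_right a1 _).trans ?_
    have a5 : ∀ a b c : ℝ≥0∞, a * b⁻¹ * (c * b) ≤ a * c := fun a b c => by
      calc a * b⁻¹ * (c * b) = a * c * (b * b⁻¹) := by ring
        _ ≤ a * c := mul_le_of_le_one_right' (ENNReal.mul_inv_le_one _)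
    refine (a5 _ _ _).trans (le_of_eq ?_)
    rw [← ENNReal.ofReal_ofNat 2, ← ENNReal.ofReal_mul (by positivity),
      ← ENNReal.ofReal_mul (by positivity), ← ENNReal.ofReal_mul (by positivity),
      ← ENNReal.ofReal_mul (by positivity), ← ENNReal.ofReal_mul (by positivity)]
    congr 1
    rw [show 6 * M - q / 4 = M + M + M + (3 * M - q / 4) by ring, exp_add, exp_add, exp_add]
    ring
  · rw [← ENNReal.ofReal_ofNat 9, ← ENNReal.ofReal_mul (by positivity),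
      ← ENNReal.ofReal_mul (by positivity), ← ENNReal.ofReal_mul (by positivity),
      ← ENNReal.ofReal_mul (by positivity), ← ENNReal.ofReal_add (by positivity) (by positivity)]
    refine ENNReal.ofReal_le_ofReal ?_
    have b1 : exp (-(q - 2 * M)) ≤ exp (6 * M - q / 2) := exp_le_exp.2 (by linarith)
    have b2 : exp (q / 4 + 2 * M) * exp (q / 4 + 2 * M) * exp (-(q - 2 * M)) =
        exp (6 * M - q / 2) := by
      rw [← exp_add, ← exp_add]; congr 1; ring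
    have b3 : exp (3 * M - q / 4) * exp (3 * M - q / 4) = exp (6 * M - q / 2) := by
      rw [← exp_add]; congr 1; ring
    have b4 := exp_pos (6 * M - q / 2)
    nlinarith
  · obtain ⟨p, a, -⟩ := h _ hg.2
    simp only [← loc_tr, p.eq ρ0, ← ENNReal.ofReal_mul (exp_pos _).le, ← exp_add]
    exact ENNReal.ofReal_le_ofReal (exp_le_exp.2 (by linarith))
  · obtain ⟨p, -, -, a, -⟩ := h _ hg.2
    rw [← loc_tr, ← loc_tr, ← neg_neg (q / 4 + 2 * M)]
    exact (p.le_iff ρ0 ρ2 _).1 (by linarith)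
  · obtain ⟨p, -, -, -, a, -⟩ := h _ hg.2
    rw [← loc_tr, ← loc_tr]
    exact (p.le_iff ρ0 ρ2 _).1 a
  · obtain ⟨p, -, -, -, -, a⟩ := h _ hg.2
    rw [← loc_tr, ← loc_tr]
    exact (p.le_iff ρ0 ρ2 _).1 a

theorem exp_neg_le {x : ℝ} (h : 0 < x) : exp (-x) ≤ 1 / x := by
  rw [exp_neg, one_div]
  exact inv_anti₀ h (by linarith [add_one_le_exp x])

end HeisAux

open HeisAux

/-- **The Heisenberg lemma.** -/
theorem heis (n : ℕ) : ∃ CH : ℝ, 0 < CH ∧ ∀ (μ : Measure (X n)) [IsProbabilityMeasure μ],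
    AInv μ → ∀ ρ d : ℝ, 0 < ρ → 256 * n * ρ ≤ 1 → Heis μ (fi μ ρ) d (log (32 / ρ)) CH := by
  set c₀ : ℝ := 4 * 84 ^ (n * n) + 192 ^ (n * n) with hc₀
  have c0 : 0 < c₀ := by positivity
  refine ⟨240 * (2 + c₀) + 160 * 24 ^ (n * n), by positivity, ?_⟩
  intro μ _ ha ρ d ρ0 ρ1 r R Λ C θ η h l₁ l₂ s η0 C0 g dr Λ0 Λr h1 h2 l10 l20 hs sΛ sd hh j i k
    hji hik hjk
  have n1 : (1 : ℝ) ≤ n := Nat.one_le_cast.2 j.pos
  have nρ := mul_nonneg (Nat.cast_nonneg (α := ℝ) n) ρ0.le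
  have lg : 0 ≤ log (32 / ρ) := log_nonneg (by rw [le_div_iff₀ ρ0]; nlinarith)
  have s0 : 0 ≤ s := by linarith
  have d0 : 0 ≤ d := s0.trans sd
  have r0 : 0 < r := Λ0.trans_le Λr
  have hs' : 24 * exp (-s) ≤ ρ * exp (-l₁) * exp (-l₂) := by
    have a1 : exp (-s) ≤ exp (-log (32 / ρ) + -l₁ + -l₂) := exp_le_exp.2 (by linarith)
    rw [exp_add, exp_add, exp_neg (log _), exp_log (by positivity), inv_div] at a1
    have a2 : 0 < ρ * exp (-l₁) * exp (-l₂) := by positivity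
    linarith
  obtain ⟨w, w0, w1, ⟨i1, j1⟩, ⟨i2, j2⟩, ⟨i3, j3⟩, ⟨i4, j4⟩⟩ := inf
    (info_fi (μ := μ) ρ0 (by linarith) d) g (fun u => ⟨_, act_fi ha ρ d u⟩) hji hik hjk d0 dr Λ0
    Λr h1 h2 (l₁ := l₁) (l₂ := l₂) s0 sΛ l10 (by linarith) l20 (by linarith)
  set P := P d θ w j i k with hP
  have F : Fam j i k s P := ⟨hji, hik, hjk, s0, fun _ _ _ => P1 hji hik hjk,
    fun _ _ _ => P2 hji hik hjk, fun _ _ _ => P3 hji hik hjk,
    fun _ _ _ _ _ e1 e2 e3 => Po hji hik hjk e1 e2 e3 _ _ _,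
    fun _ _ e1 e2 e3 => Pge hji hik hjk w0 sd (by linarith) e1 e2 e3⟩
  have v : ∀ {x y z : ℝ}, 0 ≤ x → 0 ≤ y → 0 ≤ z → x ≤ 2 * r → y ≤ s → z ≤ s → z ≤ x + y →
      Valid (P x y z) := fun x0 y0 z0 x1 y1 z1 e =>
    (valP hji hik hjk d0 (by linarith) w0 x0 y0 z0 (by linarith) (by linarith) (by linarith)
      e).valid
  have v0 : Valid (P 0 0 0) := v le_rfl le_rfl le_rfl (by linarith) s0 s0 (by linarith)
  have vA : Valid (P (2 * r) 0 0) := v (by linarith) le_rfl le_rfl le_rfl s0 s0 (by linarith)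
  have vB : Valid (P 0 s s) := v le_rfl s0 s0 (by linarith) le_rfl le_rfl (by linarith)
  have vI : Valid (P (2 * r) s s) := v (by linarith) s0 s0 le_rfl le_rfl le_rfl (by linarith)
  have v1 : Valid (P l₁ 0 0) := v l10 le_rfl le_rfl (by linarith) s0 s0 (by linarith)
  have v2 : Valid (P 0 l₂ 0) := v le_rfl l20 le_rfl (by linarith) (by linarith) s0 (by linarith)
  set c : ℝ := 2 * C + c₀ with hc
  have cp : 0 < c := by positivity
  set M : ℝ := c / (η / 10) with hM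
  have M0 : 0 < M := by positivity
  have p84 : (0 : ℝ) < 84 ^ (n * n) := by positivity
  have p192 : (0 : ℝ) < 192 ^ (n * n) := by positivity
  have p24 : (0 : ℝ) < 24 ^ (n * n) := by positivity
  have η1 : 0 < η / 10 := by positivity
  have b1 := markov i1 (j1.trans (by linarith : _ ≤ c)) η1 cp
  have b2 := markov i2 (j2.trans (by linarith : _ ≤ c)) η1 cp
  have b3 := markov i3 (j3.trans (by linarith : _ ≤ c)) η1 cp
  have b4 := markov i4 (j4.trans (by linarith : _ ≤ c)) η1 cp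
  have db : ∀ {t : Th n}, Valid t →
      μ.real {x | M ≤ fi μ ρ t x - fi μ (16 * ρ) t x} ≤ η / 10 := fun {t} v => by
    have a1 := tail_fi (μ := μ) (ρ := 16 * ρ) v v le_rfl ρ0 (by linarith) (by linarith) M
    simp only [sub_self, Finset.sum_const_zero, zero_add] at a1
    rw [show 12 * (16 * ρ) / ρ = 192 by field_simp; norm_num] at a1
    refine a1.trans ((mul_le_mul_of_nonneg_left (exp_neg_le M0) p192.le).trans ?_)
    rw [hM, one_div_div, ← mul_div_assoc, div_le_iff₀ cp]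
    nlinarith
  have hq : 24 * M + 160 * 24 ^ (n * n) / η ≤ h := by
    refine le_trans ?_ hh
    rw [hM, div_div_eq_mul_div, ← mul_div_assoc, ← add_div]
    refine div_le_div_of_nonneg_right ?_ η0.le
    nlinarith [mul_nonneg C0 c0.le, mul_nonneg C0 p24.le]
  have hq1 : 0 < 160 * 24 ^ (n * n) / η := by positivity
  set N := toMeasurable μ {x | ¬Pos μ x} with hN
  have N0 : μ.real N = 0 := by
    rw [measureReal_def, hN, measure_toMeasurable, ae_iff.1 (ae_pos μ), ENNReal.toReal_zero]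
  set V : Set (X n) := Nᶜ ∩ {x | fi μ ρ (P (2 * r) 0 0) x + fi μ ρ (P 0 s s) x -
        fi μ ρ (P 0 0 0) x - fi μ ρ (P (2 * r) s s) x ≤ M ∧
      fi μ ρ (P 0 0 0) x - fi μ (16 * ρ) (P 0 0 0) x ≤ M ∧
      fi μ ρ (P (2 * r) 0 s) x - fi μ (16 * ρ) (P (2 * r) 0 0) x ≤ h / 4 + 2 * M ∧
      h - 2 * M ≤ fi μ (16 * ρ) (P l₁ 0 0) x - fi μ ρ (P 0 0 0) x ∧
      h - 2 * M ≤ fi μ (16 * ρ) (P 0 l₂ 0) x - fi μ ρ (P 0 0 0) x} with hV
  have m := fun ρ t => meas_fi (μ := μ) ρ t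
  have Vm : MeasurableSet V := (measurableSet_toMeasurable _ _).compl.inter
    ((measurableSet_le ((((m _ _).add (m _ _)).sub (m _ _)).sub (m _ _)) measurable_const).inter
      ((measurableSet_le ((m _ _).sub (m _ _)) measurable_const).inter
        ((measurableSet_le ((m _ _).sub (m _ _)) measurable_const).inter
          ((measurableSet_le measurable_const ((m _ _).sub (m _ _))).inter
            (measurableSet_le measurable_const ((m _ _).sub (m _ _)))))))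
  have b5 := good F ρ0 ρ1 (by linarith) (by linarith) (by linarith) hs' v0 vA vB vI M0.le
    (q := h) (by linarith) Vm fun x hx =>
      ⟨not_not.1 fun e => hx.1 (subset_toMeasurable _ _ e), hx.2⟩
  have b6 : μ.real V ≤ η / 5 := by
    have a1 : exp (6 * M - h / 4) ≤ exp (-(40 * 24 ^ (n * n) / η)) := exp_le_exp.2 (by
      have : 160 * 24 ^ (n * n) / η = 4 * (40 * 24 ^ (n * n) / η) := by ring
      linarith)
    refine b5.trans ((mul_le_mul_of_nonneg_left (a1.trans (exp_neg_le (by positivity)))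
      (by positivity)).trans (le_of_eq ?_))
    field_simp
    norm_num
  have u : ∀ {A B : Set (X n)} {a b : ℝ}, μ.real A ≤ a → μ.real B ≤ b → μ.real (A ∪ B) ≤ a + b :=
    fun h1 h2 => (measureReal_union_le _ _).trans (add_le_add h1 h2)
  refine (measureReal_mono fun x hx => ?_).trans
    ((u (u (u (u (u (u (u (u (u b6 N0.le) b1) b2) b3) b4) (db v0)) (db vA)) (db v1))
      (db v2)).trans (by linarith))
  obtain ⟨x1, x2, x3⟩ := hx
  by_contra e
  simp only [mem_union, not_or, mem_ofPred_eq, not_le, ← hM, abs_lt] at e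
  obtain ⟨⟨⟨⟨⟨⟨⟨⟨⟨e0, eN⟩, e1⟩, e2⟩, e3⟩, e4⟩, e5⟩, e6⟩, e7⟩, e8⟩ := e
  exact e0 ⟨eN, e1.2.le, e5.le, by linarith [e2.2], by linarith [e3.1], by linarith [e4.1]⟩

end Vale.Agent.P007M
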