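import Vale.Agent.P007M.EquiF
import Vale.Agent.P007M.CoreA
import Vale.Agent.P007M.Heis

/-! The rigidity statement. -/

set_option autoImplicit false

namespace Vale.Agent.P007M

theorem coreStmt {n : ℕ} (hn : 3 ≤ n) : CoreStmt n :=
  fun _ _ _ _ _ H h1 h2 h3 h4 _ => core hn H h1 h2 h3 h4

theorem heisStmt (n : ℕ) : HeisStmt n := by
  obtain ⟨CH, h0, h⟩ := heis n
  refine ⟨CH, 1 / (256 * (n + 1)), h0.le, by positivity, fun ρ h1 h2 =>
    ⟨Real.log (32 / ρ), fun d μ _ _ hμ => h μ hμ ρ d h1 ?_⟩⟩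
  rw [le_div_iff₀ (by positivity)] at h2
  nlinarith

theorem mainStmt {n : ℕ} (hn : 3 ≤ n) : MainStmt n := main_of (coreStmt hn) (heisStmt n)

end Vale.Agent.P007M
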