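import Vale.Agent.P007M.IfcA
import Vale.Agent.P007M.Box

/-! The entropy bound gives the gain of information. -/

set_option autoImplicit false

open MeasureTheory Filter Topology Set Real
open scoped ENNReal Pointwise

namespace Vale.Agent.P007M

open Vale.Agent.P007 Vale.Agent.P007.Koopman Reg

variable {n : ℕ}

/-- on a compact set the local masses are rarely small -/
theorem low_loc {Ω : Set (X n)} (hΩ : IsCompact Ω) {U : Set (G n)} (hU : U ∈ 𝓝 1)
    (hm : MeasurableSet U) : ∃ N : ℕ, ∀ (μ : Measure (X n)) (lam : ℝ≥0∞),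
      μ {x | x ∈ Ω ∧ loc μ x U ≤ lam} ≤ N * lam := by
  obtain ⟨V, hV, hVU⟩ := exists_nhds_split_inv hU
  obtain ⟨W, hW1, hW2, hW3⟩ := mem_nhds_iff.1 (inv_mem_nhds_one _ hV)
  obtain ⟨t, ht⟩ := hΩ.elim_finite_subcover (fun x : X n => (tr · x) '' W)
    (fun x => open_tr x W hW2) fun x _ => mem_iUnion.2 ⟨x, 1, hW3, tr_one x⟩
  refine ⟨t.card, fun μ lam => ?_⟩
  have h1 : {x | x ∈ Ω ∧ loc μ x U ≤ lam} ⊆
      ⋃ z ∈ t, ((tr · z) '' W ∩ {x | loc μ x U ≤ lam}) := fun x hx => by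
    obtain ⟨z, hz, h⟩ := mem_iUnion₂.1 (ht hx.1)
    exact mem_iUnion₂.2 ⟨z, hz, h, hx.2⟩
  refine (measure_mono h1).trans ((measure_biUnion_finset_le _ _).trans ?_)
  rw [← nsmul_eq_mul]
  refine Finset.sum_le_card_nsmul _ _ _ fun z _ => ?_
  rcases eq_empty_or_nonempty ((tr · z) '' W ∩ {x | loc μ x U ≤ lam}) with e | ⟨x, ⟨a, ha, rfl⟩, hx⟩
  · rw [e, measure_empty]
    exact zero_le
  refine le_trans (measure_mono ?_) ((le_loc hm _).trans hx)
  rintro _ ⟨⟨b, hb, rfl⟩, -⟩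
  refine ⟨a⁻¹ * b, ?_, by simp only [tr_tr, mul_inv_cancel_left]⟩
  have := hVU _ (hW1 ha) _ (hW1 hb)
  simpa [div_eq_mul_inv] using this

theorem valid_of_val {d : ℝ} {t : Th n} (h : Val d t) : Valid t := fun a b c => h.2 a c b

theorem loc_ne_top (μ : Measure (X n)) [IsFiniteMeasure μ] (x : X n) (ρ : ℝ) (t : Th n) :
    loc μ x (bx ρ t) ≠ ∞ := by
  obtain ⟨K, hK, e⟩ := cpt_bx ρ t
  exact ((measure_mono e).trans_lt hK.measure_lt_top).ne

/-- upper bound for the information at the base point -/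
theorem base_le {Ω : Set (X n)} (hΩ : IsCompact Ω) {ρ η : ℝ} (hρ : 0 < ρ) (hρ1 : 2 * n * ρ ≤ 1)
    (hη : 0 < η) : ∃ M : ℝ, ∀ (μ : Measure (X n)) [IsProbabilityMeasure μ] (t : Th n) (r : ℝ),
      Valid t → (∀ j k, 0 ≤ t j k ∧ t j k ≤ r) →
      μ.real {x | x ∈ Ω ∧ n ^ 2 * r + M < -log (loc μ x (bx ρ t)).toReal} ≤ η := by
  have v0 : Valid (0 : Th n) := fun _ _ _ => by simp
  obtain ⟨N, hN⟩ := low_loc hΩ (bx_nhds (t := (0 : Th n)) hρ) meas_bx
  set c : ℝ := (6 * (2 * ρ) / ρ) ^ (n * n) with hc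
  have hc0 : 0 < c := by positivity
  set lam : ℝ := η / (2 * (N + 1)) with hlam
  have hlam0 : 0 < lam := by positivity
  refine ⟨log (2 * c / (η * lam)), fun μ _ t r v ht => ?_⟩
  have hcov := cov_bx (ρ := 2 * ρ) (ρ' := ρ) v0 v (fun j k => (ht j k).1) hρ (by linarith)
    (by nlinarith [Nat.cast_nonneg (α := ℝ) n])
  have hsum : ∑ j, ∑ k, (t j k - (0 : Th n) j k) ≤ n ^ 2 * r := by
    refine (Finset.sum_le_card_nsmul _ _ (n * r) fun j _ =>
      (Finset.sum_le_card_nsmul _ _ r fun k _ => ?_).trans_eq (by simp)).trans_eq (by simp; ring)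
    simpa using (ht j k).2
  have hrat := ratio (μ := μ) (E := bx ρ (0 : Th n)) (B := bx ρ t)
    (N := ENNReal.ofReal (c * exp (n ^ 2 * r))) meas_bx meas_bx
    (hcov.mono (fun g hg => by simpa using inv_bx v0 hρ hρ1 hg) le_rfl
      (ENNReal.ofReal_le_ofReal (by gcongr)))
  set A : ℝ := 2 * c * exp (n ^ 2 * r) / η with hA
  have hA0 : 0 < A := by positivity
  have hmeas : Measurable fun x => loc μ x (bx ρ (0 : Th n)) / loc μ x (bx ρ t) :=
    (meas_loc meas_bx).div (meas_loc meas_bx)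
  have h2 : μ {x | ENNReal.ofReal A ≤ loc μ x (bx ρ (0 : Th n)) / loc μ x (bx ρ t)} ≤
      ENNReal.ofReal (η / 2) := by
    have h3 := (mul_meas_ge_le_lintegral hmeas (ENNReal.ofReal A)).trans hrat
    have h4 : ENNReal.ofReal (c * exp (n ^ 2 * r)) = ENNReal.ofReal A * ENNReal.ofReal (η / 2) := by
      rw [← ENNReal.ofReal_mul hA0.le, hA]
      congr 1
      field_simp
    rw [h4] at h3
    exact (ENNReal.mul_le_mul_iff_right (ENNReal.ofReal_pos.2 hA0).ne' ENNReal.ofReal_ne_top).1 h3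
  have h1 : μ {x | x ∈ Ω ∧ loc μ x (bx ρ (0 : Th n)) ≤ ENNReal.ofReal lam} ≤
      ENNReal.ofReal (η / 2) := by
    refine (hN μ _).trans ?_
    rw [← ENNReal.ofReal_natCast, ← ENNReal.ofReal_mul (Nat.cast_nonneg _)]
    refine ENNReal.ofReal_le_ofReal ?_
    rw [hlam, mul_div_assoc', div_le_div_iff₀ (by positivity) (by norm_num)]
    nlinarith
  refine ENNReal.toReal_le_of_le_ofReal hη.le ?_
  refine le_trans (le_trans (le_trans (measure_mono fun x hx => ?_) (measure_union_le _ _))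
    (add_le_add h1 h2)) (by rw [← ENNReal.ofReal_add (by positivity) (by positivity), add_halves])
  by_cases e : loc μ x (bx ρ (0 : Th n)) ≤ ENNReal.ofReal lam
  · exact .inl ⟨hx.1, e⟩
  refine .inr ?_
  rw [not_le] at e
  have h5 : loc μ x (bx ρ t) ≤ ENNReal.ofReal (lam / A) := by
    rw [← ENNReal.ofReal_toReal (loc_ne_top μ x ρ t)]
    refine ENNReal.ofReal_le_ofReal ?_
    rcases (ENNReal.toReal_nonneg (a := loc μ x (bx ρ t))).eq_or_lt with z | z
    · rw [← z]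
      positivity
    have h6 := hx.2
    rw [lt_neg, log_lt_iff_lt_exp z] at h6
    refine h6.le.trans_eq ?_
    rw [neg_add, exp_add, exp_neg, exp_neg, exp_log (by positivity), hA]
    field_simp
  change ENNReal.ofReal A ≤ _
  refine le_trans ?_ (ENNReal.div_le_div e.le h5)
  rw [← ENNReal.ofReal_div_of_pos (by positivity)]
  refine ENNReal.ofReal_le_ofReal (le_of_eq ?_)
  field_simp

/-- **the entropy bound gives the gain of information** -/
theorem gain_of_ent {Ω : Set (X n)} (hΩ : IsCompact Ω) {ρ η c₀ : ℝ} (hρ : 0 < ρ)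
    (hρ1 : 2 * n * ρ ≤ 1) (hρ2 : 2 * ρ ≤ 1) (hη : 0 < η) (hc : 0 < c₀) :
    ∃ r₀ : ℝ, ∀ (μ : Measure (X n)) [IsProbabilityMeasure μ] (f : Th n → X n → ℝ) (d r₁ R₁ : ℝ),
      (∀ t x, f t x = -log (loc μ x (bx ρ t)).toReal) → μ.real Ωᶜ ≤ η / 2 → 0 ≤ d → d ≤ r₁ →
      r₀ ≤ r₁ → (∀ τ, r₁ ≤ τ → τ ≤ R₁ → EntB μ Ω 2 c₀ τ) →
      Gain μ f d (c₀ / 2) (4 * n ^ 2 / c₀ + 1) η r₁ R₁ := by
  obtain ⟨M, hM⟩ := base_le hΩ hρ hρ1 (half_pos hη)
  obtain ⟨K, hK, hK'⟩ := cpt_bx ρ (0 : Th n)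
  obtain ⟨N, hN⟩ := loc_le_mul hΩ hK
  refine ⟨4 * (|M| + N) / c₀, fun μ _ f d r₁ R₁ hf hΩ' d0 dr hr hE S s1 s2 r τ e1 e2 e3 => ?_⟩
  have r0 : 0 ≤ r := by linarith
  have hrτ : r ≤ τ := by
    have : 0 ≤ 4 * n ^ 2 / c₀ * r := by positivity
    nlinarith
  have τ0 : 0 ≤ τ := r0.trans hrτ
  have hn : n ^ 2 * r ≤ c₀ * τ / 4 := by
    have : 4 * n ^ 2 / c₀ * r ≤ τ := by nlinarith
    rw [div_mul_eq_mul_div, div_le_iff₀ hc] at this
    nlinarith
  have hm : |M| + N ≤ c₀ * τ / 4 := by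
    have : 4 * (|M| + N) / c₀ ≤ τ := by linarith
    rw [div_le_iff₀ hc] at this
    nlinarith
  have vb := val_base (n := n) d0 (dr.trans e1)
  have vt := valid_of_val (val_base_crs d0 (dr.trans e1) S τ0)
  have hb : ∀ j k, 0 ≤ (base d r : Th n) j k ∧ (base d r : Th n) j k ≤ r := fun j k => by
    unfold base
    split_ifs <;> constructor <;> linarith
  have h1 := hM μ (base d r) r (valid_of_val vb) hb
  refine le_trans (le_trans (ENNReal.toReal_mono (measure_ne_top _ _) (measure_mono_ae ?_))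
    (measureReal_union_le _ _)) ((add_le_add hΩ' h1).trans_eq (add_halves η))
  filter_upwards [loc_pos μ] with x hx hx'
  by_cases xΩ : x ∈ Ω
  swap
  · exact .inl xΩ
  refine .inr ⟨xΩ, ?_⟩
  have h2 : f (base d r + crs S τ) x - f (base d r) x < c₀ / 2 * τ := hx'
  rw [hf, hf] at h2
  have t0 : (0 : Th n) ≤ base d r + crs S τ := fun j k =>
    add_nonneg (hb j k).1 (crs_nonneg S τ0 j k)
  have h3 := hE τ (e1.trans hrτ) e3 S s1 s2 x xΩ (bx ρ (base d r + crs S τ))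
    (open_tr x _ open_bx).measurableSet fun h hh j k => by
      have a1 := bx_mono hρ.le le_rfl t0 hh j k
      have a2 := inv_bx vt hρ hρ1 hh j k
      simp only [Pi.zero_apply, neg_zero, exp_zero, mul_one, Matrix.sub_apply, Matrix.one_apply,
        Pi.add_apply] at a1 a2
      have a3 : exp (-((base d r : Th n) j k + crs S τ j k)) ≤ exp (-crs S τ j k) :=
        exp_le_exp.2 (by linarith [(hb j k).1])
      have a4 := abs_lt.1 a1
      refine ⟨abs_le.2 ?_, ?_⟩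
      · split_ifs at a4 <;> constructor <;> linarith
      by_cases e : j = k
      · have a5 : crs S τ j k = 0 := by simp [crs, e]
        rw [a5] at a3 a2 ⊢
        rw [if_pos e] at a2
        simp only [neg_zero, exp_zero, mul_one] at a3 ⊢
        have a6 := abs_lt.1 a2
        refine abs_le.2 ⟨?_, ?_⟩ <;> nlinarith
      · rw [if_neg e, sub_zero] at a2
        have := exp_pos (-crs S τ j k)
        nlinarith
  have h4 := hN μ x xΩ _ ((bx_mono hρ.le le_rfl t0).trans hK') meas_bx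
  have h5 : (loc μ x (bx ρ (base d r + crs S τ))).toReal ≤ N * exp (-(c₀ * τ)) := by
    refine (ENNReal.toReal_mono (ENNReal.mul_ne_top (ENNReal.natCast_ne_top N)
      (measure_ne_top _ _)) h4).trans ?_
    rw [ENNReal.toReal_mul, ENNReal.toReal_natCast]
    exact mul_le_mul_of_nonneg_left h3 (Nat.cast_nonneg _)
  have h6 : 0 < (loc μ x (bx ρ (base d r + crs S τ))).toReal :=
    ENNReal.toReal_pos (hx _ (bx_nhds hρ)).ne' (loc_ne_top μ x ρ _)
  have h7 : (N : ℝ) * exp (-(c₀ * τ)) ≤ exp (N + -(c₀ * τ)) := by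
    rw [exp_add]
    have := add_one_le_exp (N : ℝ)
    gcongr
    linarith
  have h8 := (log_le_iff_le_exp h6).2 (h5.trans h7)
  linarith [le_abs_self M]

end Vale.Agent.P007M
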