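import Vale.Agent.P007.Bdl.B8
import Mathlib.MeasureTheory.Measure.Support

/-!
# P007M: the local measures of a measure on the space of lattices, mass transport
-/

set_option linter.all false

open MeasureTheory Filter Topology Set Function
open scoped ENNReal Pointwise

namespace Vale.Agent.P007M

open Vale.Agent.P007 Vale.Agent.P007.Koopman

noncomputable section

variable {n : ℕ} {μ : Measure (X n)} {x y : X n} {E B K V : Set (G n)} {N : ℝ≥0∞}

instance : PolishSpace (G n) := by
  have : PolishSpace (Matrix (Fin n) (Fin n) ℝ) := inferInstanceAs (PolishSpace (Fin n → Fin n → ℝ))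
  exact Matrix.SpecialLinearGroup.isClosedEmbedding_val.polishSpace

instance : Countable (Gam n) := by
  have : Countable (Matrix.SpecialLinearGroup (Fin n) ℤ) := by
    have : Countable (Matrix (Fin n) (Fin n) ℤ) := inferInstanceAs (Countable (Fin n → Fin n → ℤ))
    exact inferInstanceAs (Countable {A : Matrix (Fin n) (Fin n) ℤ // A.det = 1})
  exact (MonoidHom.rangeRestrict_surjective _).countable

/-- the sum over all `h` with `x h = y` -/
def fs (k : G n → ℝ≥0∞) (x y : X n) : ℝ≥0∞ := ∑' h : {h : G n // tr h x = y}, k h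

lemma fs_pt (k : G n → ℝ≥0∞) (g g' : G n) :
    fs k (pt g) (pt g') = ∑' γ : Gam n, k (g⁻¹ * γ * g') := by
  let e : Gam n ≃ {h : G n // tr h (pt g) = pt g'} :=
    { toFun := fun γ => ⟨g⁻¹ * γ * g', by
        rw [tr_pt, pt_eq_pt]; simpa [mul_assoc] using γ.2⟩
      invFun := fun h => ⟨g * h * g'⁻¹, by
        have := h.2; rw [tr_pt, eq_comm, pt_eq_pt] at this; exact this⟩
      left_inv := fun γ => Subtype.ext (by simp [mul_assoc])
      right_inv := fun h => Subtype.ext (by simp [mul_assoc]) }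
  exact (e.tsum_eq fun h => k h).symm

lemma meas_fs {k : X n → G n → ℝ≥0∞} (hk : Measurable (uncurry k)) :
    Measurable fun p : X n × X n => fs (k p.1) p.1 p.2 := by
  have c := continuous_pt (n := n).measurable
  have m : Measurable (Prod.map (pt : G n → X n) (pt : G n → X n)) := c.prodMap c
  refine (m.measurable_comp_iff_of_surjective (pt_surjective.prodMap pt_surjective)).1 ?_
  have e : (fun p : X n × X n => fs (k p.1) p.1 p.2) ∘ Prod.map pt pt =
      fun p : G n × G n => ∑' γ : Gam n, uncurry k (pt p.1, p.1⁻¹ * γ * p.2) :=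
    funext fun p => fs_pt _ _ _
  rw [e]
  exact Measurable.ennreal_tsum fun γ => hk.comp (by fun_prop)

lemma meas_fs1 {k : G n → ℝ≥0∞} (hk : Measurable k) (x : X n) : Measurable (fs k x) :=
  (meas_fs (k := fun _ => k) (hk.comp measurable_snd)).comp measurable_prodMk_left

lemma fs_inv (k : X n → G n → ℝ≥0∞) (x y : X n) :
    fs (k x) x y = fs (fun h => k (tr h y) h⁻¹) y x := by
  let e : {h : G n // tr h y = x} ≃ {h : G n // tr h x = y} :=
    (Equiv.inv (G n)).subtypeEquiv fun h => by
      constructor <;> intro e <;> rw [← e, tr_tr] <;> simp [tr_one]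
  rw [fs, fs, ← e.tsum_eq]
  exact tsum_congr fun h => by rw [h.2]; rfl

lemma fs_tr (k : G n → ℝ≥0∞) (g : G n) (x y : X n) :
    fs k (tr g x) y = fs (fun h => k (g⁻¹ * h)) x y := by
  let e : {h : G n // tr h (tr g x) = y} ≃ {h : G n // tr h x = y} :=
    (Equiv.mulLeft g).subtypeEquiv fun h => by rw [tr_tr]; rfl
  rw [fs, fs, ← e.tsum_eq]
  exact tsum_congr fun h => by simp [e]

lemma fs_tr' (k : G n → ℝ≥0∞) (g : G n) (x y : X n) :
    fs k x (tr g y) = fs (fun h => k (h * g)) x y := by
  let e : {h : G n // tr h x = y} ≃ {h : G n // tr h x = tr g y} :=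
    (Equiv.mulRight g).subtypeEquiv fun h => by
      rw [Equiv.coe_mulRight, ← tr_tr]
      refine ⟨fun e => by rw [e], fun e => ?_⟩
      simpa [tr_tr, tr_one] using congrArg (tr g⁻¹) e
  rw [fs, fs, ← e.tsum_eq]
  rfl

/-- **the local measure**: the lift of `μ` to the group, seen from the point `x` -/
def loc (μ : Measure (X n)) (x : X n) : Measure (G n) :=
  μ.bind fun y => Measure.sum fun h : {h : G n // tr h x = y} => Measure.dirac (h : G n)

lemma meas_fib (x : X n) : Measurable fun y =>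
    Measure.sum fun h : {h : G n // tr h x = y} => Measure.dirac (h : G n) :=
  Measure.measurable_of_measurable_coe _ fun s hs => by
    simp only [Measure.sum_apply _ hs, Measure.dirac_apply' _ hs]
    exact meas_fs1 (measurable_one.indicator hs) x

lemma lint_loc {k : G n → ℝ≥0∞} (hk : Measurable k) (μ : Measure (X n)) (x : X n) :
    ∫⁻ h, k h ∂loc μ x = ∫⁻ y, fs k x y ∂μ := by
  rw [loc, Measure.lintegral_bind (meas_fib x).aemeasurable hk.aemeasurable]
  simp only [lintegral_sum_measure, lintegral_dirac, fs]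

lemma loc_apply (hE : MeasurableSet E) (μ : Measure (X n)) (x : X n) :
    loc μ x E = ∫⁻ y, fs (E.indicator 1) x y ∂μ := by
  rw [← lint_loc (measurable_one.indicator hE), lintegral_indicator_one hE]

/-- equivariance -/
theorem loc_map (μ : Measure (X n)) (g : G n) (x : X n) :
    loc μ (tr g x) = (loc μ x).map (g⁻¹ * ·) := by
  ext E hE
  rw [Measure.map_apply (measurable_const_mul _) hE, loc_apply hE,
    loc_apply (measurable_const_mul _ hE)]
  simp only [fs_tr]; rfl

theorem loc_tr (μ : Measure (X n)) (g : G n) (x : X n) (E : Set (G n)) :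
    loc μ (tr g x) E = loc μ x (g • E) := by
  rw [loc_map, (measurableEmbedding_mulLeft g⁻¹).map_apply, ← preimage_smul_inv]; rfl

/-- invariance under the right translations which preserve `μ` -/
theorem loc_right {a : G n} (ha : μ.map (tr a) = μ) (x : X n) :
    (loc μ x).map (· * a) = loc μ x := by
  ext E hE
  rw [Measure.map_apply (measurable_mul_const _) hE, loc_apply hE,
    loc_apply (measurable_mul_const _ hE)]
  conv_rhs => rw [← ha, lintegral_map (meas_fs1 (measurable_one.indicator hE) x)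
    (continuous_tr a).measurable]
  simp only [fs_tr']; rfl

theorem loc_inv {a : G n} (ha : μ.map (tr a) = μ) (x : X n) (E : Set (G n)) :
    loc μ (tr a x) E = loc μ x {h | a⁻¹ * h * a ∈ E} := by
  rw [← loc_right ha, loc_map, (measurableEmbedding_mulRight a).map_apply,
    (measurableEmbedding_mulLeft a⁻¹).map_apply]; rfl

theorem meas_lint [SFinite μ] {k : X n → G n → ℝ≥0∞} (hk : Measurable (uncurry k)) :
    Measurable fun x => ∫⁻ h, k x h ∂loc μ x := by
  simp only [fun x => lint_loc (hk.of_uncurry_left (x := x)) μ x]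
  exact (meas_fs hk).lintegral_prod_right'

theorem meas_loc [SFinite μ] (hE : MeasurableSet E) : Measurable fun x => loc μ x E := by
  simp only [← lintegral_indicator_one hE]
  exact meas_lint ((measurable_one.indicator hE).comp measurable_snd)

/-- **mass transport** -/
theorem mtp [SFinite μ] {k : X n → G n → ℝ≥0∞} (hk : Measurable (uncurry k)) :
    ∫⁻ x, ∫⁻ h, k x h ∂loc μ x ∂μ = ∫⁻ x, ∫⁻ h, k (tr h x) h⁻¹ ∂loc μ x ∂μ := by
  have hk' : Measurable (uncurry fun x h => k (tr h x) h⁻¹) :=
    hk.comp (measurable_tr_uncurry.prodMk measurable_snd.inv)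
  simp only [fun x => lint_loc (hk.of_uncurry_left (x := x)) μ x,
    fun x => lint_loc (hk'.of_uncurry_left (x := x)) μ x]
  rw [lintegral_lintegral_swap (meas_fs hk).aemeasurable]
  simp only [fs_inv k]

lemma cpt_lift {Ω : Set (X n)} (hΩ : IsCompact Ω) :
    ∃ L : Set (G n), IsCompact L ∧ Ω ⊆ pt '' L := by
  refine hΩ.induction_on (p := fun S => ∃ L : Set (G n), IsCompact L ∧ S ⊆ pt '' L)
    ⟨∅, isCompact_empty, empty_subset _⟩ (fun S T e ⟨L, h, k⟩ => ⟨L, h, e.trans k⟩)
    (fun S T ⟨L, h, k⟩ ⟨L', h', k'⟩ => ⟨L ∪ L', h.union h', image_union _ _ _ ▸ union_subset_union k k'⟩)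
    fun x _ => ?_
  obtain ⟨g, rfl⟩ := pt_surjective x
  obtain ⟨L, hL, k⟩ := exists_compact_mem_nhds g
  exact ⟨_, mem_nhdsWithin_of_mem_nhds (isOpenQuotientMap_pt.isOpenMap.image_mem_nhds k), L, hL,
    le_rfl⟩

/-- the multiplicity is bounded on compact sets -/
theorem mult {Ω : Set (X n)} (hΩ : IsCompact Ω) (hK : IsCompact K) :
    ∃ N : ℕ, ∀ x ∈ Ω, ∀ y, fs (K.indicator 1) x y ≤ N := by
  obtain ⟨L, hL, e⟩ := cpt_lift hΩ
  have f : {γ : Gam n | (γ : G n) ∈ L * K * K⁻¹ * L⁻¹}.Finite := by
    have := tendsto_Gam (((hL.mul hK).mul hK.inv).mul hL.inv).compl_mem_cocompact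
    rw [mem_map, mem_cofinite] at this
    exact this.subset fun γ h h' => h' h
  refine ⟨f.toFinset.card, fun x hx y => ?_⟩
  obtain ⟨g, hg, rfl⟩ := e hx
  by_cases z : ∃ h ∈ K, tr h (pt g) = y
  · obtain ⟨h, hh, rfl⟩ := z
    rw [tr_pt, fs_pt, tsum_eq_sum (s := f.toFinset) fun γ k => indicator_of_notMem (fun k' => k ?_) _]
    · exact (Finset.sum_le_card_nsmul _ _ 1 fun γ _ => indicator_le_self K 1 _).trans_eq
        (by rw [nsmul_eq_mul, mul_one])
    · rw [Finite.mem_toFinset]
      exact ⟨_, mul_mem_mul (mul_mem_mul hg k') (inv_mem_inv.2 hh), _, inv_mem_inv.2 hg, by group⟩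
  · rw [fs, ENNReal.tsum_eq_zero.2 fun h => indicator_of_notMem (fun k => z ⟨_, k, h.2⟩) _]
    exact zero_le

theorem le_loc (hE : MeasurableSet E) (x : X n) : μ ((tr · x) '' E) ≤ loc μ x E := by
  rw [loc_apply hE]
  refine le_trans (measure_mono ?_) ((one_mul _).symm.trans_le
    (mul_meas_ge_le_lintegral (meas_fs1 (measurable_one.indicator hE) x) 1))
  rintro _ ⟨h, hh, rfl⟩
  exact le_trans (by rw [indicator_of_mem hh]; rfl) (ENNReal.le_tsum ⟨h, rfl⟩)

theorem loc_le (hE : MeasurableSet E) (h : ∀ y, fs (E.indicator 1) x y ≤ N) :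
    loc μ x E ≤ N * μ ((tr · x) '' E) := by
  rw [loc_apply hE]
  refine le_trans (lintegral_mono fun y => ?_) (lintegral_indicator_const_le _ _)
  by_cases z : y ∈ (tr · x) '' E
  · rw [indicator_of_mem z]; exact h y
  · rw [fs, ENNReal.tsum_eq_zero.2 fun h => indicator_of_notMem (fun k => z ⟨_, k, h.2⟩) _]
    exact zero_le

lemma fs_mono {k k' : G n → ℝ≥0∞} (h : k ≤ k') (x y : X n) : fs k x y ≤ fs k' x y :=
  ENNReal.tsum_le_tsum fun _ => h _

/-- on compact sets the local measure is comparable to `μ` -/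
theorem loc_le_mul {Ω : Set (X n)} (hΩ : IsCompact Ω) (hK : IsCompact K) : ∃ N : ℕ,
    ∀ μ : Measure (X n), ∀ x ∈ Ω, ∀ E ⊆ K, MeasurableSet E → loc μ x E ≤ N * μ ((tr · x) '' E) := by
  obtain ⟨N, h⟩ := mult hΩ hK
  exact ⟨N, fun μ x hx E e m => loc_le m fun y =>
    (fs_mono (indicator_le_indicator_of_subset e fun _ => zero_le) x y).trans (h x hx y)⟩

instance [IsFiniteMeasure μ] (x : X n) : IsFiniteMeasureOnCompacts (loc μ x) := ⟨fun K hK => by
  obtain ⟨N, h⟩ := loc_le_mul (isCompact_singleton (x := x)) hK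
  exact (h μ x rfl K le_rfl hK.measurableSet).trans_lt
    (ENNReal.mul_lt_top (ENNReal.natCast_lt_top N) (measure_lt_top _ _))⟩

theorem open_tr (x : X n) : IsOpenMap fun h : G n => tr h x := by
  obtain ⟨g, rfl⟩ := pt_surjective x
  exact isOpenQuotientMap_pt.isOpenMap.comp (isOpenMap_mul_left g)

/-- almost every point sees mass in every neighbourhood of the identity -/
theorem loc_pos (μ : Measure (X n)) : ∀ᵐ x ∂μ, ∀ E ∈ 𝓝 (1 : G n), 0 < loc μ x E := by
  filter_upwards [μ.support_mem_ae] with x hx E hE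
  obtain ⟨U, h1, h2, h3⟩ := mem_nhds_iff.1 hE
  refine lt_of_lt_of_le ((Measure.mem_support_iff_forall x).1 hx _ ?_)
    ((le_loc h2.measurableSet x).trans (measure_mono h1))
  exact (open_tr x U h2).mem_nhds ⟨1, h3, tr_one x⟩

end

end Vale.Agent.P007M
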