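import Vale.Agent.P007M.Loc

/-!
# P007 / M : transversal sets carry little mass
-/

open MeasureTheory Filter Topology Set Function
open scoped ENNReal Pointwise

namespace Vale.Agent.P007M

open Vale.Agent.P007 Vale.Agent.P007.Koopman

variable {n : ℕ} {μ : Measure (X n)} {S : Set (X n)} {E B W : Set (G n)} {c N : ℝ≥0∞}

/-- the points of a transversal set that are seen from `y` -/
theorem trans_cov (hT : ∀ x ∈ S, ∀ h ∈ E * E⁻¹, tr h x ∈ S → h ∈ W)
    (hC : ∀ x, ∫⁻ h in W, (loc μ x (h • B))⁻¹ ∂loc μ x ≤ N) (y : X n) :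
    ∫⁻ h in {h | tr h y ∈ S ∧ h⁻¹ ∈ E}, (loc μ y (h • B))⁻¹ ∂loc μ y ≤ N := by
  rcases eq_empty_or_nonempty {h | tr h y ∈ S ∧ h⁻¹ ∈ E} with e | ⟨g, hg, hg'⟩
  · rw [e, Measure.restrict_empty, lintegral_zero_measure]
    exact zero_le
  refine le_trans (lintegral_mono_set (t := (g⁻¹ * ·) ⁻¹' W) fun h hh => hT _ hg _
    (mul_mem_mul hg' (mem_inv.2 hh.2)) (by simpa [tr_tr] using hh.1)) (le_trans (le_of_eq ?_)
      (hC (tr g y)))
  conv_rhs => enter [1]; rw [loc_map]
  rw [(measurableEmbedding_mulLeft g⁻¹).restrict_map,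
    (measurableEmbedding_mulLeft g⁻¹).lintegral_map]
  simp only [loc_tr, smul_smul, mul_inv_cancel_left]

/-- **A transversal set on which the small box has little mass is small.** -/
theorem trans_le [IsProbabilityMeasure μ] (hS : MeasurableSet S) (hE : MeasurableSet E)
    (hB : MeasurableSet B) (h1 : B ∈ 𝓝 1) (h2 : ∀ x, loc μ x B ≠ ∞)
    (hc : ∀ᵐ x ∂μ, x ∈ S → loc μ x B ≤ c * loc μ x E)
    (hT : ∀ x ∈ S, ∀ h ∈ E * E⁻¹, tr h x ∈ S → h ∈ W)
    (hC : ∀ x, ∫⁻ h in W, (loc μ x (h • B))⁻¹ ∂loc μ x ≤ N) : μ S ≤ c * N := by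
  let k : X n → G n → ℝ≥0∞ := fun x h => (S ×ˢ E).indicator (fun z => (loc μ z.1 B)⁻¹) (x, h)
  have hk : Measurable (uncurry k) :=
    ((meas_loc hB).comp measurable_fst).inv.indicator (hS.prod hE)
  calc μ S = ∫⁻ x, S.indicator 1 x ∂μ := (lintegral_indicator_one hS).symm
    _ ≤ ∫⁻ x, c * ∫⁻ h, k x h ∂loc μ x ∂μ := lintegral_mono_ae ?_
    _ = c * ∫⁻ x, ∫⁻ h, k (tr h x) h⁻¹ ∂loc μ x ∂μ := by
      rw [lintegral_const_mul _ (meas_lint hk), mtp hk]
    _ ≤ c * ∫⁻ _, N ∂μ := mul_le_mul_right (lintegral_mono fun y => le_trans ?_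
        (trans_cov hT hC y)) _
    _ = c * N := by rw [lintegral_const, measure_univ, mul_one]
  · filter_upwards [hc, loc_pos μ] with x hx h0
    by_cases e : x ∈ S
    · have e1 : k x = E.indicator fun _ => (loc μ x B)⁻¹ := funext fun h => by
        by_cases e' : h ∈ E <;> simp [k, e, e']
      rw [indicator_of_mem e, e1, lintegral_indicator_const hE, mul_left_comm, Pi.one_apply,
        ← ENNReal.inv_mul_cancel (h0 B h1).ne' (h2 x)]
      exact mul_le_mul_right (hx e) _
    · rw [indicator_of_notMem e]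
      exact zero_le
  · refine le_trans (lintegral_mono fun h => ?_) (le_of_eq (lintegral_indicator
      (((continuous_tr_uncurry.comp (Continuous.prodMk_right y)).measurable hS).inter
        (measurable_inv hE)) _))
    by_cases e : (tr h y, h⁻¹) ∈ S ×ˢ E
    · rw [indicator_of_mem (by exact e), ← loc_tr]
      exact (indicator_of_mem e _).le
    · exact (indicator_of_notMem e _).trans_le zero_le

end Vale.Agent.P007M
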