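import Vale.Agent.P007M.TubeG
import Vale.Agent.P007M.TubeM
import Vale.Agent.P007M.Box
import Vale.Agent.P007M.Reg

/-!
# P007 / M : the information misses the tube
-/

open MeasureTheory Filter Topology Set Real
open scoped ENNReal Pointwise

namespace Vale.Agent.P007M

open Vale.Agent.P007 Vale.Agent.P007.Koopman

variable {n : ℕ} {μ : Measure (X n)} {t t' : Fin n → Fin n → ℝ} {ρ : ℝ}

/-- the information (the same function as `fi`) -/
noncomputable def lg (μ : Measure (X n)) (ρ : ℝ) (t : Fin n → Fin n → ℝ) (x : X n) : ℝ :=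
  -log (loc μ x (bx ρ t)).toReal

theorem loc_bx_ne [IsFiniteMeasure μ] (x : X n) : loc μ x (bx ρ t) ≠ ∞ :=
  let ⟨_, hK, h⟩ := cpt_bx ρ t
  ((measure_mono h).trans_lt hK.measure_lt_top).ne

/-- **A set that is transversal to the boxes carries little information.** -/
theorem trans_bx [IsProbabilityMeasure μ] (v : Valid t) (v' : Valid t') (h0 : 0 < ρ)
    (h1 : 2 * n * ρ ≤ 1) {S : Set (X n)} (hS : MeasurableSet S)
    (hT : ∀ x ∈ S, ∀ h ∈ bx (4 * ρ) t, tr h x ∈ S → h ∈ bx (4 * ρ) t') (H : ℝ) :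
    μ.real (S ∩ {x | H ≤ lg μ ρ t' x - lg μ ρ t x}) ≤ 24 ^ (n * n) * exp (-H) := by
  have m : ∀ s, Measurable (lg μ ρ s) := fun s => (meas_loc meas_bx).ennreal_toReal.log.neg
  have h2 : (n : ℝ) * ρ ≤ 1 := by linarith [mul_nonneg (Nat.cast_nonneg (α := ℝ) n) h0.le]
  have h3 := trans_le (μ := μ) (c := ENNReal.ofReal (exp (-H))) (W := bx (4 * ρ) t')
    (hS.inter (measurableSet_le (f := fun _ => H) measurable_const ((m t').sub (m t))))
    (meas_bx (ρ := ρ) (t := t)) (meas_bx (ρ := ρ) (t := t')) (bx_nhds h0) loc_bx_ne ?_ ?_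
    fun x => cov_bx v' v' le_rfl h0 (by linarith) h2 _ inferInstance
  · rw [← ENNReal.ofReal_mul (exp_pos _).le] at h3
    refine (ENNReal.toReal_le_of_le_ofReal (by positivity) h3).trans_eq ?_
    rw [show 6 * (4 * ρ) / ρ = 24 by field_simp; norm_num]
    simp [mul_comm]
  · filter_upwards [loc_pos μ] with x hx ⟨_, hH⟩
    have a1 := ENNReal.toReal_pos (hx _ (bx_nhds (t := t) h0)).ne' (loc_bx_ne x)
    have a2 := ENNReal.toReal_pos (hx _ (bx_nhds (t := t') h0)).ne' (loc_bx_ne x)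
    rw [← ENNReal.ofReal_toReal (loc_bx_ne (t := t) x), ← ENNReal.ofReal_mul (exp_pos _).le,
      ← ENNReal.ofReal_toReal (loc_bx_ne (t := t') x), ← exp_log a1, ← exp_log a2, ← exp_add]
    refine ENNReal.ofReal_le_ofReal (exp_le_exp.2 ?_)
    simp only [mem_ofPred_eq, Pi.sub_apply, lg] at hH
    linarith
  · rintro x hx _ ⟨a, ha, b, hb, rfl⟩ hx'
    refine hT x hx.1 _ (bx_mono (by positivity) (by nlinarith) le_rfl
      (mul_bx v h0 (by positivity) ha (inv_inv b ▸ inv_bx v h0 h1 hb))) hx'.1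

/-- **The information in the direction `(j, k)` misses the tube.** -/
theorem tube_main {Ω : Set (X n)} (hΩ : IsCompact Ω) {p : Fin n → ℝ} {j k : Fin n}
    (hjk : p j ≠ p k) : ∃ ρ₀ > 0, ∀ ρ, 0 < ρ → ρ ≤ ρ₀ → ∀ l : ℝ, ∃ V, IsOpen V ∧ Yd p ⊆ V ∧
      ∀ (μ : Measure (X n)) [IsProbabilityMeasure μ] (t t' : Fin n → Fin n → ℝ), Valid t →
        Valid t' → 0 ≤ t → (∀ a b, ¬(a = j ∧ b = k) → t' a b ≤ t a b) → t' j k ≤ l → ∀ H : ℝ,
          μ.real (V ∩ Ω ∩ {x | H ≤ lg μ ρ t' x - lg μ ρ t x}) ≤ 24 ^ (n * n) * exp (-H) := by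
  obtain ⟨ρ₁, h1, h2⟩ := tube_transv hΩ p
  have hn : (0 : ℝ) < n := Nat.cast_pos.2 j.pos
  have h3 := abs_pos.2 (sub_ne_zero.2 hjk)
  refine ⟨min (ρ₁ / 4) (1 / (2 * n)), by positivity, fun ρ h4 h5 l => ?_⟩
  obtain ⟨h6, h7⟩ := le_min_iff.1 h5
  obtain ⟨δ, d0, d1, d2⟩ : ∃ δ, 0 < δ ∧ δ ≤ ρ₁ ∧ 4 * n * δ ≤ |p j - p k| * (2 * ρ * exp (-l)) :=
    ⟨min ρ₁ (|p j - p k| * (2 * ρ * exp (-l)) / (4 * n)), by positivity, min_le_left _ _,
      (le_div_iff₀' (by positivity)).1 (min_le_right _ _)⟩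
  refine ⟨_, isOpen_tube p δ, Yd_subset_tube d0, fun μ _ t t' v v' t0 e1 e2 H => trans_bx v v' h4
    ((le_div_iff₀' (by positivity)).1 h7) ((isOpen_tube p δ).measurableSet.inter hΩ.measurableSet)
    (fun x hx h hh hx' a b => ?_) H⟩
  by_cases c : a = j ∧ b = k
  · obtain ⟨rfl, rfl⟩ := c
    have a1 := (h2 δ d1 x hx.2 h hx.1 hx'.1 (fun a b => (hh a b).trans_le ?_) a b).trans d2
    · have a2 := exp_le_exp.2 (neg_le_neg e2)
      rw [Matrix.sub_apply, Matrix.one_apply_ne fun e => hjk (congrArg p e), sub_zero]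
      nlinarith [le_of_mul_le_mul_left a1 h3, exp_pos (-l)]
    · nlinarith [exp_le_one_iff.2 (neg_nonpos.2 (t0 a b))]
  · exact (hh a b).trans_le (mul_le_mul_of_nonneg_left (exp_le_exp.2 (neg_le_neg (e1 a b c)))
      (by positivity))

/-- **If the information is everywhere, the tube is small.** -/
theorem tube_small {Ω : Set (X n)} (hΩ : IsCompact Ω) {p : Fin n → ℝ} (hp : H11.IsMult p) :
    ∃ ρ₀ > 0, ∀ ρ, 0 < ρ → ρ ≤ ρ₀ → ∀ l : ℝ, 0 ≤ l → ∃ V, IsOpen V ∧ Yd p ⊆ V ∧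
      ∀ (μ : Measure (X n)) [IsProbabilityMeasure μ] (d r H ε : ℝ), 0 ≤ d → d ≤ r → l ≤ 2 * r →
        (∀ j k, j ≠ k → μ.real {x | Reg.I (lg μ ρ) d r j k l x < H} ≤ ε) →
          μ.real V ≤ ε + μ.real Ωᶜ + 24 ^ (n * n) * exp (-H) := by
  rcases (Yd p).eq_empty_or_nonempty with e | e
  · refine ⟨1, one_pos, fun ρ _ _ l _ => ⟨∅, isOpen_empty, e.le, fun μ _ d r H ε _ _ _ h => ?_⟩⟩
    obtain ⟨f, -, -, h1, h2, -⟩ := hp
    have := measureReal_nonneg.trans (h ⟨0, by omega⟩ ⟨1, by omega⟩ (by simp))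
    rw [measureReal_empty]
    positivity
  obtain ⟨j, k, hjk⟩ := exists_ne hp e
  have hjk' : j ≠ k := fun e => hjk (congrArg p e)
  obtain ⟨ρ₀, h0, h1⟩ := tube_main hΩ hjk
  refine ⟨ρ₀, h0, fun ρ a1 a2 l l0 => ?_⟩
  obtain ⟨V, b1, b2, b3⟩ := h1 ρ a1 a2 l
  refine ⟨V, b1, b2, fun μ _ d r H ε d0 dr lr h => ?_⟩
  have r0 := d0.trans dr
  have c1 := b3 μ (Reg.bs d j k 0 r) (Reg.bs d j k l r)
    (fun a b c => (Reg.val_bs hjk' d0 dr le_rfl (by linarith)).2 a c b)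
    (fun a b c => (Reg.val_bs hjk' d0 dr l0 lr).2 a c b)
    (fun a b => by simp only [Reg.bs, Reg.up, Pi.zero_apply]; split_ifs <;> linarith)
    (fun a b c => by simp only [Reg.bs, Reg.up_ne c, le_refl]) Reg.bs_self.le H
  refine le_trans ((measureReal_mono fun x hx => ?_).trans ((measureReal_union_le _ _).trans
    (add_le_add (measureReal_union_le _ _) c1))) (add_le_add_left (add_le_add_left (h j k hjk') _) _)
  by_cases c2 : Reg.I (lg μ ρ) d r j k l x < H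
  · exact .inl (.inl c2)
  · by_cases c3 : x ∈ Ω
    exacts [.inr ⟨⟨hx, c3⟩, not_lt.1 c2⟩, .inl (.inr c3)]

end Vale.Agent.P007M
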