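import Vale.Agent.P007M.Equi
import Vale.Agent.P007M.Gain
import Vale.Agent.P007M.CoreT
import Vale.Agent.P007M.Tube
import Vale.Agent.P007M.HDef

/-! The rigidity statement from the abstract core, the Heisenberg step and the tubes. -/

set_option autoImplicit false

open MeasureTheory Filter Topology Set Real
open scoped ENNReal

namespace Vale.Agent.P007M

open Vale.Agent.P007 Vale.Agent.P007.R Reg

/-- the abstract core -/
def CoreStmt (n : ℕ) : Prop := ∀ c₀ K ε C CH H : ℝ, 0 < c₀ → 1 ≤ K → 0 < ε → 0 ≤ C → 0 ≤ CH →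
  ∃ η : ℝ, 0 < η ∧ ∀ a : ℝ, ∃ d Λ : ℝ, 0 < d ∧ 1 ≤ Λ ∧
    ∀ (Y : Type) [MeasurableSpace Y] (μ : Measure Y) [IsProbabilityMeasure μ]
      (f : Th n → Y → ℝ) (T : (Fin n → ℝ) → Y → Y), Info μ f d C → Tail μ f d C →
      (∀ t, Measurable (f t)) → (∀ u, Act μ f d u (T u)) →
      (∀ u v x, T (u + v) x = T u (T v x)) → Vale.Agent.P007M.Heis μ f d a CH →
      ∀ r₁, d ≤ r₁ → Gain μ f d c₀ K η r₁ (Λ * r₁) →
        ∃ r, r₁ ≤ r ∧ r ≤ Λ * r₁ ∧ ∀ j k, j ≠ k → μ.real {x | I f d r j k d x < H} ≤ ε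

/-- the Heisenberg step for the information of the boxes -/
def HeisStmt (n : ℕ) : Prop := ∃ CH ρ₁ : ℝ, 0 ≤ CH ∧ 0 < ρ₁ ∧ ∀ ρ : ℝ, 0 < ρ → ρ ≤ ρ₁ →
  ∃ a : ℝ, ∀ (d : ℝ) (μ : Measure (X n)) [IsProbabilityMeasure μ], 0 ≤ d → AInv μ →
    Vale.Agent.P007M.Heis μ (fi μ ρ) d a CH

theorem main_of {n : ℕ} (hcore : CoreStmt n) (hheis : HeisStmt n) : MainStmt n := by
  intro p hp c₀ a hc ha
  obtain ⟨CH, ρ₁, hCH, hρ₁, hheis⟩ := hheis
  set A : ℝ := 24 ^ (n * n) with hA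
  have hA0 : 0 < A := by positivity
  obtain ⟨η, hη, hcore⟩ := hcore (c₀ / 2) (4 * n ^ 2 / c₀ + 1) (a / 3) (2 * 84 ^ (n * n)) CH
    (log (3 * A / a)) (by positivity) (le_add_of_nonneg_left (by positivity)) (by positivity)
    (by positivity) hCH
  refine ⟨min (η / 2) (a / 3), lt_min (by positivity) (by positivity), fun Ω hΩ => ?_⟩
  obtain ⟨ρ₀, hρ₀, htube⟩ := tube_small hΩ hp
  set ρ : ℝ := min (min ρ₀ ρ₁) (1 / (14 * (n + 1))) with hρ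
  have hρp : 0 < ρ := lt_min (lt_min hρ₀ hρ₁) (by positivity)
  have hρn : 14 * (n + 1) * ρ ≤ 1 := by
    have := min_le_right (min ρ₀ ρ₁) (1 / (14 * ((n : ℝ) + 1)))
    rwa [← hρ, le_div_iff₀ (by positivity), mul_comm] at this
  have hn0 : 0 ≤ (n : ℝ) * ρ := by positivity
  obtain ⟨a', hheis⟩ := hheis ρ hρp ((min_le_left _ _).trans (min_le_right _ _))
  obtain ⟨d, Λ, hd, hΛ, hcore⟩ := hcore a'
  obtain ⟨V, hV, hYV, htube⟩ := htube ρ hρp ((min_le_left _ _).trans (min_le_left _ _)) d hd.le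
  obtain ⟨r₀, hgain⟩ := gain_of_ent hΩ hρp (by nlinarith) (by nlinarith) hη hc
  refine ⟨V, hV, hYV, 2, Λ, max d r₀, one_le_two, hΛ, fun μ _ hμ hΩ' τ₁ hτ hE => ?_⟩
  have hd1 : d ≤ τ₁ := (le_max_left _ _).trans hτ
  obtain ⟨r, h1, -, h2⟩ := hcore (X n) μ (fi μ ρ) (fun u => tr (da u))
    (info_fi hρp (by nlinarith) d) (tail_row hρp (by nlinarith) d) (meas_fi ρ)
    (act_fi hμ ρ d) tr_da_add (hheis d μ hd.le hμ) τ₁ hd1
    (hgain μ (fi μ ρ) d τ₁ (Λ * τ₁) (fun _ _ => rfl) (hΩ'.trans (min_le_left _ _)) hd.le hd1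
      ((le_max_right _ _).trans hτ) hE)
  have h3 := htube μ d r (log (3 * A / a)) (a / 3) hd.le (hd1.trans h1) (by linarith) h2
  rw [exp_neg, exp_log (by positivity), ← hA] at h3
  have h4 : A * (3 * A / a)⁻¹ = a / 3 := by field_simp
  linarith [hΩ'.trans (min_le_right _ _)]

end Vale.Agent.P007M
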