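import Vale.Agent.P007.Bdl.B9

/-! Reduced bases (product form) and the number of points of a dual lattice in a box. -/

open Module Matrix MeasureTheory Topology

namespace Vale.Agent.P007M

open Vale.Agent.P007 Vale.Agent.P007.Red

/-- every lattice has a basis whose norms have product at most `3 ^ (k ^ 2)` times the covolume -/
theorem red_prod (k : ℕ) : ∀ ε : ℝ, 0 < ε →
    ∀ A : Matrix (Fin (k + 1)) (Fin (k + 1)) ℝ, A.det ≠ 0 → Thick ε A →
      ∃ γ : Matrix (Fin (k + 1)) (Fin (k + 1)) ℤ, IsUnit γ.det ∧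
        ∏ i, ‖(γ.map (Int.cast : ℤ → ℝ) * A) i‖ ≤ 3 ^ (k ^ 2) * |A.det| := by
  induction k with
  | zero =>
    intro ε _ A _ _
    refine ⟨1, by simp, ?_⟩
    have h1 : A.det = A 0 0 := by simp
    have h2 : ((1 : Matrix (Fin (0 + 1)) (Fin (0 + 1)) ℤ).map (Int.cast : ℤ → ℝ) * A) = A := by
      rw [Matrix.map_one _ (by simp) (by simp), one_mul]
    rw [h2, h1, Fin.prod_univ_succ, Fin.prod_univ_zero, mul_one]
    have h3 : ‖A 0‖ ≤ |A 0 0| := by
      rw [pi_norm_le_iff_of_nonneg (abs_nonneg _)]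
      intro j
      have hj : j = 0 := Fin.ext (by omega)
      rw [hj]
      exact le_rfl
    simpa using h3
  | succ k ih =>
    intro ε hε A hA0 hAT
    -- an almost shortest vector
    set S : Set ℝ := {r | ∃ z : Fin (k + 1 + 1) → ℤ, z ≠ 0 ∧ r = ‖(fun i => (z i : ℝ)) ᵥ* A‖}
      with hS
    have hSb : BddBelow S := ⟨ε, by rintro r ⟨z, hz, rfl⟩; exact hAT z hz⟩
    have hSne : S.Nonempty := ⟨_, fun _ => 1, fun h => one_ne_zero (congrFun h 0), rfl⟩
    set μ : ℝ := sInf S with hμ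
    have hμε : ε ≤ μ := le_csInf hSne (by rintro r ⟨z, hz, rfl⟩; exact hAT z hz)
    have hμ0 : 0 < μ := lt_of_lt_of_le hε hμε
    obtain ⟨r, ⟨z, hz, rfl⟩, hzμ⟩ := exists_lt_of_csInf_lt hSne (by
      linarith only [hε, hμε] : sInf S < 4 / 3 * μ)
    obtain ⟨γ₁, a, hγ₁, ha, rfl⟩ := exists_unimodular_row z hz
    set A₁ : Matrix (Fin (k + 1 + 1)) (Fin (k + 1 + 1)) ℝ := γ₁.map (Int.cast : ℤ → ℝ) * A with hA₁
    have hrow : ‖A₁ 0‖ < 4 / 3 * μ := by
      have h2 : A₁ 0 = (fun i => (γ₁ 0 i : ℝ)) ᵥ* A := rfl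
      have h3 : (fun i => (((a • γ₁ 0) i : ℤ) : ℝ)) ᵥ* A =
          (a : ℝ) • ((fun i => (γ₁ 0 i : ℝ)) ᵥ* A) := by
        rw [← Matrix.smul_vecMul]
        congr 1
        ext i
        simp
      rw [h3, norm_smul] at hzμ
      rw [h2]
      have h4 : (1 : ℝ) ≤ ‖(a : ℝ)‖ := by
        rw [Real.norm_eq_abs, ← Int.cast_abs]
        exact_mod_cast Int.one_le_abs ha
      nlinarith only [hε, hμε, hzμ, h4]
    have hA₁T : ∀ z : Fin (k + 1 + 1) → ℤ, z ≠ 0 → μ ≤ ‖(fun i => (z i : ℝ)) ᵥ* A₁‖ := by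
      have h5 : Thick μ A := fun z hz => csInf_le hSb ⟨z, hz, rfl⟩
      exact h5.unimod γ₁ hγ₁
    have hd1 : |A₁.det| = |A.det| := by
      rw [hA₁, det_mul, abs_mul, unit_cast_det _ hγ₁, one_mul]
    -- the largest coordinate
    obtain ⟨j, -, hj⟩ := Finset.exists_max_image Finset.univ (fun j => |A₁ 0 j|)
      Finset.univ_nonempty
    have hjn : ‖A₁ 0‖ = |A₁ 0 j| := by
      refine le_antisymm ?_ ?_
      · rw [pi_norm_le_iff_of_nonneg (abs_nonneg _)]
        intro i
        exact hj i (Finset.mem_univ i)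
      · exact norm_le_pi_norm (A₁ 0) j
    let A₂ : Matrix (Fin (k + 1 + 1)) (Fin (k + 1 + 1)) ℝ := A₁.submatrix id (Equiv.swap 0 j)
    have hnorm : ∀ v : Fin (k + 1 + 1) → ℝ, ‖fun i => v (Equiv.swap 0 j i)‖ = ‖v‖ := by
      intro v
      refine le_antisymm ?_ ?_
      · rw [pi_norm_le_iff_of_nonneg (norm_nonneg _)]
        intro i
        exact norm_le_pi_norm v _
      · rw [pi_norm_le_iff_of_nonneg (norm_nonneg _)]
        intro i
        have := norm_le_pi_norm (fun i => v (Equiv.swap 0 j i)) (Equiv.swap 0 j i)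
        simpa only [Real.norm_eq_abs, ge_iff_le, Equiv.swap_apply_self] using this
    have hA₂det : |A₂.det| = |A₁.det| := by
      have := abs_det_submatrix_equiv_equiv (Equiv.refl (Fin (k + 1 + 1))) (Equiv.swap 0 j) A₁
      exact this
    have hA₂T : ∀ z : Fin (k + 1 + 1) → ℤ, z ≠ 0 → μ ≤ ‖(fun i => (z i : ℝ)) ᵥ* A₂‖ := by
      intro z hz
      have h6 : (fun i => (z i : ℝ)) ᵥ* A₂ =
          fun i => ((fun i => (z i : ℝ)) ᵥ* A₁) (Equiv.swap 0 j i) := rfl
      rw [h6, hnorm]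
      exact hA₁T z hz
    have hrow2 : ‖A₂ 0‖ = ‖A₁ 0‖ := hnorm (A₁ 0)
    have h00 : |A₂ 0 0| = ‖A₂ 0‖ := by
      rw [hrow2, hjn]
      change |A₁ 0 (Equiv.swap 0 j 0)| = _
      rw [Equiv.swap_apply_left]
    have hrow3 : μ ≤ ‖A₂ 0‖ := by
      have h7 := hA₂T (Pi.single 0 1) (by
        intro h
        have := congrFun h 0
        simp at this)
      have h8 : (fun i => (((Pi.single 0 1 : Fin (k + 1 + 1) → ℤ) i : ℤ) : ℝ)) =
          Pi.single 0 1 := by
        funext i
        by_cases hi : i = 0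
        · subst hi; simp
        · simp [hi]
      rw [h8, single_one_vecMul] at h7
      exact h7
    have h00' : A₂ 0 0 ≠ 0 := by
      rw [← abs_ne_zero, h00]
      exact (lt_of_lt_of_le hμ0 hrow3).ne'
    -- the rest
    have hdet := det_rest A₂ h00'
    have hrest0 : Matrix.det (Matrix.of (rest A₂)) ≠ 0 := by
      intro h
      rw [h, mul_zero] at hdet
      have : |A₂.det| = 0 := by rw [hdet, abs_zero]
      rw [hA₂det, hd1, abs_eq_zero] at this
      exact hA0 this
    have hrestT : Thick (μ / 3) (Matrix.of (rest A₂)) := by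
      intro z hz
      set t : ℝ := ∑ l, (z l : ℝ) * (A₂ l.succ 0 / A₂ 0 0) with ht
      set z' : Fin (k + 1 + 1) → ℤ := Fin.cons (-round t) z with hz'
      have hz'0 : z' ≠ 0 := by
        intro h
        apply hz
        funext i
        have := congrFun h i.succ
        simpa [hz'] using this
      have h11 := hA₂T z' hz'0
      have htA : t * A₂ 0 0 = ∑ l, (z l : ℝ) * A₂ l.succ 0 := by
        simp only [ht, Finset.sum_mul]
        refine Finset.sum_congr rfl fun l _ => ?_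
        (clear * - h00'; field_simp)
      have h12 : ∀ i, ((fun i => (z' i : ℝ)) ᵥ* A₂) i = (t - round t) * A₂ 0 i +
          (Fin.cons 0 ((fun i => (z i : ℝ)) ᵥ* Matrix.of (rest A₂)) :
            Fin (k + 1 + 1) → ℝ) i := by
        intro i
        rw [vecMul, dotProduct, Fin.sum_univ_succ]
        simp only [hz', Fin.cons_zero, Fin.cons_succ]
        refine Fin.cases ?_ (fun i => ?_) i
        · rw [Fin.cons_zero, ← htA]
          push_cast
          ring
        · rw [Fin.cons_succ, vecMul, dotProduct]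
          have h13 : ∀ l, (z l : ℝ) * (Matrix.of (rest A₂)) l i = (z l : ℝ) * A₂ l.succ i.succ -
              (z l : ℝ) * (A₂ l.succ 0 / A₂ 0 0) * A₂ 0 i.succ := by
            intro l
            simp only [of_apply, rest]
            ring
          rw [Finset.sum_congr rfl fun l _ => h13 l, Finset.sum_sub_distrib, ← Finset.sum_mul,
            ← ht]
          push_cast
          ring
      have h14 : ‖(fun i => (z' i : ℝ)) ᵥ* A₂‖ ≤ 1 / 2 * ‖A₂ 0‖ +
          ‖(fun i => (z i : ℝ)) ᵥ* Matrix.of (rest A₂)‖ := by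
        rw [pi_norm_le_iff_of_nonneg (by (clear * -; positivity))]
        intro i
        rw [h12 i]
        refine (norm_add_le _ _).trans (add_le_add ?_ ?_)
        · rw [norm_mul]
          exact mul_le_mul (abs_sub_round t) (norm_le_pi_norm (A₂ 0) i) (norm_nonneg _)
            (by norm_num)
        · refine Fin.cases ?_ (fun i => ?_) i
          · rw [Fin.cons_zero, norm_zero]; exact norm_nonneg _
          · rw [Fin.cons_succ]
            exact norm_le_pi_norm ((fun i => (z i : ℝ)) ᵥ* Matrix.of (rest A₂)) i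
      rw [hrow2] at h14
      linarith only [hε, hμε, hrow, h11, h14]
    obtain ⟨γ, hγ, hγC⟩ := ih (μ / 3) (by positivity) (Matrix.of (rest A₂)) hrest0 hrestT
    obtain ⟨δ, hδ, hδ0, hδs⟩ := lift_step A₂ h00' γ hγ
    refine ⟨δ * γ₁, by rw [det_mul]; exact hδ.mul hγ₁, ?_⟩
    have hγT := hrestT.unimod γ hγ
    have hlow : ∀ i, μ / 3 ≤ ‖(γ.map (Int.cast : ℤ → ℝ) * Matrix.of (rest A₂)) i‖ := by
      intro i
      have h7 := hγT (Pi.single i 1) (by
        intro h
        have := congrFun h i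
        simp at this)
      have h8 : (fun l => (((Pi.single i 1 : Fin (k + 1) → ℤ) l : ℤ) : ℝ)) =
          Pi.single i 1 := by
        funext l
        by_cases hi : l = i
        · subst hi; simp
        · simp [hi]
      rw [h8, single_one_vecMul] at h7
      exact h7
    have hb0 : ‖(δ.map (Int.cast : ℤ → ℝ) * A₂) 0‖ = |A₂ 0 0| := by
      rw [h00]
      congr 1
      funext l
      exact hδ0 l
    have hbs : ∀ i : Fin (k + 1), ‖(δ.map (Int.cast : ℤ → ℝ) * A₂) i.succ‖ ≤
        3 * ‖(γ.map (Int.cast : ℤ → ℝ) * Matrix.of (rest A₂)) i‖ := by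
      intro i
      obtain ⟨t, ht, ht0, hts⟩ := hδs i
      have h15 := hlow i
      have h16 : ∀ l, |t * A₂ 0 l| ≤ 2 / 3 * μ := by
        intro l
        rw [abs_mul]
        have h17 := norm_le_pi_norm (A₂ 0) l
        rw [Real.norm_eq_abs, hrow2] at h17
        calc |t| * |A₂ 0 l| ≤ 1 / 2 * (4 / 3 * μ) :=
              mul_le_mul ht (h17.trans hrow.le) (abs_nonneg _) (by norm_num)
          _ = 2 / 3 * μ := by ring
      rw [pi_norm_le_iff_of_nonneg (by positivity)]
      intro l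
      rw [Real.norm_eq_abs]
      refine Fin.cases ?_ (fun l => ?_) l
      · rw [ht0]
        linarith only [h16 0, h15, hμ0]
      · rw [hts l]
        refine (abs_add_le _ _).trans ?_
        have h18 := norm_le_pi_norm ((γ.map (Int.cast : ℤ → ℝ) * Matrix.of (rest A₂)) i) l
        rw [Real.norm_eq_abs] at h18
        linarith only [h16 l.succ, h15, h18]
    have h19 : ∀ i, ‖((δ * γ₁).map (Int.cast : ℤ → ℝ) * A) i‖ =
        ‖(δ.map (Int.cast : ℤ → ℝ) * A₂) i‖ := by
      intro i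
      rw [map_mul_cast, ← hA₁, ← hnorm]
      congr 1
    have h9 : |A₂ 0 0| * |Matrix.det (Matrix.of (rest A₂))| = |A.det| := by
      rw [← abs_mul, ← hdet, hA₂det, hd1]
    rw [Finset.prod_congr rfl fun i _ => h19 i, Fin.prod_univ_succ, hb0, ← h9]
    have h20 : ∏ i : Fin (k + 1), ‖(δ.map (Int.cast : ℤ → ℝ) * A₂) i.succ‖ ≤
        3 ^ (k + 1) * (3 ^ (k ^ 2) * |Matrix.det (Matrix.of (rest A₂))|) := by
      calc ∏ i : Fin (k + 1), ‖(δ.map (Int.cast : ℤ → ℝ) * A₂) i.succ‖
          ≤ ∏ i : Fin (k + 1), 3 * ‖(γ.map (Int.cast : ℤ → ℝ) * Matrix.of (rest A₂)) i‖ :=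
            Finset.prod_le_prod (fun i _ => norm_nonneg _) fun i _ => hbs i
        _ = 3 ^ (k + 1) * ∏ i : Fin (k + 1),
              ‖(γ.map (Int.cast : ℤ → ℝ) * Matrix.of (rest A₂)) i‖ := by
            rw [Finset.prod_mul_distrib, Finset.prod_const, Finset.card_univ, Fintype.card_fin]
        _ ≤ _ := by gcongr
    have h21 : (3 : ℝ) ^ (k + 1) * 3 ^ (k ^ 2) ≤ 3 ^ ((k + 1) ^ 2) := by
      rw [← pow_add]
      exact pow_le_pow_right₀ (by norm_num) (by nlinarith)
    calc |A₂ 0 0| * ∏ i : Fin (k + 1), ‖(δ.map (Int.cast : ℤ → ℝ) * A₂) i.succ‖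
        ≤ |A₂ 0 0| * (3 ^ (k + 1) * (3 ^ (k ^ 2) * |Matrix.det (Matrix.of (rest A₂))|)) := by
          gcongr
      _ = 3 ^ (k + 1) * 3 ^ (k ^ 2) * (|A₂ 0 0| * |Matrix.det (Matrix.of (rest A₂))|) := by ring
      _ ≤ _ := by gcongr

end Vale.Agent.P007M
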