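import Vale.Agent.P007.H11.Arith

/-!
# P007 / M : the tube around the lattices stable under `diag p`
-/

open Matrix Filter Topology

namespace Vale.Agent.P007M

open Vale.Agent.P007

variable {n : ℕ} {p : Fin n → ℝ} {δ : ℝ} {M M' : Matrix (Fin n) (Fin n) ℤ} {g h : G n}

/-- the deviation of `g⁻¹ M g` from `diag p` -/
noncomputable def dev (p : Fin n → ℝ) (M : Matrix (Fin n) (Fin n) ℤ) (g : G n) :
    Matrix (Fin n) (Fin n) ℝ := (g⁻¹ : G n).1 * castM M * g.1 - diagonal p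

/-- the points `pt g` such that `g⁻¹ M g` is close to `diag p` for an integer matrix `M` -/
def Tube (p : Fin n → ℝ) (δ : ℝ) : Set (X n) :=
  {x | ∃ g M, pt g = x ∧ ∀ a b, |dev p M g a b| < δ}

theorem dev_left {γ : G n} (hγ : γ ∈ Gam n) (M : Matrix (Fin n) (Fin n) ℤ) :
    ∃ M', ∀ g p, dev p M' (γ * g) = dev p M g := by
  obtain ⟨γ', rfl⟩ := hγ
  refine ⟨γ'.1 * M * (γ'⁻¹).1, fun g p => ?_⟩
  obtain ⟨c, hc⟩ : ∃ c : G n, c = SpecialLinearGroup.map (Int.castRingHom ℝ) γ' := ⟨_, rfl⟩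
  have h1 : castM γ'.1 = c.1 := hc ▸ rfl
  have h2 : castM (γ'⁻¹).1 = (c⁻¹).1 := by
    rw [hc, ← map_inv]
    rfl
  rw [← hc, dev, dev, castM_mul, castM_mul, h1, h2, _root_.mul_inv_rev, coe_mul_G, coe_mul_G]
  simp only [mul_assoc]
  rw [← mul_assoc (c⁻¹).1 c.1, ← mul_assoc (c⁻¹).1 c.1, coe_inv_mul, one_mul, one_mul]

theorem pt_mem_tube : pt g ∈ Tube p δ ↔ ∃ M, ∀ a b, |dev p M g a b| < δ := by
  refine ⟨fun ⟨g', M, e, h⟩ => ?_, fun ⟨M, h⟩ => ⟨g, M, rfl, h⟩⟩
  obtain ⟨M', h'⟩ := dev_left (pt_eq_pt.1 e) M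
  exact ⟨M', by rwa [← h', inv_mul_cancel_right] at h⟩

theorem continuous_val : Continuous fun g : G n => g.1 := continuous_subtype_val

theorem continuous_dev (p : Fin n → ℝ) (M : Matrix (Fin n) (Fin n) ℤ) : Continuous (dev p M) :=
  (((continuous_val.comp continuous_inv).mul continuous_const).mul continuous_val).sub
    continuous_const

theorem isOpen_tube (p : Fin n → ℝ) (δ : ℝ) : IsOpen (Tube p δ) := by
  refine isOpenQuotientMap_pt.isQuotientMap.isOpen_preimage.1 ?_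
  have e : pt ⁻¹' Tube p δ = ⋃ M, ⋂ a, ⋂ b, {g : G n | |dev p M g a b| < δ} := by
    ext g
    simp only [Set.mem_preimage, pt_mem_tube, Set.mem_iUnion, Set.mem_iInter, Set.mem_ofPred_eq]
  rw [e]
  exact isOpen_iUnion fun M => isOpen_iInter_of_finite fun a => isOpen_iInter_of_finite fun b =>
    isOpen_lt ((continuous_dev p M).matrix_elem a b).abs continuous_const

theorem Yd_subset_tube (hδ : 0 < δ) : Yd p ⊆ Tube p δ := by
  rintro _ ⟨g, rfl, M, hM⟩
  refine ⟨g, M, rfl, fun a b => ?_⟩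
  rwa [dev, mul_assoc, ← hM, ← mul_assoc, coe_inv_mul, one_mul, sub_self, Matrix.zero_apply,
    abs_zero]

theorem dev_mul (p : Fin n → ℝ) (M : Matrix (Fin n) (Fin n) ℤ) (g h : G n) :
    (diagonal p + dev p M g) * h.1 = h.1 * (diagonal p + dev p M (g * h)) := by
  simp only [dev, add_sub_cancel, _root_.mul_inv_rev, coe_mul_G, ← mul_assoc, coe_mul_inv, one_mul]

theorem tube_mul_le {A B : Matrix (Fin n) (Fin n) ℝ} {r s : ℝ} (hA : ∀ a b, |A a b| ≤ r)
    (hB : ∀ a b, |B a b| ≤ s) (a b : Fin n) : |(A * B) a b| ≤ n * (r * s) := by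
  rw [mul_apply]
  refine (Finset.abs_sum_le_sum_abs _ _).trans ((Finset.sum_le_card_nsmul _ _ (r * s)
    fun c _ => ?_).trans_eq (by simp))
  rw [abs_mul]
  exact mul_le_mul (hA _ _) (hB _ _) (abs_nonneg _) ((abs_nonneg _).trans (hA a c))

/-- two points of the same sheet differ by an element that almost commutes with `diag p` -/
theorem dev_entry {R : ℝ} (h1 : ∀ a b, |dev p M g a b| ≤ δ) (h2 : ∀ a b, |dev p M (g * h) a b| ≤ δ)
    (hR : ∀ a b, |h.1 a b| ≤ R) (j k : Fin n) : |p j - p k| * |h.1 j k| ≤ 2 * n * R * δ := by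
  have e := congrFun (congrFun (dev_mul p M g h) j) k
  rw [add_mul, mul_add, Matrix.add_apply, Matrix.add_apply, diagonal_mul, mul_diagonal] at e
  have a1 := abs_le.1 (tube_mul_le h1 hR j k)
  have a2 := abs_le.1 (tube_mul_le hR h2 j k)
  rw [← abs_mul, abs_le]
  constructor <;> nlinarith

/-- the difference of the integer matrices -/
noncomputable def phi (p : Fin n → ℝ) (A B C : Matrix (Fin n) (Fin n) ℝ) (g : G n) :
    Matrix (Fin n) (Fin n) ℝ :=
  g.1 * (diagonal p + A - (1 + C) * (diagonal p + B) * adjugate (1 + C)) * (g⁻¹ : G n).1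

theorem phi_eq (p : Fin n → ℝ) (M M' : Matrix (Fin n) (Fin n) ℤ) (g h : G n) :
    phi p (dev p M g) (dev p M' (g * h)) (h.1 - 1) g = castM M - castM M' := by
  rw [phi, add_sub_cancel, ← dev_mul, mul_assoc _ h.1,
    show h.1 * adjugate h.1 = 1 from coe_mul_inv h]
  simp only [dev, add_sub_cancel, mul_one, mul_sub, sub_mul, ← mul_assoc, coe_mul_inv, one_mul]
  simp only [mul_assoc, coe_mul_inv, mul_one]

/-- near a compact set the integer matrix is locally constant -/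
theorem dev_unique {L : Set (G n)} (hL : IsCompact L) (p : Fin n → ℝ) : ∃ ρ > 0, ∀ g ∈ L,
    ∀ (h : G n) M M', (∀ a b, |dev p M g a b| < ρ) → (∀ a b, |dev p M' (g * h) a b| < ρ) →
      (∀ a b, |(h.1 - 1) a b| < ρ) → M = M' := by
  have c1 : Continuous (of : (Fin n → Fin n → ℝ) → Matrix (Fin n) (Fin n) ℝ) := continuous_id
  have hΦ : Continuous fun z : ((Fin n → Fin n → ℝ) × (Fin n → Fin n → ℝ) ×
      (Fin n → Fin n → ℝ)) × G n => phi p (of z.1.1) (of z.1.2.1) (of z.1.2.2) z.2 :=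
    ((continuous_val.comp continuous_snd).mul ((continuous_const.add (by fun_prop)).sub
      (Continuous.mul (by fun_prop) (Continuous.matrix_adjugate (by fun_prop))))).mul
      (continuous_val.comp (continuous_inv.comp continuous_snd))
  have h1 := hL.eventually_forall_of_forall_eventually
    (x₀ := (0 : (Fin n → Fin n → ℝ) × (Fin n → Fin n → ℝ) × (Fin n → Fin n → ℝ))) (P := fun z g => ∀ a b, |phi p (of z.1) (of z.2.1) (of z.2.2) g a b| < 1) fun g _ =>
      eventually_all.2 fun a => eventually_all.2 fun b => by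
        exact (hΦ.matrix_elem a b).abs.continuousAt.eventually_lt (x₀ := (0, g))
          (g := fun _ => 1) continuousAt_const (by simp [phi])
  obtain ⟨ρ, hρ, h2⟩ := Metric.eventually_nhds_iff.1 h1
  refine ⟨ρ, hρ, fun g hg h M M' a1 a2 a3 => ?_⟩
  have a4 : ∀ A : Matrix (Fin n) (Fin n) ℝ, (∀ a b, |A a b| < ρ) → dist (of.symm A) 0 < ρ :=
    fun A hA => (dist_pi_lt_iff hρ).2 fun a => (dist_pi_lt_iff hρ).2 fun b => by
      simpa using hA a b
  ext a b
  have a5 := h2 (y := (of.symm (dev p M g), of.symm (dev p M' (g * h)), of.symm (h.1 - 1)))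
    (max_lt (a4 _ a1) (max_lt (a4 _ a2) (a4 _ a3))) g hg a b
  simp only [Equiv.apply_symm_apply, phi_eq] at a5
  rw [Matrix.sub_apply, castM, castM, map_apply, map_apply, ← Int.cast_sub, ← Int.cast_abs,
    ← Int.cast_one, Int.cast_lt] at a5
  exact sub_eq_zero.1 (Int.abs_lt_one_iff.1 a5)

/-- **The tube is transversal** to the root directions `(j, k)` with `p j ≠ p k`. -/
theorem tube_transv {Ω : Set (X n)} (hΩ : IsCompact Ω) (p : Fin n → ℝ) : ∃ ρ > 0, ∀ δ ≤ ρ,
    ∀ x ∈ Ω, ∀ h : G n, x ∈ Tube p δ → tr h x ∈ Tube p δ → (∀ a b, |(h.1 - 1) a b| < ρ) →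
      ∀ j k, |p j - p k| * |h.1 j k| ≤ 4 * n * δ := by
  obtain ⟨L, hL, h0⟩ := R.NB.exists_compact_lift Ω hΩ
  obtain ⟨ρ, hρ, h1⟩ := dev_unique hL p
  refine ⟨min ρ 1, lt_min hρ one_pos, fun δ hδ x hx h a1 a2 a3 j k => ?_⟩
  obtain ⟨g, hg, rfl⟩ := h0 x hx
  obtain ⟨M, b1⟩ := pt_mem_tube.1 a1
  obtain ⟨M', b2⟩ := pt_mem_tube.1 a2
  have b3 := hδ.trans (min_le_left _ _)
  obtain rfl := h1 g hg h M M' (fun a b => (b1 a b).trans_le b3) (fun a b => (b2 a b).trans_le b3)
    fun a b => (a3 a b).trans_le (min_le_left _ _)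
  refine (dev_entry (R := 2) (fun a b => (b1 a b).le) (fun a b => (b2 a b).le) (fun a b => ?_)
    j k).trans_eq (by ring)
  have b4 := abs_lt.1 ((a3 a b).trans_le (min_le_right _ _))
  rw [Matrix.sub_apply, Matrix.one_apply] at b4
  rw [abs_le]
  split_ifs at b4 <;> constructor <;> linarith

/-- a real multiplication is not a scalar -/
theorem exists_ne (hp : H11.IsMult p) (hne : (Yd p).Nonempty) : ∃ j k, p j ≠ p k := by
  by_contra! hc
  obtain ⟨f, hf, hi, h1, h2, h3⟩ := hp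
  obtain ⟨_, g, -, M, hM⟩ := hne
  obtain ⟨j⟩ : Nonempty (Fin n) := ⟨⟨0, by omega⟩⟩
  have e : castM M = p j • (1 : Matrix (Fin n) (Fin n) ℝ) := by
    rw [← mul_one (castM M), ← coe_mul_inv g, ← mul_assoc, ← hM, show p = fun _ => p j from
      funext fun k => hc k j, ← smul_one_eq_diagonal, mul_smul_comm, mul_one, smul_mul_assoc]
  have e' : p j = algebraMap ℤ ℝ (M j j) := by simpa [castM] using (congrFun (congrFun e j) j).symm
  have h4 := h3 j
  rw [e', Polynomial.aeval_algebraMap_apply, Polynomial.coe_aeval_eq_eval] at h4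
  have h5 := Polynomial.degree_eq_one_of_irreducible_of_root hi (x := M j j) (by simpa using h4)
  rw [Polynomial.natDegree_eq_of_degree_eq_some h5] at h1
  exact lt_irrefl _ h1

end Vale.Agent.P007M
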